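import Crest.Agent.R083.Frame

/-! Row 83: consequences of the local normal form. -/

set_option autoImplicit false

namespace Crest.Agent.R083

open MeasureTheory Filter Topology Set
open scoped Gradient RealInnerProductSpace

theorem assemble_cl_map (r : ℝ) (L : CL) (y : E) :
    cl (L.map fun q => (fun y => r * q.1 y, q.2)) y = r • cl L y := by
  induction L with
  | nil => simp
  | cons q L ih => rw [List.map_cons, cl_cons, cl_cons, ih, grad_const_mul, cr_smul_left, smul_add]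

theorem assemble_loc {ξ : E → ℝ} {L L₁ : CL} {p a b : E} {t m₁ m₂ : ℝ} (hξ : Jet ξ p a)
    (hY : Jet YY p b) (hL : CLC1 L p) (hp : p 2 ≠ 0)
    (h : ∀ᶠ y in 𝓝 p, cl L₁ y = t • (m₁ • cr (∇ ξ y) (∇ YY y) + m₂ • cl L y)) :
    ∃ L' : CL, CLC1 L' p ∧ (fun y : E => sg (y 2) • cl L₁ y) =ᶠ[𝓝 p] cl L' := by
  refine ⟨(fun y => (sg (p 2) * t * m₁) * ξ y, YY) ::
    L.map fun q => (fun y => (sg (p 2) * t * m₂) * q.1 y, q.2), ?_, ?_⟩
  · intro q hq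
    rcases List.mem_cons.1 hq with rfl | hq
    · exact ⟨(hξ.const_mul _).1, hY.1⟩
    · obtain ⟨q', hq', rfl⟩ := List.mem_map.1 hq
      exact ⟨contDiffAt_const.mul (hL q' hq').1, (hL q' hq').2⟩
  · filter_upwards [h, sg_eventually (f := fun y : E => y 2) (Jet.c2 p).cont hp] with y h1 h2
    rw [cl_cons, assemble_cl_map, grad_const_mul, cr_smul_left, h1, h2]
    simp only [smul_add, smul_smul, mul_assoc]

theorem assemble_norm {x w : ℝ} {z : E} (hx : |x| ≤ 10) (hw : |w| ≤ 10) (hz : ‖z‖ ≤ 100) :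
    ‖x • ex + w • z‖ ≤ 1010 := by
  refine (norm_add_le _ _).trans ?_
  rw [norm_smul, norm_smul, norm_ex, Real.norm_eq_abs, Real.norm_eq_abs]
  have := mul_le_mul hw hz (norm_nonneg _) (by norm_num)
  linarith

theorem assemble_abs_mul {x y X Y : ℝ} (hx : |x| ≤ X) (hy : |y| ≤ Y) : |x * y| ≤ X * Y := by
  rw [abs_mul]
  exact mul_le_mul hx hy (abs_nonneg _) ((abs_nonneg _).trans hx)

theorem assemble_norm_smul {x X Y : ℝ} {y : E} (hx : |x| ≤ X) (hy : ‖y‖ ≤ Y) : ‖x • y‖ ≤ X * Y := by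
  rw [norm_smul, Real.norm_eq_abs]
  exact mul_le_mul hx hy (norm_nonneg _) ((abs_nonneg _).trans hx)

theorem assemble_norm_cr {a b : E} {X Y : ℝ} (ha : ‖a‖ ≤ X) (hb : ‖b‖ ≤ Y) : ‖cr a b‖ ≤ X * Y :=
  (norm_cr_le a b).trans (mul_le_mul ha hb (norm_nonneg _) ((norm_nonneg _).trans ha))

theorem assemble_wall {κ K : ℝ} {p z b : E} (hZ : Zip p z b) {ξ τ : E → ℝ}
    {o ξx ξz τx τz d₁ d₂ d₃ j₁ j₂ t m₁ m₂ : ℝ} (hC : Chart p z ξ τ o ξx ξz τx τz)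
    (hN : Num κ K (ξ p) (YY p) d₁ d₂ d₃ j₁ j₂) (ht : |t| ≤ 1) (h₁ : |m₁| ≤ 24) (h₂ : |m₂| ≤ 24)
    {J : E} (hJ : J = t • (m₁ • cr (ξx • ex + ξz • z) b +
      m₂ • (j₁ • cr b (τx • ex + τz • z) + j₂ • cr (τx • ex + τz • z) (ξx • ex + ξz • z) +
        d₃ • cr (ξx • ex + ξz • z) b))) :
    |⟪J, ez⟫| ≤ 100 * (10 ^ 9 * (1 + K)) * |p 2| := by
  obtain ⟨-, -, -, hj₁, hj₂, hd₃⟩ := hN
  obtain ⟨b1, b2, b3, b4⟩ := hC.bd
  have hK : 0 ≤ K := (abs_nonneg _).trans hd₃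
  have ha := assemble_norm b1 b2 hZ.nz
  have hc := assemble_norm b3 b4 hZ.nz
  have hb := hZ.nb
  have hze := hZ.pos
  have hY : 0 ≤ 1 - |YY p| := by linarith [hZ.ylt]
  have hj₁' : |j₁| ≤ K := hj₁.trans (by nlinarith [abs_nonneg (ξ p)])
  have hj₂' : |j₂| ≤ K := hj₂.trans (by nlinarith [abs_nonneg (YY p)])
  have hj₁'' : |j₁| ≤ K * ze p := hj₁.trans (mul_le_mul_of_nonneg_left hC.wξ hK)
  have hΔ : |⟪cr ex b, z⟫| ≤ 1 * 100 * 100 :=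
    (abs_real_inner_le_norm _ _).trans (mul_le_mul (assemble_norm_cr norm_ex.le hb) hZ.nz
      (norm_nonneg _) (by norm_num))
  refine hZ.wall J _ ?_ ?_ ?_
  · rw [hJ]
    refine (assemble_norm_smul ht ((norm_add_le _ _).trans (add_le_add
      (assemble_norm_smul h₁ (assemble_norm_cr ha hb)) (assemble_norm_smul h₂
      ((norm_add_le _ _).trans (add_le_add ((norm_add_le _ _).trans (add_le_add
        (assemble_norm_smul hj₁' (assemble_norm_cr hb hc))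
        (assemble_norm_smul hj₂' (assemble_norm_cr hc ha))))
        (assemble_norm_smul hd₃ (assemble_norm_cr ha hb)))))))).trans ?_
    linarith
  · have e : ⟪J, z⟫ = t * ((m₁ * ξx + m₂ * (d₃ * ξx - j₁ * τx)) * ⟪cr ex b, z⟫) := by
      rw [hJ]; sc3
    rw [e]
    refine (assemble_abs_mul ht (assemble_abs_mul ((abs_add_le _ _).trans (add_le_add
      (assemble_abs_mul h₁ hC.wx) (assemble_abs_mul h₂ ((abs_sub _ _).trans (add_le_add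
        (assemble_abs_mul hd₃ hC.wx) (assemble_abs_mul hj₁'' b3)))))) hΔ)).trans ?_
    have := mul_nonneg hK hze.le
    nlinarith
  · have e : ⟪J, b⟫ = t * (m₂ * (j₂ * ((ξx * τz - ξz * τx) * ⟪cr ex b, z⟫))) := by
      rw [hJ]; sc3
    rw [e]
    refine (assemble_abs_mul ht (assemble_abs_mul h₂ (assemble_abs_mul hj₂ (assemble_abs_mul
      ((abs_sub _ _).trans (add_le_add (assemble_abs_mul b1 b4) (assemble_abs_mul b2 b3)))
      hΔ)))).trans ?_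
    have := mul_nonneg hK hY
    nlinarith

/-- With `a = ξx ex + ξz z`, `c = τx ex + τz z`, `j = ξx τz - ξz τx`:
`⟪cr a b, c⟫ = j ⟪cr ex b, z⟫`, and `frame` applies with orientation `sg (p 2) * o`.  The local
Clebsch lists are `(t m₁ ξ, YY) :: (L with first entries multiplied by t m₂)`, `t = sg (p 2) o ν`
(`grad_const_mul`, `sg_eventually`).  Wall: `j • z = ξx • c - τx • a`, `⟪J, a⟫ = j₁ det`,
`⟪J, b⟫ = j₂ det`, `⟪J, c⟫ = d₃ det`, and `hZ.wall`. -/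
theorem assemble {κ K : ℝ} (hκ : 0 < κ) : ∃ κ' K' Cw : ℝ, 0 < κ' ∧
    ∀ (Φ D : E → ℝ) (L₁ L₂ : CL) (p z b : E), Zip p z b → LocForm κ K Φ D L₁ L₂ p z b →
      ∀ F : Fld, F = ⟨Φ, D, fun y => sg (y 2) • cl L₁ y, fun y => sg (y 2) • cl L₂ y⟩ →
      F.Loc p ∧ Sym (F.st p) ∧ Rk (F.st p) ∧ Ell κ' K' (F.st p) ∧
        |⟪cl L₁ p, ez⟫| ≤ Cw * |p 2| ∧ |⟪cl L₂ p, ez⟫| ≤ Cw * |p 2| := by
  obtain ⟨κ', K', hκ', hfr⟩ := frame (K := K) (M := 9 * 10 ^ 6) hκ (by norm_num)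
  refine ⟨κ', K', 100 * (10 ^ 9 * (1 + K)), hκ', ?_⟩
  rintro Φ D L₁ L₂ p z b hZ ⟨ξ, τ, A, L, o, ν, ξx, ξz, τx, τz, d₁, d₂, d₃, j₁, j₂, m₁, m₂, m₃, m₄, k₁, k₂,
    hC, hA, hL, hcl, hN, hν, hν', hm, h₁, h₂, h₃, h₄, hΦ, hD, hL₁, hL₂⟩ F rfl
  have jΦ : Jet Φ p _ := (((hC.jτ.const_mul m₁).add (hA.const_mul m₂)).add_const k₁).congr hΦ
  have jD : Jet D p _ := (((hC.jτ.const_mul m₃).add (hA.const_mul m₄)).add_const k₂).congr hD
  have e₁ := hL₁.self_of_nhds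
  have e₂ := hL₂.self_of_nhds
  rw [hC.jξ.2, hZ.jY.2, hcl] at e₁ e₂
  have hoν : |o * ν| ≤ 1 := by
    rcases hC.ho with rfl | rfl <;> rw [abs_le] <;> constructor <;> linarith
  obtain ⟨b1, b2, b3, b4⟩ := hC.bd
  have ha := assemble_norm b1 b2 hZ.nz
  have hc := assemble_norm b3 b4 hZ.nz
  have hb := hZ.nb
  have key := hfr (ξx • ex + ξz • z) b (τx • ex + τz • z) (sg (p 2) * o) ν d₁ d₂ d₃ j₁ j₂ m₁ m₂ m₃ m₄
    (by linarith) (by linarith) (by linarith)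
    (by rcases sg_cases (p 2) with h | h <;> rcases hC.ho with h' | h' <;> rw [h, h'] <;> norm_num)
    (by
      have e : sg (p 2) * o * ⟪cr (ξx • ex + ξz • z) b, τx • ex + τz • z⟫ =
          (o * (ξx * τz - ξz * τx)) * (sg (p 2) * ⟪cr ex b, z⟫) := by sc3
      rw [e]
      have := mul_le_mul hC.jac hZ.det (by norm_num) ((by norm_num : (0:ℝ) ≤ 1 / 10 ^ 5).trans hC.jac)
      linarith)
    hν hν' hN.1 hN.2.1 hN.2.2.1 hm _ _ rfl rfl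
    (Fld.st ⟨Φ, D, fun y => sg (y 2) • cl L₁ y, fun y => sg (y 2) • cl L₂ y⟩ p)
    (by simp only [Fld.st, jΦ.2, jD.2, e₁, e₂, smul_smul, mul_assoc])
  obtain ⟨L₁', c₁, f₁⟩ := assemble_loc hC.jξ hZ.jY hL hZ.z0 hL₁
  obtain ⟨L₂', c₂, f₂⟩ := assemble_loc hC.jξ hZ.jY hL hZ.z0 hL₂
  exact ⟨⟨jΦ.1, jD.1, L₁', L₂', c₁, c₂, f₁, f₂⟩, key.1, key.2.1, key.2.2,
    assemble_wall hZ hC hN hoν h₁ h₂ e₁, assemble_wall hZ hC hN hoν h₃ h₄ e₂⟩

end Crest.Agent.R083
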