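import Crest.Agent.R083.Defs

/-! Row 83: vector algebra, gradient calculus, locally Lipschitz functions. -/

set_option autoImplicit false

namespace Crest.Agent.R083

open MeasureTheory Filter Topology Set
open scoped Gradient RealInnerProductSpace

/-! ### Vector algebra -/

theorem inner3 (a b : E) : ⟪a, b⟫ = a 0 * b 0 + a 1 * b 1 + a 2 * b 2 := by
  simp [PiLp.inner_apply, Fin.sum_univ_three]; ring

theorem norm_sq3 (a : E) : ‖a‖ ^ 2 = a 0 ^ 2 + a 1 ^ 2 + a 2 ^ 2 := by
  rw [← real_inner_self_eq_norm_sq, inner3]; ring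

theorem ext3 {a b : E} (h0 : a 0 = b 0) (h1 : a 1 = b 1) (h2 : a 2 = b 2) : a = b := by
  ext i; fin_cases i <;> assumption

@[simp] theorem cr0 (a b : E) : cr a b 0 = a 1 * b 2 - a 2 * b 1 := rfl
@[simp] theorem cr1 (a b : E) : cr a b 1 = a 2 * b 0 - a 0 * b 2 := rfl
@[simp] theorem cr2 (a b : E) : cr a b 2 = a 0 * b 1 - a 1 * b 0 := rfl
@[simp] theorem ex0 : ex 0 = 1 := rfl
@[simp] theorem ex1 : ex 1 = 0 := rfl
@[simp] theorem ex2 : ex 2 = 0 := rfl
@[simp] theorem ey0 : ey 0 = 0 := rfl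
@[simp] theorem ey1 : ey 1 = 1 := rfl
@[simp] theorem ey2 : ey 2 = 0 := rfl
@[simp] theorem ez0 : ez 0 = 0 := rfl
@[simp] theorem ez1 : ez 1 = 0 := rfl
@[simp] theorem ez2 : ez 2 = 1 := rfl
@[simp] theorem SS0 (s : ℝ) (p : E) : SS s p 0 = 50 * s + 8 / 15 * p 1 := rfl
@[simp] theorem SS1 (s : ℝ) (p : E) : SS s p 1 = 8 / 15 * p 0 := rfl
@[simp] theorem SS2 (s : ℝ) (p : E) : SS s p 2 = 8 / 15 * p 2 := rfl
@[simp] theorem SI0 (s : ℝ) (p : E) : SI s p 0 = 15 / 8 * p 1 := rfl
@[simp] theorem SI1 (s : ℝ) (p : E) : SI s p 1 = 15 / 8 * (p 0 - 50 * s) := rfl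
@[simp] theorem SI2 (s : ℝ) (p : E) : SI s p 2 = 15 / 8 * p 2 := rfl

/-- Proves polynomial identities between vectors of `E` built from `+ - • cr ⟪⟫ ex ey ez`. -/
macro "vec3" : tactic => `(tactic| (refine ext3 ?_ ?_ ?_ <;>
  simp only [inner3, cr0, cr1, cr2, ex0, ex1, ex2, ey0, ey1, ey2, ez0, ez1, ez2, PiLp.add_apply,
    PiLp.sub_apply, PiLp.smul_apply, PiLp.neg_apply, PiLp.zero_apply, smul_eq_mul] <;> ring))

/-- Proves polynomial identities between scalars built from inner products of such vectors. -/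
macro "sc3" : tactic => `(tactic| (
  simp only [inner3, cr0, cr1, cr2, ex0, ex1, ex2, ey0, ey1, ey2, ez0, ez1, ez2, PiLp.add_apply,
    PiLp.sub_apply, PiLp.smul_apply, PiLp.neg_apply, PiLp.zero_apply, smul_eq_mul] <;> ring))

@[simp] theorem cr_zero_left (a : E) : cr 0 a = 0 := by vec3
@[simp] theorem cr_zero_right (a : E) : cr a 0 = 0 := by vec3
theorem cr_smul_left (t : ℝ) (a b : E) : cr (t • a) b = t • cr a b := by vec3
theorem cr_smul_right (t : ℝ) (a b : E) : cr a (t • b) = t • cr a b := by vec3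
theorem cr_add_left (a a' b : E) : cr (a + a') b = cr a b + cr a' b := by vec3
theorem cr_add_right (a b b' : E) : cr a (b + b') = cr a b + cr a b' := by vec3
theorem cr_sub_left (a a' b : E) : cr (a - a') b = cr a b - cr a' b := by vec3
theorem cr_sub_right (a b b' : E) : cr a (b - b') = cr a b - cr a b' := by vec3
theorem cr_comm (a b : E) : cr a b = -cr b a := by vec3
theorem inner_cr_cyc (a b c : E) : ⟪cr a b, c⟫ = ⟪cr b c, a⟫ := by sc3
theorem norm_cr_sq (a b : E) : ‖cr a b‖ ^ 2 = ‖a‖ ^ 2 * ‖b‖ ^ 2 - ⟪a, b⟫ ^ 2 := by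
  simp only [norm_sq3]; sc3
theorem norm_cr_le (a b : E) : ‖cr a b‖ ≤ ‖a‖ * ‖b‖ := by
  refine (abs_le_of_sq_le_sq' ?_ (by positivity)).2
  rw [norm_cr_sq, mul_pow]
  nlinarith [sq_nonneg ⟪a, b⟫]
/-- Cramer's rule. -/
theorem det_smul (a b c v : E) :
    ⟪cr a b, c⟫ • v = ⟪v, a⟫ • cr b c + ⟪v, b⟫ • cr c a + ⟪v, c⟫ • cr a b := by vec3
theorem norm_ex : ‖ex‖ = 1 := by
  rw [← sq_eq_sq₀ (norm_nonneg _) zero_le_one, norm_sq3]; simp
theorem norm_ey : ‖ey‖ = 1 := by
  rw [← sq_eq_sq₀ (norm_nonneg _) zero_le_one, norm_sq3]; simp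
theorem norm_ez : ‖ez‖ = 1 := by
  rw [← sq_eq_sq₀ (norm_nonneg _) zero_le_one, norm_sq3]; simp

@[fun_prop] theorem continuous_cr {α : Type*} [TopologicalSpace α] {f g : α → E}
    (hf : Continuous f) (hg : Continuous g) : Continuous fun x => cr (f x) (g x) := by
  unfold cr
  refine (PiLp.continuous_toLp 2 _).comp (continuous_pi fun i => ?_)
  fin_cases i <;> simp <;> fun_prop

@[fun_prop] theorem continuousAt_cr {α : Type*} [TopologicalSpace α] {f g : α → E} {x : α}
    (hf : ContinuousAt f x) (hg : ContinuousAt g x) : ContinuousAt (fun x => cr (f x) (g x)) x :=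
  (continuous_cr continuous_fst continuous_snd).continuousAt.comp (hf.prodMk hg)

@[simp] theorem cl_nil (p : E) : cl [] p = 0 := rfl
@[simp] theorem cl_cons (q : (E → ℝ) × (E → ℝ)) (L : CL) (p : E) :
    cl (q :: L) p = cr (∇ q.1 p) (∇ q.2 p) + cl L p := by simp [cl]
theorem cl_append (L L' : CL) (p : E) : cl (L ++ L') p = cl L p + cl L' p := by simp [cl]

theorem sg_sq (t : ℝ) : sg t * sg t = 1 := by unfold sg; split_ifs <;> norm_num
theorem sg_cases (t : ℝ) : sg t = 1 ∨ sg t = -1 := by unfold sg; split_ifs <;> simp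
theorem sg_mul_self (t : ℝ) : sg t * t = |t| := by
  unfold sg; split_ifs with h
  · rw [abs_of_pos h, one_mul]
  · rw [abs_of_nonpos (not_lt.1 h), neg_one_mul]
theorem sg_eventually {α : Type*} [TopologicalSpace α] {f : α → ℝ} {x : α} (hf : ContinuousAt f x)
    (h : f x ≠ 0) : ∀ᶠ y in 𝓝 x, sg (f y) = sg (f x) := by
  rcases h.lt_or_gt with h | h
  · filter_upwards [hf.eventually_lt continuousAt_const h] with y hy
    rw [sg, sg, if_neg hy.not_gt, if_neg h.not_gt]
  · filter_upwards [continuousAt_const.eventually_lt hf h] with y hy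
    rw [sg, sg, if_pos hy, if_pos h]

theorem clp_of_le {a b t : ℝ} (h : t ≤ a) : clp a b t = a := max_eq_left ((min_le_left _ _).trans h)
theorem clp_of_ge {a b t : ℝ} (hab : a ≤ b) (h : b ≤ t) : clp a b t = b := by
  rw [clp, min_eq_right h, max_eq_right hab]
theorem clp_of_mem {a b t : ℝ} (h1 : a ≤ t) (h2 : t ≤ b) : clp a b t = t := by
  rw [clp, min_eq_left h2, max_eq_right h1]
theorem le_clp (a b t : ℝ) : a ≤ clp a b t := le_max_left _ _
theorem clp_le {a b : ℝ} (hab : a ≤ b) (t : ℝ) : clp a b t ≤ b := max_le hab (min_le_right _ _)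
theorem lipschitz_clp (a b : ℝ) : LipschitzWith 1 (clp a b) :=
  (LipschitzWith.id.min_const b).const_max a
@[fun_prop] theorem continuous_clp {α : Type*} [TopologicalSpace α] {f : α → ℝ} (a b : ℝ)
    (hf : Continuous f) : Continuous fun x => clp a b (f x) := (lipschitz_clp a b).continuous.comp hf

/-! ### Gradients -/

theorem grad_ext {f : E → ℝ} {p v : E} (h : ∀ w, fderiv ℝ f p w = ⟪v, w⟫) : ∇ f p = v :=
  ext_inner_right ℝ fun w => by rw [inner_gradient_left, h]

theorem norm_grad (f : E → ℝ) (p : E) : ‖∇ f p‖ = ‖fderiv ℝ f p‖ := by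
  rw [gradient, LinearIsometryEquiv.norm_map]

theorem measurable_grad (f : E → ℝ) : Measurable (∇ f) :=
  (InnerProductSpace.toDual ℝ E).symm.continuous.measurable.comp (measurable_fderiv ℝ f)

theorem measurable_cl (L : CL) : Measurable (cl L) := by
  induction L with
  | nil => exact measurable_const
  | cons q L ih =>
    rw [show cl (q :: L) = fun p => cr (∇ q.1 p) (∇ q.2 p) + cl L p from funext (cl_cons q L)]
    exact ((continuous_cr continuous_fst continuous_snd).measurable.comp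
      ((measurable_grad _).prodMk (measurable_grad _))).add ih

theorem measurable_sg : Measurable sg :=
  Measurable.ite measurableSet_Ioi measurable_const measurable_const

section
variable {f g : E → ℝ} {p : E}

theorem grad_add (hf : DifferentiableAt ℝ f p) (hg : DifferentiableAt ℝ g p) :
    ∇ (fun y => f y + g y) p = ∇ f p + ∇ g p :=
  grad_ext fun w => by simp [fderiv_fun_add hf hg, inner_add_left]

theorem grad_sub (hf : DifferentiableAt ℝ f p) (hg : DifferentiableAt ℝ g p) :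
    ∇ (fun y => f y - g y) p = ∇ f p - ∇ g p :=
  grad_ext fun w => by simp [fderiv_fun_sub hf hg, inner_sub_left]

theorem grad_mul (hf : DifferentiableAt ℝ f p) (hg : DifferentiableAt ℝ g p) :
    ∇ (fun y => f y * g y) p = f p • ∇ g p + g p • ∇ f p :=
  grad_ext fun w => by simp [fderiv_fun_mul hf hg, inner_add_left, inner_smul_left]

theorem grad_add_const (c : ℝ) : ∇ (fun y => f y + c) p = ∇ f p := by
  simp only [gradient, fderiv_add_const]

theorem grad_const_mul (c : ℝ) : ∇ (fun y => c * f y) p = c • ∇ f p := by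
  rcases eq_or_ne c 0 with rfl | hc
  · simp [gradient]
  · by_cases hf : DifferentiableAt ℝ f p
    · exact grad_ext fun w => by simp [fderiv_const_mul hf, inner_smul_left]
    · rw [gradient_eq_zero_of_not_differentiableAt hf, gradient_eq_zero_of_not_differentiableAt,
        smul_zero]
      intro h
      exact hf (by simpa [hc] using h.const_mul c⁻¹)

theorem grad_comp1 {G : ℝ → ℝ} {G' : ℝ} (hG : HasDerivAt G G' (f p))
    (hf : DifferentiableAt ℝ f p) : ∇ (fun y => G (f y)) p = G' • ∇ f p :=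
  grad_ext fun w => by
    rw [show (fun y => G (f y)) = G ∘ f from rfl, (hG.comp_hasFDerivAt p hf.hasFDerivAt).fderiv]
    simp [inner_smul_left]

theorem grad_inv (hf : DifferentiableAt ℝ f p) (h : f p ≠ 0) :
    ∇ (fun y => (f y)⁻¹) p = (-(f p ^ 2)⁻¹) • ∇ f p := grad_comp1 (hasDerivAt_inv h) hf

theorem grad_of_eventually_const {c : ℝ} (h : ∀ᶠ y in 𝓝 p, f y = c) : ∇ f p = 0 := by
  rw [EventuallyEq.gradient_eq (f := fun _ => c) h, gradient_fun_const]

theorem continuousAt_grad (hf : ContDiffAt ℝ 1 f p) : ContinuousAt (∇ f) p :=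
  (InnerProductSpace.toDual ℝ E).symm.continuous.continuousAt.comp
    (hf.continuousAt_fderiv one_ne_zero)

theorem CLC1.continuousAt {L : CL} (h : CLC1 L p) : ContinuousAt (cl L) p := by
  induction L with
  | nil => exact continuousAt_const
  | cons q L ih =>
    rw [show cl (q :: L) = fun p => cr (∇ q.1 p) (∇ q.2 p) + cl L p from funext (cl_cons q L)]
    exact (continuousAt_cr (continuousAt_grad (h q (by simp)).1)
      (continuousAt_grad (h q (by simp)).2)).add (ih fun q' hq' => h q' (by simp [hq']))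

theorem CLC1.eventually {L : CL} (h : CLC1 L p) : ∀ᶠ y in 𝓝 p, CLC1 L y := by
  induction L with
  | nil => exact .of_forall fun y q hq => by simp at hq
  | cons q L ih =>
    filter_upwards [ih fun q' hq' => h q' (by simp [hq']), (h q (by simp)).1.eventually (by simp),
      (h q (by simp)).2.eventually (by simp)] with y h1 h2 h3 q' hq'
    rcases List.mem_cons.1 hq' with rfl | hq'
    exacts [⟨h2, h3⟩, h1 q' hq']

end

namespace Jet
variable {f g : E → ℝ} {p u v : E}

theorem diff (h : Jet f p u) : DifferentiableAt ℝ f p := h.1.differentiableAt one_ne_zero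
theorem cont (h : Jet f p u) : ContinuousAt f p := h.1.continuousAt
theorem of_eq (h : Jet f p u) (e : u = v) : Jet f p v := e ▸ h
theorem congr (h : Jet f p u) (e : g =ᶠ[𝓝 p] f) : Jet g p u :=
  ⟨h.1.congr_of_eventuallyEq e, e.gradient_eq.trans h.2⟩
theorem const (c : ℝ) : Jet (fun _ => c) p 0 := ⟨contDiffAt_const, gradient_fun_const _ _⟩
theorem add (hf : Jet f p u) (hg : Jet g p v) : Jet (fun y => f y + g y) p (u + v) :=
  ⟨hf.1.add hg.1, by rw [grad_add hf.diff hg.diff, hf.2, hg.2]⟩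
theorem sub (hf : Jet f p u) (hg : Jet g p v) : Jet (fun y => f y - g y) p (u - v) :=
  ⟨hf.1.sub hg.1, by rw [grad_sub hf.diff hg.diff, hf.2, hg.2]⟩
theorem mul (hf : Jet f p u) (hg : Jet g p v) :
    Jet (fun y => f y * g y) p (f p • v + g p • u) :=
  ⟨hf.1.mul hg.1, by rw [grad_mul hf.diff hg.diff, hf.2, hg.2]⟩
theorem const_mul (c : ℝ) (hf : Jet f p u) : Jet (fun y => c * f y) p (c • u) :=
  ⟨contDiffAt_const.mul hf.1, by rw [grad_const_mul, hf.2]⟩
theorem add_const (hf : Jet f p u) (c : ℝ) : Jet (fun y => f y + c) p u :=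
  (hf.add (const c)).of_eq (add_zero _)
theorem const_add (c : ℝ) (hf : Jet f p u) : Jet (fun y => c + f y) p u :=
  ((const c).add hf).of_eq (zero_add _)
theorem sub_const (hf : Jet f p u) (c : ℝ) : Jet (fun y => f y - c) p u :=
  (hf.sub (const c)).of_eq (sub_zero _)
theorem const_sub (c : ℝ) (hf : Jet f p u) : Jet (fun y => c - f y) p (-u) :=
  ((const c).sub hf).of_eq (zero_sub _)
theorem neg (hf : Jet f p u) : Jet (fun y => -f y) p (-u) :=
  (const_sub 0 hf).congr (.of_forall fun _ => (zero_sub _).symm)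
theorem div_const (hf : Jet f p u) (c : ℝ) : Jet (fun y => f y / c) p (c⁻¹ • u) :=
  (const_mul c⁻¹ hf).congr (.of_forall fun _ => div_eq_inv_mul _ _)
theorem comp1 {G : ℝ → ℝ} {G' : ℝ} (hf : Jet f p u) (hG : ContDiffAt ℝ 1 G (f p))
    (hG' : HasDerivAt G G' (f p)) : Jet (fun y => G (f y)) p (G' • u) :=
  ⟨hG.comp p hf.1, by rw [grad_comp1 hG' hf.diff, hf.2]⟩
theorem inv (hf : Jet f p u) (h : f p ≠ 0) : Jet (fun y => (f y)⁻¹) p ((-(f p ^ 2)⁻¹) • u) :=
  hf.comp1 (contDiffAt_inv ℝ h) (hasDerivAt_inv h)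
theorem div (hf : Jet f p u) (hg : Jet g p v) (h : g p ≠ 0) :
    Jet (fun y => f y / g y) p ((g p)⁻¹ • u - (f p / g p ^ 2) • v) :=
  ((hf.mul (hg.inv h)).congr (.of_forall fun _ => div_eq_mul_inv _ _)).of_eq (by
    rw [smul_smul, div_eq_mul_inv, mul_neg, neg_smul]; abel)
theorem pow (hf : Jet f p u) (n : ℕ) :
    Jet (fun y => f y ^ n) p (((n : ℝ) * f p ^ (n - 1)) • u) :=
  hf.comp1 (G := fun t => t ^ n) (contDiffAt_id.pow n) (hasDerivAt_pow n _)
theorem sin (hf : Jet f p u) : Jet (fun y => Real.sin (f y)) p (Real.cos (f p) • u) :=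
  hf.comp1 Real.contDiff_sin.contDiffAt (Real.hasDerivAt_sin _)
theorem cos (hf : Jet f p u) : Jet (fun y => Real.cos (f y)) p ((-Real.sin (f p)) • u) :=
  hf.comp1 Real.contDiff_cos.contDiffAt (Real.hasDerivAt_cos _)
theorem abs (hf : Jet f p u) (h : f p ≠ 0) : Jet (fun y => |f y|) p (sg (f p) • u) := by
  refine (const_mul (sg (f p)) hf).congr ?_
  filter_upwards [sg_eventually hf.cont h] with y hy
  rw [← hy, sg_mul_self]
theorem inner (v p : E) : Jet (fun y => ⟪v, y⟫) p v :=
  ⟨(innerSL ℝ v).contDiff.contDiffAt, grad_ext fun w => by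
    rw [show (fun y => ⟪v, y⟫) = innerSL ℝ v from rfl, ContinuousLinearMap.fderiv]; rfl⟩
theorem c0 (p : E) : Jet (fun y => y 0) p ex :=
  (inner ex p).congr (.of_forall fun y => by simp [inner3])
theorem c1 (p : E) : Jet (fun y => y 1) p ey :=
  (inner ey p).congr (.of_forall fun y => by simp [inner3])
theorem c2 (p : E) : Jet (fun y => y 2) p ez :=
  (inner ez p).congr (.of_forall fun y => by simp [inner3])
theorem max_left (hf : Jet f p u) (hg : ContinuousAt g p) (h : g p < f p) :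
    Jet (fun y => max (f y) (g y)) p u :=
  hf.congr ((hg.eventually_lt hf.cont h).mono fun _ hy => max_eq_left hy.le)
theorem max_right (hf : ContinuousAt f p) (hg : Jet g p u) (h : f p < g p) :
    Jet (fun y => max (f y) (g y)) p u :=
  hg.congr ((hf.eventually_lt hg.cont h).mono fun _ hy => max_eq_right hy.le)
theorem min_left (hf : Jet f p u) (hg : ContinuousAt g p) (h : f p < g p) :
    Jet (fun y => min (f y) (g y)) p u :=
  hf.congr ((hf.cont.eventually_lt hg h).mono fun _ hy => min_eq_left hy.le)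
theorem min_right (hf : ContinuousAt f p) (hg : Jet g p u) (h : g p < f p) :
    Jet (fun y => min (f y) (g y)) p u :=
  hg.congr ((hg.cont.eventually_lt hf h).mono fun _ hy => min_eq_right hy.le)
theorem clp_mid {a b : ℝ} (hf : Jet f p u) (h1 : a < f p) (h2 : f p < b) :
    Jet (fun y => clp a b (f y)) p u :=
  max_right continuousAt_const (min_left hf continuousAt_const h2) (by rwa [min_eq_left h2.le])
theorem clp_low {a b : ℝ} (hf : ContinuousAt f p) (h : f p < a) :
    Jet (fun y => clp a b (f y)) p 0 :=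
  (const a).congr ((hf.eventually_lt continuousAt_const h).mono fun _ hy => clp_of_le hy.le)
theorem clp_high {a b : ℝ} (hab : a ≤ b) (hf : ContinuousAt f p) (h : b < f p) :
    Jet (fun y => clp a b (f y)) p 0 :=
  (const b).congr ((continuousAt_const.eventually_lt hf h).mono fun _ hy => clp_of_ge hab hy.le)

end Jet

/-! ### Locally Lipschitz functions -/

namespace LL
variable {α : Type*} [PseudoMetricSpace α] {f g : α → ℝ}

theorem const (c : ℝ) : LocallyLipschitz fun _ : α => c := LocallyLipschitz.const c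
theorem add (hf : LocallyLipschitz f) (hg : LocallyLipschitz g) :
    LocallyLipschitz fun x => f x + g x := hf.add hg
theorem sub (hf : LocallyLipschitz f) (hg : LocallyLipschitz g) :
    LocallyLipschitz fun x => f x - g x := hf.sub hg
theorem neg (hf : LocallyLipschitz f) : LocallyLipschitz fun x => -f x := hf.neg
theorem mul (hf : LocallyLipschitz f) (hg : LocallyLipschitz g) :
    LocallyLipschitz fun x => f x * g x :=
  (contDiff_mul (𝕜 := ℝ) (𝔸 := ℝ)).locallyLipschitz.comp (hf.prodMk hg)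
theorem comp1 {G : ℝ → ℝ} (hG : ContDiff ℝ 1 G) (hf : LocallyLipschitz f) :
    LocallyLipschitz fun x => G (f x) := hG.locallyLipschitz.comp hf
theorem pow (hf : LocallyLipschitz f) (n : ℕ) : LocallyLipschitz fun x => f x ^ n :=
  comp1 (G := fun t => t ^ n) (contDiff_id.pow n) hf
theorem abs (hf : LocallyLipschitz f) : LocallyLipschitz fun x => |f x| :=
  (lipschitzWith_one_norm (E := ℝ)).locallyLipschitz.comp hf
theorem max (hf : LocallyLipschitz f) (hg : LocallyLipschitz g) :
    LocallyLipschitz fun x => max (f x) (g x) := hf.max hg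
theorem min (hf : LocallyLipschitz f) (hg : LocallyLipschitz g) :
    LocallyLipschitz fun x => min (f x) (g x) := hf.min hg
theorem clp (a b : ℝ) (hf : LocallyLipschitz f) : LocallyLipschitz fun x => clp a b (f x) :=
  (lipschitz_clp a b).locallyLipschitz.comp hf
theorem inv (hf : LocallyLipschitz f) (h : ∀ x, f x ≠ 0) : LocallyLipschitz fun x => (f x)⁻¹ := by
  intro x
  obtain ⟨K, t, ht, hK⟩ := hf x
  obtain ⟨K', u, hu, hK'⟩ := (contDiffAt_inv ℝ (h x) (n := 1)).exists_lipschitzOnWith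
  exact ⟨K' * K, t ∩ f ⁻¹' u, inter_mem ht (hf.continuous.continuousAt hu),
    hK'.comp (hK.mono inter_subset_left) ((mapsTo_preimage f u).mono_left inter_subset_right)⟩
theorem div (hf : LocallyLipschitz f) (hg : LocallyLipschitz g) (h : ∀ x, g x ≠ 0) :
    LocallyLipschitz fun x => f x / g x := by
  simpa only [div_eq_mul_inv] using mul hf (inv hg h)
theorem div_const (hf : LocallyLipschitz f) (c : ℝ) : LocallyLipschitz fun x => f x / c := by
  simpa only [div_eq_mul_inv] using mul hf (const c⁻¹)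
theorem coord (i : Fin 3) : LocallyLipschitz fun p : E => p i :=
  (EuclideanSpace.proj i : E →L[ℝ] ℝ).lipschitz.locallyLipschitz

/-- On a bounded set a locally Lipschitz function agrees with a Lipschitz function. -/
theorem ext {f : E → ℝ} (hf : LocallyLipschitz f) (R : ℝ) :
    ∃ (K : NNReal) (g : E → ℝ), LipschitzWith K g ∧ ∀ p ∈ Metric.closedBall (0 : E) R, g p = f p := by
  obtain ⟨K, hK⟩ := hf.locallyLipschitzOn.exists_lipschitzOnWith_of_compact
    (isCompact_closedBall (0 : E) R)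
  obtain ⟨g, hg, e⟩ := hK.extend_real
  exact ⟨K, g, hg, fun p hp => (e hp).symm⟩

theorem ae_diff {f : E → ℝ} (hf : LocallyLipschitz f) : ∀ᵐ p : E, DifferentiableAt ℝ f p := by
  have : ∀ n : ℕ, ∀ᵐ p : E, p ∈ Metric.ball (0 : E) n → DifferentiableAt ℝ f p := fun n => by
    obtain ⟨K, g, hg, e⟩ := ext hf n
    filter_upwards [hg.ae_differentiableAt] with p hp hn
    refine hp.congr_of_eventuallyEq ?_
    filter_upwards [Metric.isOpen_ball.mem_nhds hn] with y hy
    exact (e y (Metric.ball_subset_closedBall hy)).symm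
  filter_upwards [ae_all_iff.2 this] with p hp
  obtain ⟨n, hn⟩ := exists_nat_gt ‖p‖
  exact hp n (by simpa using hn)

theorem grad_bdd {f : E → ℝ} (hf : LocallyLipschitz f) (R : ℝ) :
    ∃ K : ℝ, 0 ≤ K ∧ ∀ p : E, ‖p‖ ≤ R → ‖∇ f p‖ ≤ K := by
  obtain ⟨K, g, hg, e⟩ := ext hf (R + 1)
  refine ⟨K, K.2, fun p hp => ?_⟩
  have : f =ᶠ[𝓝 p] g := by
    filter_upwards [Metric.isOpen_ball.mem_nhds (show p ∈ Metric.ball (0 : E) (R + 1) by
      simpa using by linarith)] with y hy
    exact (e y (Metric.ball_subset_closedBall hy)).symm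
  rw [this.gradient_eq, norm_grad]
  exact norm_fderiv_le_of_lipschitz ℝ hg

theorem bdd {f : E → ℝ} (hf : LocallyLipschitz f) (R : ℝ) :
    ∃ K : ℝ, 0 ≤ K ∧ ∀ p : E, ‖p‖ ≤ R → |f p| ≤ K := by
  obtain ⟨K, hK⟩ := (isCompact_closedBall (0 : E) R).exists_bound_of_continuousOn
    hf.continuous.continuousOn
  exact ⟨Max.max K 0, le_max_right _ _, fun p hp => (hK p (by simpa using hp)).trans (le_max_left _ _)⟩

end LL

/-- A bounded measurable function is integrable on a bounded set. -/
theorem integrableOn_of_bdd {f : E → ℝ} {s : Set E} (hs : Bornology.IsBounded s)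
    (hm : MeasurableSet s) (hf : Measurable f) {K : ℝ} (h : ∀ᵐ p : E, p ∈ s → |f p| ≤ K) :
    IntegrableOn f s :=
  Measure.integrableOn_of_bounded hs.measure_lt_top.ne hf.aestronglyMeasurable
    ((ae_restrict_iff' hm).2 h)

theorem CLLL.bdd {L : CL} (h : CLLL L) (R : ℝ) :
    ∃ K : ℝ, 0 ≤ K ∧ ∀ p : E, ‖p‖ ≤ R → ‖cl L p‖ ≤ K := by
  induction L with
  | nil => exact ⟨0, le_rfl, fun p _ => by simp⟩
  | cons q L ih =>
    obtain ⟨K, hK, h1⟩ := ih fun q' hq' => h q' (by simp [hq'])
    obtain ⟨K₁, hK₁, h2⟩ := LL.grad_bdd (h q (by simp)).1 R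
    obtain ⟨K₂, hK₂, h3⟩ := LL.grad_bdd (h q (by simp)).2 R
    refine ⟨K₁ * K₂ + K, by positivity, fun p hp => ?_⟩
    rw [cl_cons]
    exact (norm_add_le _ _).trans (add_le_add ((norm_cr_le _ _).trans
      (mul_le_mul (h2 p hp) (h3 p hp) (norm_nonneg _) hK₁)) (h1 p hp))

end Crest.Agent.R083
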