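import Crest.Agent.R083.Basic

/-! Row 83: the cascade is Lipschitz and locally a finite sum. -/

set_option autoImplicit false

namespace Crest.Agent.R083

open MeasureTheory Filter Topology Set
open scoped Gradient RealInnerProductSpace

variable {Λ δ : ℝ}

/-- Bounded Lipschitz functions. -/
def casclip_BL {α : Type*} [PseudoMetricSpace α] (f : α → ℝ) : Prop :=
  ∃ C : ℝ, 0 ≤ C ∧ (∀ x, |f x| ≤ C) ∧ ∀ x y, |f x - f y| ≤ C * dist x y

section BL
variable {α : Type*} [PseudoMetricSpace α] {f g : α → ℝ}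

theorem casclip_const (c : ℝ) : casclip_BL fun _ : α => c :=
  ⟨|c|, abs_nonneg _, fun _ => le_rfl, fun x y => by simp; positivity⟩

theorem casclip_add (hf : casclip_BL f) (hg : casclip_BL g) : casclip_BL fun x => f x + g x := by
  obtain ⟨C, hC, h1, h2⟩ := hf
  obtain ⟨D, hD, h3, h4⟩ := hg
  refine ⟨C + D, by positivity, fun x => (abs_add_le _ _).trans (add_le_add (h1 x) (h3 x)),
    fun x y => ?_⟩
  calc |f x + g x - (f y + g y)| = |(f x - f y) + (g x - g y)| := by ring_nf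
    _ ≤ C * dist x y + D * dist x y := (abs_add_le _ _).trans (add_le_add (h2 x y) (h4 x y))
    _ = _ := by ring

theorem casclip_mul (hf : casclip_BL f) (hg : casclip_BL g) : casclip_BL fun x => f x * g x := by
  obtain ⟨C, hC, h1, h2⟩ := hf
  obtain ⟨D, hD, h3, h4⟩ := hg
  refine ⟨2 * (C * D), by positivity, fun x => ?_, fun x y => ?_⟩
  · rw [abs_mul]
    have := mul_le_mul (h1 x) (h3 x) (abs_nonneg _) hC
    have : 0 ≤ C * D := by positivity
    linarith
  · calc |f x * g x - f y * g y| = |f x * (g x - g y) + (f x - f y) * g y| := by ring_nf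
      _ ≤ |f x| * |g x - g y| + |f x - f y| * |g y| := by
        rw [← abs_mul, ← abs_mul]; exact abs_add_le _ _
      _ ≤ C * (D * dist x y) + C * dist x y * D :=
        add_le_add (mul_le_mul (h1 x) (h4 x y) (abs_nonneg _) hC)
          (mul_le_mul (h2 x y) (h3 y) (abs_nonneg _) (by positivity))
      _ = _ := by ring

theorem casclip_cmul (c : ℝ) (hf : casclip_BL f) : casclip_BL fun x => c * f x :=
  casclip_mul (casclip_const c) hf

theorem casclip_neg (hf : casclip_BL f) : casclip_BL fun x => -f x := by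
  simpa using casclip_cmul (-1) hf

theorem casclip_sub (hf : casclip_BL f) (hg : casclip_BL g) : casclip_BL fun x => f x - g x := by
  simpa only [sub_eq_add_neg] using casclip_add hf (casclip_neg hg)

theorem casclip_div (hf : casclip_BL f) (c : ℝ) : casclip_BL fun x => f x / c := by
  simpa only [div_eq_mul_inv] using casclip_mul hf (casclip_const c⁻¹)

theorem casclip_pow (hf : casclip_BL f) (n : ℕ) : casclip_BL fun x => f x ^ n := by
  induction n with
  | zero => simpa using casclip_const (α := α) 1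
  | succ n ih => simpa only [pow_succ] using casclip_mul ih hf

theorem casclip_of_lip {K : NNReal} {B : ℝ} (hf : LipschitzWith K f) (hB : ∀ x, |f x| ≤ B) :
    casclip_BL f := by
  refine ⟨K + |B|, by positivity, fun x => ?_, fun x y => ?_⟩
  · have := hB x
    have := le_abs_self B
    have := K.2
    simp only [NNReal.val_eq_coe] at this
    linarith
  · have h := hf.dist_le_mul x y
    rw [Real.dist_eq] at h
    have : 0 ≤ |B| * dist x y := by positivity
    linarith [add_mul (K : ℝ) |B| (dist x y)]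

theorem casclip_comp {β : Type*} [PseudoMetricSpace β] {K : NNReal} {φ : β → α}
    (hf : casclip_BL f) (hφ : LipschitzWith K φ) : casclip_BL fun x => f (φ x) := by
  obtain ⟨C, hC, h1, h2⟩ := hf
  refine ⟨C * (1 + K), by positivity, fun x => ?_, fun x y => ?_⟩
  · have : 0 ≤ C * K := by positivity
    linarith [h1 (φ x), mul_add C 1 (K : ℝ)]
  · have h := mul_le_mul_of_nonneg_left (hφ.dist_le_mul x y) hC
    have : 0 ≤ C * dist x y := by positivity
    calc |f (φ x) - f (φ y)| ≤ C * (K * dist x y) := (h2 _ _).trans h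
      _ ≤ _ := by nlinarith

theorem casclip_ll (hf : casclip_BL f) : LocallyLipschitz f := by
  obtain ⟨C, hC, -, h2⟩ := hf
  exact (LipschitzWith.of_dist_le_mul (K := ⟨C, hC⟩) fun x y => h2 x y).locallyLipschitz

end BL

theorem casclip_clp (a b : ℝ) : casclip_BL (clp a b) :=
  casclip_of_lip (B := |a| + |b|) (lipschitz_clp a b) fun x => by
    rw [abs_le]
    have h1 := le_clp a b x
    have h2 : clp a b x ≤ max a b := max_le_max le_rfl (min_le_right _ _)
    have h3 : max a b ≤ |a| + |b| :=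
      max_le (by linarith [le_abs_self a, abs_nonneg b]) (by linarith [le_abs_self b, abs_nonneg a])
    constructor
    · linarith [neg_abs_le a, abs_nonneg b]
    · linarith

theorem casclip_lip_mul (c : ℝ) : LipschitzWith ‖c‖₊ fun x : ℝ => c * x :=
  LipschitzWith.of_dist_le_mul fun x y => by
    rw [Real.dist_eq, Real.dist_eq, ← mul_sub, abs_mul]; rfl

theorem casclip_clp1 (a b : ℝ) : casclip_BL fun w : ℝ => clp a b (w - 1) :=
  casclip_comp (K := 1) (casclip_clp a b) (LipschitzWith.of_dist_le_mul fun x y => by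
    simp [Real.dist_eq])

theorem casclip_clp4 : casclip_BL fun w : ℝ => clp 0 1 (4 - w) :=
  casclip_comp (K := 1) (casclip_clp 0 1) (LipschitzWith.of_dist_le_mul fun x y => by
    rw [Real.dist_eq, Real.dist_eq, show 4 - x - (4 - y) = -(x - y) by ring, abs_neg]; simp)

theorem casclip_AA : casclip_BL AA := by
  unfold AA As
  exact casclip_sub (casclip_add (casclip_pow (casclip_clp1 0 2) 3)
    (casclip_mul (casclip_pow casclip_clp4 3) (casclip_add (casclip_sub (casclip_const _)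
      (casclip_cmul _ casclip_clp4)) (casclip_cmul _ (casclip_pow casclip_clp4 2)))))
    (casclip_const _)

theorem casclip_AA1 : casclip_BL AA1 := by
  unfold AA1 As1
  exact casclip_sub (casclip_sub (casclip_cmul _ (casclip_pow (casclip_clp1 0 2) 2))
    (casclip_add (casclip_sub (casclip_cmul _ (casclip_pow casclip_clp4 2))
      (casclip_cmul _ (casclip_pow casclip_clp4 3))) (casclip_cmul _ (casclip_pow casclip_clp4 4))))
    (casclip_const _)

theorem casclip_es : casclip_BL es := by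
  unfold es As2
  exact casclip_sub (casclip_add (casclip_sub (casclip_cmul _ casclip_clp4)
      (casclip_cmul _ (casclip_pow casclip_clp4 2))) (casclip_cmul _ (casclip_pow casclip_clp4 3)))
    (casclip_cmul _ (casclip_pow casclip_clp4 3))

theorem casclip_ee (δ : ℝ) : casclip_BL (ee δ) := by
  unfold ee
  exact casclip_sub (casclip_cmul _ (casclip_clp1 0 δ))
    (casclip_div (casclip_cmul _ (casclip_pow (casclip_clp1 0 δ) 3)) _)

theorem casclip_sn (n : ℝ) : casclip_BL (sn n) := by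
  unfold sn
  exact casclip_div (casclip_comp (casclip_of_lip Real.lipschitzWith_sin Real.abs_sin_le_one)
    (casclip_lip_mul _)) _

theorem casclip_cs (n : ℝ) : casclip_BL (cs n) := by
  unfold cs
  exact casclip_comp (casclip_of_lip Real.lipschitzWith_cos Real.abs_cos_le_one) (casclip_lip_mul _)

theorem casclip_p1 : LipschitzWith 1 fun z : ℝ × ℝ × ℝ => z.1 := LipschitzWith.prod_fst
theorem casclip_p2 : LipschitzWith (1 * 1) fun z : ℝ × ℝ × ℝ => z.2.1 :=
  LipschitzWith.prod_fst.comp LipschitzWith.prod_snd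
theorem casclip_p3 : LipschitzWith (1 * 1) fun z : ℝ × ℝ × ℝ => z.2.2 :=
  LipschitzWith.prod_snd.comp LipschitzWith.prod_snd

theorem casclip_TD : casclip_BL fun z : ℝ × ℝ × ℝ => TD z.1 z.2.2 :=
  casclip_mul (casclip_comp casclip_AA casclip_p3) (casclip_comp (casclip_cs 1) casclip_p1)

theorem casclip_TP : casclip_BL fun z : ℝ × ℝ × ℝ => TP z.1 z.2.2 :=
  casclip_mul (casclip_neg (casclip_comp casclip_AA1 casclip_p3))
    (casclip_comp (casclip_sn 1) casclip_p1)

theorem casclip_TX (Λ δ : ℝ) : casclip_BL fun z : ℝ × ℝ × ℝ => TX Λ δ z.1 z.2.1 z.2.2 :=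
  casclip_sub (casclip_mul (casclip_mul (casclip_comp (casclip_ee δ) casclip_p3)
      (casclip_comp (casclip_sn 1) casclip_p1)) (casclip_comp (casclip_sn 4) casclip_p2))
    (casclip_mul (casclip_mul (casclip_cmul _ (casclip_comp casclip_es
      ((casclip_lip_mul 2).comp casclip_p3)))
      (casclip_comp (casclip_sn 2) casclip_p2)) (casclip_comp (casclip_sn 2) casclip_p1))

theorem casclip_zk (k : ℕ) (q q' : W5) : |zk k q - zk k q'| ≤ dist q q' := by
  unfold zk
  split_ifs
  · rw [← Real.dist_eq]; exact le_max_left _ _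
  · rw [← Real.dist_eq]; exact (le_max_left _ _).trans (le_max_right _ _)

theorem casclip_om (q q' : W5) : |om q - om q'| ≤ dist q q' := by
  unfold om
  rw [show 2 - q.2.2.1 - (2 - q'.2.2.1) = -(q.2.2.1 - q'.2.2.1) by ring, abs_neg, ← Real.dist_eq]
  exact (le_max_left _ _).trans ((le_max_right _ _).trans (le_max_right _ _))

/-- The rescaling maps. -/
def casclip_sc (k : ℕ) (q : W5) : ℝ × ℝ × ℝ := (2 ^ k * zk k q, 2 ^ k * zk (k + 1) q, 2 ^ k * om q)

theorem casclip_sc_dist (k : ℕ) (q q' : W5) :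
    dist (casclip_sc k q) (casclip_sc k q') ≤ 2 ^ k * dist q q' := by
  have h : ∀ a b : ℝ, |a - b| ≤ dist q q' → dist ((2 : ℝ) ^ k * a) (2 ^ k * b) ≤ 2 ^ k * dist q q' :=
    fun a b hab => by
      rw [Real.dist_eq, ← mul_sub, abs_mul, abs_of_pos (by positivity : (0 : ℝ) < 2 ^ k)]
      exact mul_le_mul_of_nonneg_left hab (by positivity)
  exact max_le (h _ _ (casclip_zk _ _ _)) (max_le (h _ _ (casclip_zk _ _ _)) (h _ _ (casclip_om _ _)))

theorem casclip_tsum (hΛ : 0 < Λ) (hΛ1 : Λ ≤ 1 / 16) {G : ℝ × ℝ × ℝ → ℝ} (hG : casclip_BL G)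
    {c : ℕ → ℝ} (hc : ∀ k, |c k| ≤ Λ ^ (k + 1)) :
    LocallyLipschitz fun q => ∑' k, c k * G (casclip_sc (k + 1) q) := by
  obtain ⟨C, hC, h1, h2⟩ := hG
  have hs1 : Summable fun k : ℕ => Λ ^ (k + 1) * C :=
    ((summable_nat_add_iff 1).2 (summable_geometric_of_lt_one hΛ.le (by linarith))).mul_right C
  have hs2 : Summable fun k : ℕ => (2 * Λ) ^ (k + 1) * C :=
    ((summable_nat_add_iff 1).2
      (summable_geometric_of_lt_one (by positivity) (by linarith))).mul_right C
  have hs : ∀ q, Summable fun k => c k * G (casclip_sc (k + 1) q) := fun q =>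
    Summable.of_norm_bounded hs1 fun k => by
      rw [Real.norm_eq_abs, abs_mul]
      exact mul_le_mul (hc k) (h1 _) (abs_nonneg _) (by positivity)
  refine (LipschitzWith.of_dist_le_mul (K := ⟨∑' k : ℕ, (2 * Λ) ^ (k + 1) * C,
    tsum_nonneg fun k => by positivity⟩) fun x y => ?_).locallyLipschitz
  rw [Real.dist_eq, ← (hs x).tsum_sub (hs y)]
  change _ ≤ (∑' k : ℕ, (2 * Λ) ^ (k + 1) * C) * dist x y
  rw [← tsum_mul_right, ← Real.norm_eq_abs]
  refine tsum_of_norm_bounded (hs2.mul_right _).hasSum fun k => ?_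
  rw [Real.norm_eq_abs, ← mul_sub, abs_mul]
  calc |c k| * |G (casclip_sc (k + 1) x) - G (casclip_sc (k + 1) y)|
      ≤ Λ ^ (k + 1) * (C * (2 ^ (k + 1) * dist x y)) :=
        mul_le_mul (hc k) ((h2 _ _).trans (mul_le_mul_of_nonneg_left (casclip_sc_dist _ _ _) hC))
          (abs_nonneg _) (by positivity)
    _ = _ := by rw [mul_pow]; ring

theorem casclip_AA_lo {w : ℝ} (h : w ≤ 1) : AA w = 0 := by
  rw [AA, clp_of_le (by linarith), clp_of_ge zero_le_one (by linarith), As]; norm_num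
theorem casclip_AA_hi {w : ℝ} (h : 4 ≤ w) : AA w = 0 := by
  rw [AA, clp_of_ge (by norm_num) (by linarith), clp_of_le (by linarith), As]; norm_num
theorem casclip_AA1_lo {w : ℝ} (h : w ≤ 1) : AA1 w = 0 := by
  rw [AA1, clp_of_le (by linarith), clp_of_ge zero_le_one (by linarith), As1]; norm_num
theorem casclip_AA1_hi {w : ℝ} (h : 4 ≤ w) : AA1 w = 0 := by
  rw [AA1, clp_of_ge (by norm_num) (by linarith), clp_of_le (by linarith), As1]; norm_num
theorem casclip_es_lo {w : ℝ} (h : w ≤ 3) : es w = 0 := by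
  rw [es, clp_of_ge zero_le_one (by linarith), As2]; norm_num
theorem casclip_es_hi {w : ℝ} (h : 4 ≤ w) : es w = 0 := by
  rw [es, clp_of_le (by linarith), As2]; norm_num
theorem casclip_ee_lo {w : ℝ} (h : w ≤ 1) : ee δ w = 0 := by
  rw [ee, clp_of_le (by linarith)]; norm_num
theorem casclip_ee_hi (hδ : 0 < δ) {w : ℝ} (h : 1 + δ ≤ w) : ee δ w = 0 := by
  rw [ee, clp_of_ge hδ.le (by linarith)]; field_simp; ring

theorem casclip_lo {k : ℕ} {q : W5} (h : 2 ^ k * om q ≤ 1) :
    tD Λ k q = 0 ∧ tP Λ k q = 0 ∧ tX Λ δ k q = 0 := by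
  simp [tD, tP, tX, TD, TP, TX, casclip_AA_lo h, casclip_AA1_lo h, casclip_ee_lo h,
    casclip_es_lo (show 2 * (2 ^ k * om q) ≤ 3 by linarith)]

theorem casclip_hi {k : ℕ} {q : W5} (h : 4 ≤ 2 ^ k * om q) : tD Λ k q = 0 ∧ tP Λ k q = 0 := by
  simp [tD, tP, TD, TP, casclip_AA_hi h, casclip_AA1_hi h]

theorem casclip_hiX (hδ : 0 < δ) (hδ1 : δ < 1 / 2) {k : ℕ} {q : W5} (h : 2 ≤ 2 ^ k * om q) :
    tX Λ δ k q = 0 := by
  simp [tX, TX, casclip_ee_hi hδ (show 1 + δ ≤ 2 ^ k * om q by linarith),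
    casclip_es_hi (show 4 ≤ 2 * (2 ^ k * om q) by linarith)]

theorem casclip_up {i j : ℕ} {w : ℝ} (hw : 0 ≤ w) (h : i ≤ j) : (2 : ℝ) ^ i * w ≤ 2 ^ j * w :=
  mul_le_mul_of_nonneg_right (pow_le_pow_right₀ one_le_two h) hw

/-- `TD, TP, TX` are bounded and Lipschitz (polynomials of clamps times trigonometric functions), so
the `k`-th term is bounded by `C Λ^k` and `C (2Λ)^k`-Lipschitz. -/
theorem casc_ll (hΛ : 0 < Λ) (hΛ1 : Λ ≤ 1 / 16) : LocallyLipschitz (cD Λ) ∧
    LocallyLipschitz (cP1 Λ) ∧ LocallyLipschitz (cP2 Λ) ∧ LocallyLipschitz (cX Λ δ) := by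
  have hom : LocallyLipschitz om := (LipschitzWith.of_dist_le_mul (K := 1) fun x y => by
    simpa [Real.dist_eq] using casclip_om x y).locallyLipschitz
  have h1 : LocallyLipschitz fun q : W5 => q.1 := LipschitzWith.prod_fst.locallyLipschitz
  have h2 : LocallyLipschitz fun q : W5 => q.2.1 :=
    (LipschitzWith.prod_fst.comp LipschitzWith.prod_snd).locallyLipschitz
  have h4 : LocallyLipschitz fun q : W5 => q.2.2.2.1 :=
    (LipschitzWith.prod_fst.comp (LipschitzWith.prod_snd.comp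
      (LipschitzWith.prod_snd.comp LipschitzWith.prod_snd))).locallyLipschitz
  have h5 : LocallyLipschitz fun q : W5 => q.2.2.2.2 :=
    (LipschitzWith.prod_snd.comp (LipschitzWith.prod_snd.comp
      (LipschitzWith.prod_snd.comp LipschitzWith.prod_snd))).locallyLipschitz
  have hp : ∀ k : ℕ, |Λ ^ (k + 1)| ≤ Λ ^ (k + 1) := fun k => (abs_of_pos (by positivity)).le
  refine ⟨?_, ?_, ?_, ?_⟩
  · exact LL.add (LL.mul ((casclip_ll casclip_AA).comp hom) h4)
      (casclip_tsum hΛ hΛ1 casclip_TD hp)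
  · have := casclip_tsum hΛ hΛ1 casclip_TP (c := fun k => if Even (k + 1) then Λ ^ (k + 1) else 0)
      fun k => by
        split_ifs
        · exact hp k
        · simp; positivity
    simp only [ite_mul, zero_mul] at this
    exact LL.add (LL.mul (LL.neg ((casclip_ll casclip_AA1).comp hom)) h5) this
  · have := casclip_tsum hΛ hΛ1 casclip_TP (c := fun k => if Even (k + 1) then 0 else Λ ^ (k + 1))
      fun k => by
        split_ifs
        · simp; positivity
        · exact hp k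
    simp only [ite_mul, zero_mul] at this
    exact this
  · exact LL.add (LL.add (LL.mul (LL.mul ((casclip_ll (casclip_ee δ)).comp hom) h5)
      ((casclip_ll (casclip_sn 4)).comp h2)) (LL.mul (LL.mul (LL.mul (LL.const _)
        ((casclip_ll casclip_es).comp (LL.mul (LL.const 2) hom))) ((casclip_ll (casclip_sn 2)).comp h2))
        ((casclip_ll (casclip_sn 1)).comp h1)))
      (casclip_tsum hΛ hΛ1 (casclip_TX Λ δ) (c := fun k => (-Λ) ^ (k + 1)) fun k => by
        rw [abs_pow, abs_neg, abs_of_pos hΛ])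

theorem casc_top (hδ : 0 < δ) (ξ Y τ f F : ℝ) (h : 2 ≤ τ) : cD Λ (ξ, Y, τ, f, F) = 0 ∧
    cP1 Λ (ξ, Y, τ, f, F) = 0 ∧ cP2 Λ (ξ, Y, τ, f, F) = 0 ∧ cX Λ δ (ξ, Y, τ, f, F) = 0 := by
  have _ := hδ
  have h0 : om (ξ, Y, τ, f, F) ≤ 0 := by simp only [om]; linarith
  have hk : ∀ k : ℕ, (2 : ℝ) ^ k * om (ξ, Y, τ, f, F) ≤ 1 := fun k =>
    (mul_nonpos_of_nonneg_of_nonpos (by positivity) h0).trans zero_le_one
  have hD := fun k => (casclip_lo (Λ := Λ) (δ := δ) (hk k)).1
  have hP := fun k => (casclip_lo (Λ := Λ) (δ := δ) (hk k)).2.1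
  have hX := fun k => (casclip_lo (Λ := Λ) (δ := δ) (hk k)).2.2
  simp [cD, cP1, cP2, cX, hD, hP, hX, casclip_AA_lo (h0.trans zero_le_one),
    casclip_AA1_lo (h0.trans zero_le_one), casclip_ee_lo (h0.trans zero_le_one),
    casclip_es_lo (show 2 * om (ξ, Y, τ, f, F) ≤ 3 by linarith)]

theorem casc_bot (hδ : 0 < δ) (hδ1 : δ < 1 / 2) (ξ Y τ f F : ℝ) (h : τ ≤ 0) :
    cP2 Λ (ξ, Y, τ, f, F) = 0 ∧ cX Λ δ (ξ, Y, τ, f, F) = 0 ∧
    (-1 ≤ τ → cD Λ (ξ, Y, τ, f, F) = (1 - τ) ^ 3 * f ∧
      cP1 Λ (ξ, Y, τ, f, F) = -3 * (1 - τ) ^ 2 * F) := by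
  have h0 : 2 ≤ om (ξ, Y, τ, f, F) := by simp only [om]; linarith
  have hk : ∀ k : ℕ, 4 ≤ (2 : ℝ) ^ (k + 1) * om (ξ, Y, τ, f, F) := fun k => by
    have := casclip_up (i := 1) (j := k + 1) (w := om (ξ, Y, τ, f, F)) (by linarith) (by omega)
    linarith
  have hD := fun k => (casclip_hi (Λ := Λ) (hk k)).1
  have hP := fun k => (casclip_hi (Λ := Λ) (hk k)).2
  have hX := fun k => casclip_hiX (Λ := Λ) hδ hδ1 (k := k + 1) (q := (ξ, Y, τ, f, F))
    (by linarith [hk k])
  refine ⟨by simp [cP2, hP], by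
    simp [cX, hX, casclip_ee_hi hδ (show 1 + δ ≤ om (ξ, Y, τ, f, F) by linarith),
      casclip_es_hi (show 4 ≤ 2 * om (ξ, Y, τ, f, F) by linarith)], fun h1 => ⟨?_, ?_⟩⟩
  · simp only [cD, hD, tsum_zero, add_zero, om]
    rw [AA, clp_of_mem (by linarith) (by linarith), clp_of_ge zero_le_one (by linarith), As]
    ring
  · simp only [cP1, hP, ite_self, tsum_zero, add_zero, om]
    rw [AA1, clp_of_mem (by linarith) (by linarith), clp_of_ge zero_le_one (by linarith), As1]
    ring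

/-- Round `0`.  (`AA, AA1` vanish off `(1,4)`, `ee δ` off `(1, 1+δ)`, `es` off `(3,4)`.) -/
theorem casc_loc0 (hδ : 0 < δ) (hδ1 : δ < 1 / 2) (q : W5) (h : 1 < om q) :
    cD Λ q = AA (om q) * q.2.2.2.1 + tD Λ 1 q ∧ cP1 Λ q = -AA1 (om q) * q.2.2.2.2 ∧
    cP2 Λ q = tP Λ 1 q ∧ cX Λ δ q = ee δ (om q) * q.2.2.2.2 * sn 4 q.2.1 +
      4 * Λ * es (2 * om q) * sn 2 q.2.1 * sn 1 q.1 := by
  have hk : ∀ k : ℕ, k ≠ 0 → 4 ≤ (2 : ℝ) ^ (k + 1) * om q := fun k hk => by
    have := casclip_up (i := 2) (j := k + 1) (w := om q) (by linarith) (by omega)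
    linarith
  have hX := fun k => casclip_hiX (Λ := Λ) hδ hδ1 (k := k + 1) (q := q) (by
    have := casclip_up (i := 1) (j := k + 1) (w := om q) (by linarith) (by omega)
    linarith)
  refine ⟨?_, ?_, ?_, by simp [cX, hX]⟩
  · rw [cD, tsum_eq_single 0 fun k h => (casclip_hi (hk k h)).1]
  · rw [cP1, tsum_eq_single 0 fun k h => by simp [(casclip_hi (Λ := Λ) (hk k h)).2]]
    simp
  · rw [cP2, tsum_eq_single 0 fun k h => by simp [(casclip_hi (Λ := Λ) (hk k h)).2]]
    simp

/-- Round `k ≥ 1`. -/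
theorem casc_lock (hδ : 0 < δ) (hδ1 : δ < 1 / 2) {k : ℕ} (hk : 1 ≤ k) (q : W5)
    (h1 : 1 < 2 ^ k * om q) (h2 : 2 ^ k * om q < 2) :
    cD Λ q = tD Λ k q + tD Λ (k + 1) q ∧
    cP1 Λ q = (if Even k then tP Λ k q else tP Λ (k + 1) q) ∧
    cP2 Λ q = (if Even k then tP Λ (k + 1) q else tP Λ k q) ∧ cX Λ δ q = tX Λ δ k q := by
  obtain ⟨m, rfl⟩ : ∃ m, k = m + 1 := ⟨k - 1, by omega⟩
  have h0 : 0 < om q := by
    by_contra hc
    have := mul_nonpos_of_nonneg_of_nonpos (by positivity : (0 : ℝ) ≤ 2 ^ (m + 1)) (not_lt.1 hc)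
    linarith
  have hlo : ∀ j, j < m → (2 : ℝ) ^ (j + 1) * om q ≤ 1 := fun j hj => by
    have := casclip_up (i := j + 1) (j := m) h0.le hj
    rw [pow_succ] at h2
    linarith
  have hhi : ∀ j, m + 1 < j → 4 ≤ (2 : ℝ) ^ (j + 1) * om q := fun j hj => by
    have := casclip_up (i := m + 1 + 2) (j := j + 1) h0.le (by omega)
    rw [pow_add] at this
    linarith
  have hhi' : ∀ j, m < j → 2 ≤ (2 : ℝ) ^ (j + 1) * om q := fun j hj => by
    have := casclip_up (i := m + 1 + 1) (j := j + 1) h0.le (by omega)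
    rw [pow_succ] at this
    linarith
  have hom : om q ≤ 1 := by
    have := casclip_up (i := 1) (j := m + 1) h0.le (by omega)
    linarith
  have hz : ∀ j, j ∉ ({m, m + 1} : Finset ℕ) → tD Λ (j + 1) q = 0 ∧ tP Λ (j + 1) q = 0 := by
    intro j hj
    simp only [Finset.mem_insert, Finset.mem_singleton, not_or] at hj
    rcases lt_or_gt_of_ne hj.1 with h | h
    · exact ⟨(casclip_lo (δ := δ) (hlo j h)).1, (casclip_lo (δ := δ) (hlo j h)).2.1⟩
    · exact casclip_hi (hhi j (by omega))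
  refine ⟨?_, ?_, ?_, ?_⟩
  · rw [cD, tsum_eq_sum (s := {m, m + 1}) fun j hj => (hz j hj).1, Finset.sum_pair (by omega),
      casclip_AA_lo hom]
    simp
  · rw [cP1, tsum_eq_sum (s := {m, m + 1}) fun j hj => by simp [(hz j hj).2],
      Finset.sum_pair (by omega), casclip_AA1_lo hom]
    by_cases he : Even (m + 1) <;> simp [he, Nat.even_add_one (n := m + 1)]
  · rw [cP2, tsum_eq_sum (s := {m, m + 1}) fun j hj => by simp [(hz j hj).2],
      Finset.sum_pair (by omega)]
    by_cases he : Even (m + 1) <;> simp [he, Nat.even_add_one (n := m + 1)]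
  · rw [cX, tsum_eq_single m fun j hj => ?_, casclip_ee_lo hom,
      casclip_es_lo (show 2 * om q ≤ 3 by linarith)]
    · simp
    · rcases lt_or_gt_of_ne hj with h | h
      · exact (casclip_lo (hlo j h)).2.2
      · exact casclip_hiX hδ hδ1 (hhi' j h)

end Crest.Agent.R083
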