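import Crest.Agent.R083.Basic

/-! Row 83: gradients in one round of the cascade. -/

set_option autoImplicit false

namespace Crest.Agent.R083

open MeasureTheory Filter Topology Set
open scoped Gradient RealInnerProductSpace

section
variable {g : E → ℝ} {p u : E}

theorem cascround_As (hg : Jet g p u) : Jet (fun y => As (g y)) p (As1 (g p) • u) := by
  have h := (hg.pow 3).mul (((Jet.const_sub 134 (Jet.const_mul 216 hg))).add
    (Jet.const_mul 90 (hg.pow 2)))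
  refine Jet.of_eq (v := As1 (g p) • u) h ?_
  simp only [As1]
  vec3

theorem cascround_As1 (hg : Jet g p u) : Jet (fun y => As1 (g y)) p (As2 (g p) • u) := by
  have h := ((Jet.const_mul 402 (hg.pow 2)).sub (Jet.const_mul 864 (hg.pow 3))).add
    (Jet.const_mul 450 (hg.pow 4))
  refine Jet.of_eq (v := As2 (g p) • u) h ?_
  simp only [As2]
  vec3

theorem cascround_As2 (hg : Jet g p u) : ∃ e : ℝ, Jet (fun y => As2 (g y)) p (e • u) := by
  have h := ((Jet.const_mul 804 hg).sub (Jet.const_mul 2592 (hg.pow 2))).add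
    (Jet.const_mul 1800 (hg.pow 3))
  refine ⟨804 - 2592 * 2 * g p + 1800 * 3 * g p ^ 2, Jet.of_eq h ?_⟩
  vec3

theorem cascround_clp (hg : Jet g p u) (h1 : 1 < g p) (h3 : g p ≠ 3) (h4 : g p ≠ 4) :
    ∃ α γ : ℝ, Jet (fun y => clp 0 2 (g y - 1)) p (α • u) ∧
      Jet (fun y => clp 0 1 (4 - g y)) p (γ • u) ∧
      ((α = 1 ∧ γ = 0 ∧ clp 0 1 (4 - g p) = 1) ∨ (α = 0 ∧ γ = -1 ∧ clp 0 2 (g p - 1) = 2) ∨
        (α = 0 ∧ γ = 0 ∧ clp 0 2 (g p - 1) = 2 ∧ clp 0 1 (4 - g p) = 0)) := by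
  have ha := hg.sub_const 1
  have hc := Jet.const_sub 4 hg
  rcases h3.lt_or_gt with h3 | h3
  · refine ⟨1, 0, (ha.clp_mid (by linarith) (by linarith)).of_eq (one_smul _ _).symm,
      (Jet.clp_high zero_le_one hc.cont (by linarith)).of_eq (zero_smul _ _).symm,
      .inl ⟨rfl, rfl, clp_of_ge zero_le_one (by linarith)⟩⟩
  · have e2 : clp 0 2 (g p - 1) = 2 := clp_of_ge zero_le_two (by linarith)
    have j2 : Jet (fun y => clp 0 2 (g y - 1)) p ((0 : ℝ) • u) :=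
      (Jet.clp_high zero_le_two ha.cont (by linarith)).of_eq (zero_smul _ _).symm
    rcases h4.lt_or_gt with h4 | h4
    · exact ⟨0, -1, j2, (hc.clp_mid (by linarith) (by linarith)).of_eq (neg_one_smul _ _).symm,
        .inr (.inl ⟨rfl, rfl, e2⟩)⟩
    · exact ⟨0, 0, j2, (Jet.clp_low hc.cont (by linarith)).of_eq (zero_smul _ _).symm,
        .inr (.inr ⟨rfl, rfl, e2, clp_of_le (by linarith)⟩)⟩

theorem cascround_AA (hg : Jet g p u) (h1 : 1 < g p) (h3 : g p ≠ 3) (h4 : g p ≠ 4) :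
    Jet (fun y => AA (g y)) p (AA1 (g p) • u) := by
  obtain ⟨α, γ, ha, hc, h⟩ := cascround_clp hg h1 h3 h4
  have j := ((ha.pow 3).add (cascround_As hc)).sub_const 8
  refine Jet.of_eq (v := AA1 (g p) • u) j ?_
  rw [smul_smul, smul_smul, ← add_smul]
  congr 1
  simp only [AA1]
  rcases h with ⟨rfl, rfl, e⟩ | ⟨rfl, rfl, e⟩ | ⟨rfl, rfl, e, e'⟩
  · rw [e]; norm_num [As1]
  · rw [e]; norm_num
  · rw [e, e']; norm_num [As1]

theorem cascround_AA1 (hg : Jet g p u) (h1 : 1 < g p) (h3 : g p ≠ 3) (h4 : g p ≠ 4) :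
    Jet (fun y => AA1 (g y)) p (AA2 (g p) • u) := by
  obtain ⟨α, γ, ha, hc, h⟩ := cascround_clp hg h1 h3 h4
  have j := ((Jet.const_mul 3 (ha.pow 2)).sub (cascround_As1 hc)).sub_const 12
  refine Jet.of_eq (v := AA2 (g p) • u) j ?_
  rw [smul_smul, smul_smul, smul_smul, ← sub_smul]
  congr 1
  simp only [AA2]
  rcases h with ⟨rfl, rfl, e⟩ | ⟨rfl, rfl, e⟩ | ⟨rfl, rfl, e, e'⟩
  · rw [e]; norm_num [As2]; ring
  · rw [e]; norm_num
  · rw [e, e']; norm_num [As2]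

theorem cascround_es (hg : Jet g p u) (h1 : 1 < g p) (h3 : g p ≠ 3) (h4 : g p ≠ 4) :
    ∃ e : ℝ, Jet (fun y => es (g y)) p (e • u) := by
  obtain ⟨α, γ, -, hc, -⟩ := cascround_clp hg h1 h3 h4
  obtain ⟨e, he⟩ := cascround_As2 hc
  have j := he.sub (Jet.const_mul 12 (hc.pow 3))
  rw [smul_smul, smul_smul, smul_smul, ← sub_smul] at j
  exact ⟨_, j⟩

theorem cascround_ee {δ : ℝ} (hδ : 0 < δ) (hg : Jet g p u) (h1 : 1 < g p) (h : g p ≠ 1 + δ) :
    ∃ e : ℝ, Jet (fun y => ee δ (g y)) p (e • u) := by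
  have ha := hg.sub_const 1
  obtain ⟨α, hc⟩ : ∃ α : ℝ, Jet (fun y => clp 0 δ (g y - 1)) p (α • u) := by
    rcases h.lt_or_gt with h | h
    · exact ⟨1, (ha.clp_mid (by linarith) (by linarith)).of_eq (one_smul _ _).symm⟩
    · exact ⟨0, (Jet.clp_high hδ.le ha.cont (by linarith)).of_eq (zero_smul _ _).symm⟩
  have j := (Jet.const_mul 6 hc).sub ((Jet.const_mul 6 (hc.pow 3)).div_const (δ ^ 2))
  simp only [smul_smul] at j
  rw [← sub_smul] at j
  exact ⟨_, j⟩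

theorem cascround_sn {n : ℝ} (hn : n ≠ 0) (hg : Jet g p u) :
    Jet (fun y => sn n (g y)) p (cs n (g p) • u) := by
  have j := (Jet.const_mul (n * Real.pi) hg).sin.div_const (n * Real.pi)
  refine Jet.of_eq (v := cs n (g p) • u) j ?_
  rw [smul_smul, smul_smul]
  congr 1
  have := Real.pi_ne_zero
  simp only [cs]
  field_simp

theorem cascround_cs {n : ℝ} (hn : n ≠ 0) (hg : Jet g p u) :
    Jet (fun y => cs n (g y)) p ((-(n * Real.pi) ^ 2 * sn n (g p)) • u) := by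
  have j := (Jet.const_mul (n * Real.pi) hg).cos
  refine Jet.of_eq (v := (-(n * Real.pi) ^ 2 * sn n (g p)) • u) j ?_
  rw [smul_smul]
  congr 1
  have := Real.pi_ne_zero
  simp only [sn]
  field_simp

end

/-- One round in abstract form: parent mode with profile `f, F, W` in the direction `a`, child mode
`cos (2 π Z')` in the direction `b`, all at scale `t`.  First show, for `w ∉ {1, 3, 4}`, that
`AA`, `AA1`, `es` are `C¹` at `w` with `AA' = AA1`, `AA1' = AA2`, and `ee δ` is `C¹` at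
`w ∉ {1, 1 + δ}` (`Jet.clp_mid` etc. or the one-variable analogues), then use the `Jet` calculus
and `vec3`. -/
theorem round_jet {Λ δ t A₀ k w₁ : ℝ} {Z' ω f F W : E → ℝ} {p a b c : E} (hδ : 0 < δ)
    (hZ : Jet Z' p (t • b)) (hω : Jet ω p ((-t) • c)) (hf : Jet f p ((t * (-k * F p)) • a))
    (hF : Jet F p ((t * f p) • a)) (hW : Jet W p ((t * (1 - w₁)) • a))
    (h1 : 1 < ω p) (h3 : ω p < 3) (h2 : ω p ≠ 2) (h4 : ω p ≠ 3 / 2) (h5 : ω p ≠ 1 + δ) :
    ∃ v₁ v₂ v₃ : E,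
      Jet (fun y => A₀ * (AA (ω y) * f y + Λ * AA (2 * ω y) * cs 2 (Z' y))) p
        ((A₀ * t * (-k * F p * AA (ω p))) • a +
          (A₀ * t * (-(4 * Real.pi ^ 2) * sn 2 (Z' p) * (Λ * AA (2 * ω p)))) • b +
          (A₀ * t * (-(AA1 (ω p) * f p + 2 * Λ * AA1 (2 * ω p) * cs 2 (Z' p)))) • c) ∧
      Jet (fun y => A₀ * (-AA1 (ω y) * F y)) p v₁ ∧
      Jet (fun y => A₀ * (-(2 * Λ * AA1 (2 * ω y)) * sn 2 (Z' y))) p v₂ ∧
      Jet (fun y => A₀ * (ee δ (ω y) * F y * sn 4 (Z' y) -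
        4 * Λ * es (2 * ω y) * sn 2 (Z' y) * W y)) p v₃ ∧
      cr v₁ b + cr a v₂ + cr v₃ c =
        (A₀ * t * (-AA2 (ω p) * F p + ee δ (ω p) * F p * (1 - (1 - cs 4 (Z' p))) -
          4 * Λ * es (2 * ω p) * cs 2 (Z' p) * W p)) • cr b c +
        (A₀ * t * (-(4 * Λ * AA2 (2 * ω p)) * sn 2 (Z' p) +
          4 * Λ * es (2 * ω p) * sn 2 (Z' p) * (1 - w₁) - ee δ (ω p) * f p * sn 4 (Z' p))) • cr c a +
        (A₀ * t * (-(AA1 (ω p) * f p + 2 * Λ * AA1 (2 * ω p) * cs 2 (Z' p)))) • cr a b := by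
  have hω2 := Jet.const_mul 2 hω
  have k1 : 1 < 2 * ω p := by linarith
  have k3 : 2 * ω p ≠ 3 := fun h => h4 (by linarith)
  have k4 : 2 * ω p ≠ 4 := fun h => h2 (by linarith)
  have l4 : ω p ≠ 4 := (show ω p < 4 by linarith).ne
  have jA := cascround_AA hω h1 h3.ne l4
  have jA1 := cascround_AA1 hω h1 h3.ne l4
  have jB := cascround_AA hω2 k1 k3 k4
  have jB1 := cascround_AA1 hω2 k1 k3 k4
  obtain ⟨e₁, je⟩ := cascround_ee hδ hω h1 h5
  obtain ⟨e₂, js⟩ := cascround_es hω2 k1 k3 k4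
  have s2 := cascround_sn two_ne_zero hZ
  have s4 := cascround_sn four_ne_zero hZ
  have c2 := cascround_cs two_ne_zero hZ
  refine ⟨_, _, _,
    (Jet.const_mul A₀ ((jA.mul hf).add ((Jet.const_mul Λ jB).mul c2))).of_eq ?_,
    Jet.const_mul A₀ (jA1.neg.mul hF),
    Jet.const_mul A₀ ((Jet.const_mul (2 * Λ) jB1).neg.mul s2),
    Jet.const_mul A₀ (((je.mul hF).mul s4).sub
      (((Jet.const_mul (4 * Λ) js).mul s2).mul hW)), ?_⟩
  · vec3
  · vec3

end Crest.Agent.R083
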