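import Crest.Agent.R083.CascNum
import Crest.Agent.R083.CascLip
import Crest.Agent.R083.CascRound

/-! Row 83: the cascade. -/

set_option autoImplicit false

namespace Crest.Agent.R083

open MeasureTheory Filter Topology Set
open scoped Gradient RealInnerProductSpace

theorem casc_jet_sn {φ : E → ℝ} {p u : E} (h : Jet φ p u) {n : ℝ} (hn : n ≠ 0) :
    Jet (fun y => sn n (φ y)) p (cs n (φ p) • u) := by
  refine (((h.const_mul (n * Real.pi)).sin).div_const (n * Real.pi)).of_eq ?_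
  have := Real.pi_ne_zero
  rw [smul_smul, smul_smul, cs]
  congr 1
  field_simp

theorem casc_jet_cs {φ : E → ℝ} {p u : E} (h : Jet φ p u) {n : ℝ} (hn : n ≠ 0) :
    Jet (fun y => cs n (φ y)) p ((-(n * Real.pi) ^ 2 * sn n (φ p)) • u) := by
  refine ((h.const_mul (n * Real.pi)).cos).of_eq ?_
  have := Real.pi_ne_zero
  rw [smul_smul, sn]
  congr 1
  field_simp

theorem casc_sn_two (Z : ℝ) : sn 1 (2 * Z) = 2 * sn 2 Z := by
  have := Real.pi_ne_zero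
  rw [sn, sn, show 1 * Real.pi * (2 * Z) = 2 * Real.pi * Z by ring]
  field_simp

theorem casc_cs_two (Z : ℝ) : cs 1 (2 * Z) = cs 2 Z := by
  rw [cs, cs, show 1 * Real.pi * (2 * Z) = 2 * Real.pi * Z by ring]

theorem casc_abs_cs (n Z : ℝ) : |cs n Z| ≤ 1 := Real.abs_cos_le_one _

theorem casc_abs_sn {n : ℝ} (hn : 1 ≤ n) (Z : ℝ) : |sn n Z| ≤ 1 := by
  have h1 : 1 ≤ n * Real.pi := by nlinarith [Real.pi_gt_three]
  rw [sn, abs_div, abs_of_pos (by linarith : 0 < n * Real.pi), div_le_one (by linarith)]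
  exact (Real.abs_sin_le_one _).trans h1

theorem casc_sn_double {n : ℝ} (hn : 0 < n) (Z : ℝ) : |sn (2 * n) Z| ≤ |sn n Z| := by
  have := Real.pi_pos
  have e : sn (2 * n) Z = sn n Z * cs n Z := by
    rw [sn, sn, cs, show 2 * n * Real.pi * Z = 2 * (n * Real.pi * Z) by ring, Real.sin_two_mul]
    field_simp
  rw [e, abs_mul]
  exact mul_le_of_le_one_right (abs_nonneg _) (casc_abs_cs _ _)

theorem casc_cs_double {n : ℝ} (hn : 0 < n) (Z : ℝ) :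
    |1 - cs (2 * n) Z| ≤ 13 / 2 * n * |sn n Z| := by
  have hπ := Real.pi_pos
  have e : 1 - cs (2 * n) Z = 2 * (n * Real.pi) * sn n Z * Real.sin (n * Real.pi * Z) := by
    rw [sn, cs, show 2 * n * Real.pi * Z = 2 * (n * Real.pi * Z) by ring, Real.cos_two_mul,
      Real.cos_sq']
    field_simp
    ring
  rw [e, abs_mul, abs_mul, abs_of_pos (by positivity : 0 < 2 * (n * Real.pi))]
  refine (mul_le_of_le_one_right (by positivity) (Real.abs_sin_le_one _)).trans ?_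
  refine mul_le_mul_of_nonneg_right ?_ (abs_nonneg _)
  nlinarith [Real.pi_lt_d2]

theorem casc_abs_sin (m : ℕ) {ξ : ℝ} (h : |ξ| ≤ 1) :
    |Real.sin (m * Real.pi * ξ)| ≤ m * Real.pi * (1 - |ξ|) := by
  have h1 : |Real.sin (m * Real.pi * ξ)| = |Real.sin (m * Real.pi * |ξ|)| := by
    rcases abs_choice ξ with e | e <;> rw [e]
    rw [mul_neg, Real.sin_neg, abs_neg]
  have h2 : (m : ℝ) * Real.pi * |ξ| = m * Real.pi - m * Real.pi * (1 - |ξ|) := by ring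
  rw [h1, h2, Real.sin_nat_mul_pi_sub, abs_neg, abs_mul, abs_pow, abs_neg, abs_one, one_pow, one_mul]
  refine (Real.abs_sin_le_abs).trans (abs_of_nonneg ?_).le
  have := Real.pi_pos
  have : 0 ≤ 1 - |ξ| := by linarith
  positivity

theorem casc_sn_le {n : ℕ} (hn : n ≠ 0) (k : ℕ) {ξ : ℝ} (h : |ξ| ≤ 1) :
    |sn n (2 ^ k * ξ)| ≤ 2 ^ k * (1 - |ξ|) := by
  have hπ := Real.pi_pos
  have hn' : (0 : ℝ) < n := by positivity
  have h1 := casc_abs_sin (n * 2 ^ k) h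
  push_cast at h1
  rw [sn, abs_div, abs_of_pos (by positivity : 0 < n * Real.pi), div_le_iff₀ (by positivity),
    show n * Real.pi * (2 ^ k * ξ) = n * 2 ^ k * Real.pi * ξ by ring]
  exact h1.trans (le_of_eq (by ring))

theorem casc_one_add_cs {ξ : ℝ} (h : |ξ| ≤ 1) : |1 + cs 1 ξ| ≤ 4 * (1 - |ξ|) := by
  have h1 : cs 1 ξ = -Real.cos (Real.pi * (1 - |ξ|)) := by
    rw [cs, one_mul, mul_sub, mul_one, Real.cos_pi_sub, neg_neg]
    rcases abs_choice ξ with e | e <;> rw [e]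
    rw [mul_neg, Real.cos_neg]
  have h2 := Real.abs_cos_sub_cos_le 0 (Real.pi * (1 - |ξ|))
  have h3 : 0 ≤ 1 - |ξ| := by linarith
  rw [Real.cos_zero, zero_sub, abs_neg, abs_of_nonneg (mul_nonneg Real.pi_pos.le h3)] at h2
  rw [h1, ← sub_eq_add_neg]
  exact h2.trans (mul_le_mul_of_nonneg_right Real.pi_le_four h3)

theorem casc_sn_ne {k : ℕ} {ξ : ℝ} (h : ∀ m : ℤ, ξ ≠ m / 2 ^ k) : sn 1 (2 ^ k * ξ) ≠ 0 := by
  have hπ := Real.pi_ne_zero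
  intro e
  rw [sn, div_eq_zero_iff, one_mul] at e
  obtain ⟨m, hm⟩ := Real.sin_eq_zero_iff.1 (e.resolve_right hπ)
  refine h m ?_
  rw [mul_comm] at hm
  rw [mul_left_cancel₀ hπ hm]
  field_simp

theorem casc_num_symm {κ K ξ Y d₁ d₂ d₃ j₁ j₂ : ℝ} (h : Num κ K ξ Y d₁ d₂ d₃ j₁ j₂) :
    Num κ K Y ξ d₂ d₁ d₃ j₂ j₁ := by
  obtain ⟨h1, h2, h3, h4, h5, h6⟩ := h
  exact ⟨by linarith, by linarith, h3.symm, h5, h4, h6⟩

/-- The conclusion of `casc_num`. -/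
def CascNumP (K Λ δ κ K' : ℝ) : Prop :=
  ∀ w f F k W w₁ g G W' w₁' : ℝ, 1 < w → w < 3 → |f| ≤ K →
    |F| ≤ K → F ≠ 0 → 1 / K ≤ k → k ≤ K → |W| ≤ K * |F| → |w₁| ≤ K * |F| → |g| ≤ 1 → |G| ≤ 1 →
    |W'| ≤ |G| → |w₁'| ≤ 13 * |G| → ∀ d₁ d₂ d₃ j₁ j₂ : ℝ, d₁ = -k * F * AA w →
    d₂ = -(4 * Real.pi ^ 2) * G * (Λ * AA (2 * w)) → d₃ = -(AA1 w * f + 2 * Λ * AA1 (2 * w) * g) →
    j₁ = -AA2 w * F + ee δ w * F * (1 - w₁') - 4 * Λ * es (2 * w) * g * W →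
    j₂ = -(4 * Λ * AA2 (2 * w)) * G + 4 * Λ * es (2 * w) * G * (1 - w₁) - ee δ w * f * W' →
    κ * (d₁ ^ 2 + d₂ ^ 2) ≤ j₁ * d₁ + j₂ * d₂ ∧ j₁ ^ 2 + j₂ ^ 2 ≤ K' ^ 2 * (d₁ ^ 2 + d₂ ^ 2) ∧
      d₁ ≠ 0 ∧ |j₁| ≤ K' * |F| ∧ |j₂| ≤ K' * |G| ∧ |d₃| ≤ K'

/-- One round with the numerical bounds. -/
theorem casc_round {K Λ δ κ K₀ K' t A₀ k w₁ α β : ℝ} {Z' ω f F W : E → ℝ} {p a b c : E}
    (hnum : CascNumP K Λ δ κ K₀) (hδ : 0 < δ)
    (hZ : Jet Z' p (t • b)) (hω : Jet ω p ((-t) • c)) (hf : Jet f p ((t * (-k * F p)) • a))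
    (hF : Jet F p ((t * f p) • a)) (hW : Jet W p ((t * (1 - w₁)) • a))
    (h1 : 1 < ω p) (h3 : ω p < 3) (h2 : ω p ≠ 2) (h4 : ω p ≠ 3 / 2) (h5 : ω p ≠ 1 + δ)
    (b1 : |f p| ≤ K) (b2 : |F p| ≤ K) (b3 : F p ≠ 0) (b4 : 1 / K ≤ k) (b5 : k ≤ K)
    (b6 : |W p| ≤ K * |F p|) (b7 : |w₁| ≤ K * |F p|) (hs : 0 < A₀ * t) (hs1 : A₀ * t ≤ 1)
    (hK₀ : 0 ≤ K₀) (hK : K₀ ≤ K') (hα : A₀ * t * (K₀ * |F p|) ≤ K' * (1 - |α|))
    (hβ : A₀ * t * (K₀ * |sn 2 (Z' p)|) ≤ K' * (1 - |β|)) :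
    ∃ (v₁ v₂ v₃ : E) (d₁ d₂ d₃ j₁ j₂ : ℝ),
      Jet (fun y => A₀ * (AA (ω y) * f y + Λ * AA (2 * ω y) * cs 2 (Z' y))) p
        (d₁ • a + d₂ • b + d₃ • c) ∧
      Jet (fun y => A₀ * (-AA1 (ω y) * F y)) p v₁ ∧
      Jet (fun y => A₀ * (-(2 * Λ * AA1 (2 * ω y)) * sn 2 (Z' y))) p v₂ ∧
      Jet (fun y => A₀ * (ee δ (ω y) * F y * sn 4 (Z' y) -
        4 * Λ * es (2 * ω y) * sn 2 (Z' y) * W y)) p v₃ ∧
      cr v₁ b + cr a v₂ + cr v₃ c = j₁ • cr b c + j₂ • cr c a + d₃ • cr a b ∧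
      Num κ K' α β d₁ d₂ d₃ j₁ j₂ := by
  obtain ⟨v₁, v₂, v₃, j0, j1, j2, j3, e⟩ :=
    round_jet (Λ := Λ) (A₀ := A₀) hδ hZ hω hf hF hW h1 h3 h2 h4 h5
  refine ⟨v₁, v₂, v₃, _, _, _, _, _, j0, j1, j2, j3, e, ?_⟩
  have c1 : |sn 4 (Z' p)| ≤ |sn 2 (Z' p)| := by
    have := casc_sn_double (n := 2) (by norm_num) (Z' p)
    rwa [show (2 : ℝ) * 2 = 4 by norm_num] at this
  have c2 : |1 - cs 4 (Z' p)| ≤ 13 * |sn 2 (Z' p)| := by
    have := casc_cs_double (n := 2) (by norm_num) (Z' p)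
    rw [show (2 : ℝ) * 2 = 4 by norm_num] at this
    linarith
  obtain ⟨n1, n2, n3, n4, n5, n6⟩ := hnum (ω p) (f p) (F p) k (W p) w₁ (cs 2 (Z' p)) (sn 2 (Z' p))
    (sn 4 (Z' p)) (1 - cs 4 (Z' p)) h1 h3 b1 b2 b3 b4 b5 b6 b7 (casc_abs_cs _ _)
    (casc_abs_sn (by norm_num) _) c1 c2 _ _ _ _ _ rfl rfl rfl rfl rfl
  generalize -k * F p * AA (ω p) = d₁ at *
  generalize -(4 * Real.pi ^ 2) * sn 2 (Z' p) * (Λ * AA (2 * ω p)) = d₂ at *
  generalize -(AA1 (ω p) * f p + 2 * Λ * AA1 (2 * ω p) * cs 2 (Z' p)) = d₃ at *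
  generalize -AA2 (ω p) * F p + ee δ (ω p) * F p * (1 - (1 - cs 4 (Z' p))) -
    4 * Λ * es (2 * ω p) * cs 2 (Z' p) * W p = j₁ at *
  generalize -(4 * Λ * AA2 (2 * ω p)) * sn 2 (Z' p) +
    4 * Λ * es (2 * ω p) * sn 2 (Z' p) * (1 - w₁) - ee δ (ω p) * f p * sn 4 (Z' p) = j₂ at *
  generalize A₀ * t = s at *
  refine ⟨?_, ?_, Or.inl (mul_ne_zero hs.ne' n3), ?_, ?_, ?_⟩
  · have := mul_le_mul_of_nonneg_left n1 (sq_nonneg s)
    linarith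
  · have c3 : K₀ ^ 2 * (d₁ ^ 2 + d₂ ^ 2) ≤ K' ^ 2 * (d₁ ^ 2 + d₂ ^ 2) := by gcongr
    have := mul_le_mul_of_nonneg_left (n2.trans c3) (sq_nonneg s)
    linarith
  · rw [abs_mul, abs_of_pos hs]
    exact (mul_le_mul_of_nonneg_left n4 hs.le).trans hα
  · rw [abs_mul, abs_of_pos hs]
    exact (mul_le_mul_of_nonneg_left n5 hs.le).trans hβ
  · rw [abs_mul, abs_of_pos hs]
    exact (mul_le_of_le_one_left (abs_nonneg _) hs1).trans (n6.trans hK)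

theorem casc_pack {P1 P2 X : W5 → ℝ} {ξ Y τ f F : E → ℝ} {p a b c v₁ v₂ v₃ : E}
    (hξ : Jet ξ p a) (hY : Jet Y p b) (hτ : Jet τ p c)
    (h1 : Jet (fun y => P1 (ξ y, Y y, τ y, f y, F y)) p v₁)
    (h2 : Jet (fun y => P2 (ξ y, Y y, τ y, f y, F y)) p v₂)
    (h3 : Jet (fun y => X (ξ y, Y y, τ y, f y, F y)) p v₃) :
    CLC1 (cL P1 P2 X fun y => (ξ y, Y y, τ y, f y, F y)) p ∧
      cl (cL P1 P2 X fun y => (ξ y, Y y, τ y, f y, F y)) p = cr v₁ b + cr a v₂ + cr v₃ c := by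
  constructor
  · intro q hq
    simp only [cL, List.mem_cons, List.not_mem_nil, or_false] at hq
    rcases hq with rfl | rfl | rfl
    exacts [⟨h1.1, hY.1⟩, ⟨hξ.1, h2.1⟩, ⟨h3.1, hτ.1⟩]
  · simp only [cL, cl_cons, cl_nil, add_zero]
    rw [h1.2, h2.2, h3.2, hξ.2, hY.2, hτ.2, add_assoc]

/-- Round `k ≥ 1` in terms of the parent variable `φ` and the child variable `ψ`. -/
theorem casc_roundk {K Λ δ κ K₀ K' : ℝ} (hK : 10 ≤ K) (hnum : CascNumP K Λ δ κ K₀) (hΛ : 0 < Λ)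
    (hΛ1 : Λ ≤ 1 / 16) (hδ : 0 < δ) (hK₀ : 0 ≤ K₀) (hK' : K₀ ≤ K') {φ ψ τ : E → ℝ} {p a b c : E}
    (hφ : Jet φ p a) (hψ : Jet ψ p b) (hτ : Jet τ p c) {k : ℕ} (hφ0 : ∀ m : ℤ, φ p ≠ m / 2 ^ k)
    (hφ1 : |φ p| < 1) (hψ1 : |ψ p| < 1) (h1 : 1 < 2 ^ k * (2 - τ p)) (h2 : 2 ^ k * (2 - τ p) < 2)
    (h4 : 2 ^ k * (2 - τ p) ≠ 3 / 2) (h5 : 2 ^ k * (2 - τ p) ≠ 1 + δ) :
    ∃ (v₁ v₂ v₃ : E) (d₁ d₂ d₃ j₁ j₂ : ℝ),
      Jet (fun y => Λ ^ k * TD (2 ^ k * φ y) (2 ^ k * (2 - τ y)) +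
        Λ ^ (k + 1) * TD (2 ^ (k + 1) * ψ y) (2 ^ (k + 1) * (2 - τ y))) p
        (d₁ • a + d₂ • b + d₃ • c) ∧
      Jet (fun y => Λ ^ k * TP (2 ^ k * φ y) (2 ^ k * (2 - τ y))) p v₁ ∧
      Jet (fun y => Λ ^ (k + 1) * TP (2 ^ (k + 1) * ψ y) (2 ^ (k + 1) * (2 - τ y))) p v₂ ∧
      Jet (fun y => Λ ^ k * TX Λ δ (2 ^ k * φ y) (2 ^ k * ψ y) (2 ^ k * (2 - τ y))) p v₃ ∧
      cr v₁ b + cr a v₂ + cr v₃ c = j₁ • cr b c + j₂ • cr c a + d₃ • cr a b ∧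
      Num κ K' (φ p) (ψ p) d₁ d₂ d₃ j₁ j₂ := by
  have hZ := hφ.const_mul (2 ^ k)
  have hs : (0 : ℝ) < Λ ^ k * 2 ^ k := by positivity
  have hs2 : Λ ^ k * 2 ^ k * 2 ^ k ≤ 1 := by
    rw [← mul_pow, ← mul_pow]
    exact pow_le_one₀ (by positivity) (by linarith)
  have hs1 : Λ ^ k * 2 ^ k ≤ 1 := by
    rw [← mul_pow]
    exact pow_le_one₀ (by positivity) (by linarith)
  have key : ∀ {x z : ℝ}, |z| < 1 → x ≤ 2 ^ k * (1 - |z|) →
      Λ ^ k * 2 ^ k * (K₀ * x) ≤ K' * (1 - |z|) := by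
    intro x z hz hx
    have h0 : 0 ≤ 1 - |z| := by linarith
    calc Λ ^ k * 2 ^ k * (K₀ * x) ≤ Λ ^ k * 2 ^ k * (K₀ * (2 ^ k * (1 - |z|))) := by gcongr
      _ = Λ ^ k * 2 ^ k * 2 ^ k * (K₀ * (1 - |z|)) := by ring
      _ ≤ 1 * (K' * (1 - |z|)) := by gcongr
      _ = _ := one_mul _
  have hπ1 : Real.pi ^ 2 ≤ 10 := by nlinarith [Real.pi_lt_d2, Real.pi_pos]
  have hπ2 : 1 ≤ Real.pi ^ 2 := by nlinarith [Real.pi_gt_three]
  obtain ⟨v₁, v₂, v₃, d₁, d₂, d₃, j₁, j₂, e0, e1, e2, e3, e4, e5⟩ :=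
    casc_round (K' := K') (t := 2 ^ k) (A₀ := Λ ^ k) (k := Real.pi ^ 2)
      (w₁ := 1 - cs 2 (2 ^ k * φ p)) (α := φ p) (β := ψ p) (Z' := fun y => 2 ^ k * ψ y)
      (ω := fun y => 2 ^ k * (2 - τ y)) (f := fun y => cs 1 (2 ^ k * φ y))
      (F := fun y => sn 1 (2 ^ k * φ y)) (W := fun y => sn 2 (2 ^ k * φ y)) (p := p) (a := a)
      (b := b) (c := c) hnum hδ (hψ.const_mul _)
      (((hτ.const_sub 2).const_mul _).of_eq (by rw [smul_neg, neg_smul]))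
      ((casc_jet_cs hZ one_ne_zero).of_eq (by rw [smul_smul]; congr 1; ring))
      ((casc_jet_sn hZ one_ne_zero).of_eq (by rw [smul_smul]; congr 1; ring))
      ((casc_jet_sn hZ two_ne_zero).of_eq (by rw [smul_smul]; congr 1; ring))
      h1 (by linarith) h2.ne h4 h5 ((casc_abs_cs _ _).trans (by linarith))
      ((casc_abs_sn le_rfl _).trans (by linarith)) (casc_sn_ne hφ0)
      (((div_le_one (by linarith)).2 (by linarith)).trans hπ2) (by linarith)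
      (by
        have := casc_sn_double one_pos (2 ^ k * φ p)
        rw [mul_one] at this
        exact this.trans (le_mul_of_one_le_left (abs_nonneg _) (by linarith)))
      (by
        have := casc_cs_double one_pos (2 ^ k * φ p)
        rw [mul_one] at this
        exact this.trans (mul_le_mul_of_nonneg_right (by linarith) (abs_nonneg _)))
      hs hs1 hK₀ hK'
      (key hφ1 (by simpa using casc_sn_le one_ne_zero k hφ1.le))
      (key hψ1 (by simpa using casc_sn_le two_ne_zero k hψ1.le))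
  have r1 : ∀ x : ℝ, 2 ^ (k + 1) * x = 2 * (2 ^ k * x) := fun x => by ring
  refine ⟨v₁, v₂, v₃, d₁, d₂, d₃, j₁, j₂, e0.congr (.of_forall fun y => ?_), e1,
    e2.congr (.of_forall fun y => ?_), e3, e4, e5⟩
  · simp only [TD, r1, casc_cs_two]
    ring
  · simp only [TP, r1, casc_sn_two]
    ring

theorem casc_jet {K Λ δ κ K₀ : ℝ} (hK : 10 ≤ K) (hnum : CascNumP (4 * K) Λ δ κ K₀) (hΛ : 0 < Λ)
    (hΛ1 : Λ ≤ 1 / 16) (hδ : 0 < δ) (hδ1 : δ < 1 / 2) (hK₀ : 0 ≤ K₀) {N : Set ℝ}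
    (hN : ∀ (m : ℤ) (k : ℕ), (m : ℝ) / 2 ^ k ∈ N) (hN' : ∀ k : ℕ, 2 - (1 + δ) / 2 ^ k ∈ N) :
    CJet K κ (K * K₀) N (cD Λ) (cP1 Λ) (cP2 Λ) (cX Λ δ) := by
  intro ξ Y τ f F p a b c f₁ hξ hY hτ nξ nY nτ hξ1 hY1 hτ1 hτ2 hlow
  have hK' : K₀ ≤ K * K₀ := le_mul_of_one_le_left hK₀ (by linarith)
  have dy : ∀ {x : ℝ}, x ∉ N → ∀ (k : ℕ) (m : ℤ), x ≠ m / 2 ^ k := fun hx k m e =>
    hx (e ▸ hN m k)
  have hne : τ p ≠ 1 := by simpa using dy nτ 0 1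
  rcases hne.lt_or_gt with h | h
  · obtain ⟨hf, hF, b1, b2, b3, k, b4, b5, rfl⟩ := hlow h
    have h0 : 0 < 1 - |ξ p| := by linarith
    have hF0 : F p ≠ 0 := fun e => by rw [e, abs_zero, mul_zero] at b3; linarith
    have hFn := abs_nonneg (F p)
    have hsn : |sn 1 (ξ p)| ≤ 1 - |ξ p| := by simpa using casc_sn_le one_ne_zero 0 hξ1.le
    have hsn2 : |sn 2 (Y p)| ≤ 1 - |Y p| := by simpa using casc_sn_le two_ne_zero 0 hY1.le
    obtain ⟨v₁, v₂, v₃, d₁, d₂, d₃, j₁, j₂, e0, e1, e2, e3, e4, e5⟩ :=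
      casc_round (K' := K * K₀) (t := 1) (A₀ := 1) (k := k) (w₁ := 1 + cs 1 (ξ p)) (α := ξ p)
        (β := Y p) (Z' := Y) (ω := fun y => 2 - τ y) (f := f) (F := F)
        (W := fun y => -sn 1 (ξ y)) (p := p) (a := a) (b := b) (c := c) hnum hδ
        (hY.of_eq (one_smul _ _).symm) ((hτ.const_sub 2).of_eq (by simp))
        (hf.of_eq (by rw [one_mul])) (hF.of_eq (by rw [one_mul]))
        ((casc_jet_sn hξ one_ne_zero).neg.of_eq (by rw [← neg_smul]; congr 1; ring))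
        (by linarith) (by linarith)
        (fun e => dy nτ 0 0 (by simp only [Int.cast_zero, zero_div]; linarith))
        (fun e => dy nτ 1 1 (by simp only [Int.cast_one, pow_one]; linarith))
        (fun e => nτ (by
          have := hN' 0
          rw [pow_zero, div_one] at this
          rw [show τ p = 2 - (1 + δ) by linarith]; exact this))
        (by linarith) (by nlinarith [abs_nonneg (ξ p)]) hF0
        ((one_div_le_one_div_of_le (by linarith) (by linarith)).trans b4) (by linarith)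
        (by rw [abs_neg]; nlinarith)
        ((casc_one_add_cs hξ1.le).trans (by linarith)) (by norm_num) (by norm_num) hK₀ hK'
        (by nlinarith [mul_le_mul_of_nonneg_left b2 hK₀])
        (by
          have : 0 ≤ 1 - |Y p| := by linarith
          calc 1 * 1 * (K₀ * |sn 2 (Y p)|) = K₀ * |sn 2 (Y p)| := by ring
            _ ≤ K * K₀ * (1 - |Y p|) := by gcongr)
    have hev : ∀ᶠ y in 𝓝 p, 1 < om (ξ y, Y y, τ y, f y, F y) := by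
      filter_upwards [hτ.cont.eventually_lt continuousAt_const h] with y hy
      simp only [om]; linarith
    have hz : ∀ q : W5, zk 1 q = q.2.1 := fun q => if_neg (by decide)
    obtain ⟨c1, c2⟩ := casc_pack (P1 := cP1 Λ) (P2 := cP2 Λ) (X := cX Λ δ) (f := f) (F := F)
      hξ hY hτ
      (e1.congr (hev.mono fun y hy => by
        simp only [(casc_loc0 (Λ := Λ) hδ hδ1 _ hy).2.1, om, one_mul]))
      (e2.congr (hev.mono fun y hy => by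
        simp only [(casc_loc0 (Λ := Λ) hδ hδ1 _ hy).2.2.1, tP, TP, hz, om, pow_one, casc_sn_two]
        ring))
      (e3.congr (hev.mono fun y hy => by
        simp only [(casc_loc0 (Λ := Λ) hδ hδ1 _ hy).2.2.2, om]
        ring))
    refine ⟨d₁, d₂, d₃, j₁, j₂, e0.congr (hev.mono fun y hy => ?_), c1, c2.trans e4, e5⟩
    simp only [(casc_loc0 (Λ := Λ) hδ hδ1 _ hy).1, tD, TD, hz, om, pow_one, casc_cs_two]
    ring
  · obtain ⟨n, hn1, hn2⟩ := exists_nat_pow_near_of_lt_one (x := 2 - τ p) (y := 1 / 2)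
      (by linarith) (by linarith) (by norm_num) (by norm_num)
    obtain ⟨k, hk⟩ : ∃ k, k = n + 1 := ⟨_, rfl⟩
    have hk1 : 1 ≤ k := by omega
    have hp : (0 : ℝ) < 2 ^ k := by positivity
    have h1 : 1 < 2 ^ k * (2 - τ p) := by
      rw [← hk, one_div, inv_pow, inv_lt_iff_one_lt_mul₀' hp] at hn1
      exact hn1
    have h2 : 2 ^ k * (2 - τ p) < 2 := by
      refine lt_of_le_of_ne ?_ fun e => dy nτ k (2 * 2 ^ k - 2) ?_
      · rw [one_div, inv_pow, ← one_div, le_div_iff₀ (by positivity)] at hn2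
        rw [hk, pow_succ]; linarith
      · push_cast
        rw [eq_div_iff hp.ne']; linarith
    have h4 : 2 ^ k * (2 - τ p) ≠ 3 / 2 := fun e => dy nτ (k + 1) (4 * 2 ^ k - 3) (by
      push_cast
      rw [eq_div_iff (by positivity), pow_succ]; linarith)
    have h5 : 2 ^ k * (2 - τ p) ≠ 1 + δ := fun e => nτ (by
      have := hN' k
      rw [← e, mul_div_cancel_left₀ _ hp.ne', sub_sub_cancel] at this
      exact this)
    have hc : ContinuousAt (fun y => 2 ^ k * (2 - τ y)) p := ((hτ.const_sub 2).const_mul _).cont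
    have hev : ∀ᶠ y in 𝓝 p, 1 < 2 ^ k * om (ξ y, Y y, τ y, f y, F y) ∧
        2 ^ k * om (ξ y, Y y, τ y, f y, F y) < 2 :=
      (continuousAt_const.eventually_lt hc h1).and (hc.eventually_lt continuousAt_const h2)
    by_cases he : Even k
    · have he' : ¬ Even (k + 1) := by simpa [Nat.even_add_one] using he
      have hz : ∀ q : W5, zk k q = q.1 := fun q => if_pos he
      have hz' : ∀ q : W5, zk (k + 1) q = q.2.1 := fun q => if_neg he'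
      obtain ⟨v₁, v₂, v₃, d₁, d₂, d₃, j₁, j₂, e0, e1, e2, e3, e4, e5⟩ :=
        casc_roundk (by linarith) hnum hΛ hΛ1 hδ hK₀ hK' hξ hY hτ (dy nξ k) hξ1 hY1 h1 h2 h4 h5
      obtain ⟨c1, c2⟩ := casc_pack (P1 := cP1 Λ) (P2 := cP2 Λ) (X := cX Λ δ) (f := f) (F := F)
        hξ hY hτ
        (e1.congr (hev.mono fun y hy => by
          simp only [(casc_lock (Λ := Λ) hδ hδ1 hk1 _ hy.1 hy.2).2.1, if_pos he, tP, hz, om]))
        (e2.congr (hev.mono fun y hy => by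
          simp only [(casc_lock (Λ := Λ) hδ hδ1 hk1 _ hy.1 hy.2).2.2.1, if_pos he, tP, hz', om]))
        (e3.congr (hev.mono fun y hy => by
          simp only [(casc_lock (Λ := Λ) hδ hδ1 hk1 _ hy.1 hy.2).2.2.2, tX, hz, hz', om,
            he.neg_pow]))
      refine ⟨d₁, d₂, d₃, j₁, j₂, e0.congr (hev.mono fun y hy => ?_), c1, c2.trans e4, e5⟩
      simp only [(casc_lock (Λ := Λ) hδ hδ1 hk1 _ hy.1 hy.2).1, tD, hz, hz', om]
    · have he' : Even (k + 1) := by simpa [Nat.even_add_one] using he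
      have ho : Odd k := Nat.not_even_iff_odd.1 he
      have hz : ∀ q : W5, zk k q = q.2.1 := fun q => if_neg he
      have hz' : ∀ q : W5, zk (k + 1) q = q.1 := fun q => if_pos he'
      obtain ⟨v₁, v₂, v₃, d₁, d₂, d₃, j₁, j₂, e0, e1, e2, e3, e4, e5⟩ :=
        casc_roundk (by linarith) hnum hΛ hΛ1 hδ hK₀ hK' hY hξ hτ (dy nY k) hY1 hξ1 h1 h2 h4 h5
      obtain ⟨c1, c2⟩ := casc_pack (P1 := cP1 Λ) (P2 := cP2 Λ) (X := cX Λ δ) (f := f) (F := F)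
        hξ hY hτ
        (e2.congr (hev.mono fun y hy => by
          simp only [(casc_lock (Λ := Λ) hδ hδ1 hk1 _ hy.1 hy.2).2.1, if_neg he, tP, hz', om]))
        (e1.congr (hev.mono fun y hy => by
          simp only [(casc_lock (Λ := Λ) hδ hδ1 hk1 _ hy.1 hy.2).2.2.1, if_neg he, tP, hz, om]))
        (e3.neg.congr (hev.mono fun y hy => by
          simp only [(casc_lock (Λ := Λ) hδ hδ1 hk1 _ hy.1 hy.2).2.2.2, tX, hz, hz', om,
            ho.neg_pow, neg_mul]))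
      refine ⟨d₂, d₁, d₃, j₂, j₁, (e0.congr (hev.mono fun y hy => ?_)).of_eq (by abel), c1,
        c2.trans ?_, casc_num_symm e5⟩
      · simp only [(casc_lock (Λ := Λ) hδ hδ1 hk1 _ hy.1 hy.2).1, tD, hz, hz', om]
      · have e6 : cr v₂ b + cr a v₁ + cr (-v₃) c = -(cr v₁ a + cr b v₂ + cr v₃ c) := by vec3
        rw [e6, e4]
        vec3

/-- Take `Λ, δ, κ, K₀` from `casc_num (4 K)`, `N` = dyadic rationals together with the points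
`2 - (1 + δ)/2^k`, and `K' = C K K₀`.  For `τ p < 1` use `casc_loc0` (near `p`) and `round_jet` with
`t = A₀ = 1`, `ω = 2 - τ`, `Z' = Y`, `W = -sn 1 ξ`, `w₁ = 1 + cs 1 ξ` (`|W| ≤ 1 - |ξ|`,
`|w₁| ≤ π (1 - |ξ|)`).  For `1 < τ p < 2` choose `k ≥ 1` with `1 < 2^k (2 - τ p) < 2`, use
`casc_lock` and `round_jet` with `t = 2^k`, `A₀ = Λ^k`, `f = cs 1 Z`, `F = sn 1 Z`, `W = sn 2 Z`,
`w₁ = 1 - cs 2 Z`, `k = π²`, `Z = 2^k ξ`, `Z' = 2^k Y` for even `k`; for odd `k` the roles of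
`(ξ, a)` and `(Y, b)` are exchanged and `X` changes sign.  `sn 1 (2 Z) = 2 sn 2 Z`,
`cs 1 (2 Z) = cs 2 Z`, `|sn n (2^k ξ)| ≤ 2^k (1 - |ξ|)` for integers `n 2^k`, `(4Λ)^k ≤ 1`. -/
theorem exists_casc (K : ℝ) (hK : 10 ≤ K) : Nonempty (Casc K) := by
  obtain ⟨Λ, δ, κ, K₀, hΛ, hΛ1, hδ, hδ1, hκ, hκ1, hK₀, hnum⟩ := casc_num (4 * K) (by linarith)
  obtain ⟨l1, l2, l3, l4⟩ := casc_ll (δ := δ) hΛ hΛ1
  let N : Set ℝ := range (fun q : ℤ × ℕ => (q.1 : ℝ) / 2 ^ q.2) ∪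
    range fun k : ℕ => 2 - (1 + δ) / 2 ^ k
  have hN : ∀ (m : ℤ) (k : ℕ), (m : ℝ) / 2 ^ k ∈ N := fun m k => Or.inl ⟨(m, k), rfl⟩
  have hN' : ∀ k : ℕ, 2 - (1 + δ) / 2 ^ k ∈ N := fun k => Or.inr ⟨k, rfl⟩
  exact ⟨⟨cD Λ, cP1 Λ, cP2 Λ, cX Λ δ, κ, K * K₀, N, hκ, hκ1, by nlinarith,
    (countable_range _).union (countable_range _), by simpa using hN 1 0, l1, l2, l3, l4,
    casc_top hδ, casc_bot hδ hδ1,
    casc_jet hK hnum hΛ hΛ1 hδ hδ1 (by linarith) hN hN'⟩⟩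

end Crest.Agent.R083
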