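import Crest.Agent.R083.Basic

/-! Row 83: the inequalities of one round of the cascade. -/

set_option autoImplicit false

namespace Crest.Agent.R083

open MeasureTheory Filter Topology Set
open scoped Gradient RealInnerProductSpace

theorem cascnum_clp_mid {a b t : ℝ} (h1 : a ≤ t) (h2 : t ≤ b) : clp a b t = t := by
  rw [clp, min_eq_left h2, max_eq_right h1]

theorem cascnum_clp_hi {a b t : ℝ} (h1 : a ≤ b) (h2 : b ≤ t) : clp a b t = b := by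
  rw [clp, min_eq_right h2, max_eq_right h1]

theorem cascnum_clp_lo {a b t : ℝ} (h2 : t ≤ a) : clp a b t = a := by
  rw [clp, max_eq_left ((min_le_left _ _).trans h2)]

theorem cascnum_A {w : ℝ} (h1 : 1 ≤ w) (h3 : w ≤ 3) :
    AA w = (w - 1) ^ 3 ∧ AA1 w = 3 * (w - 1) ^ 2 ∧ AA2 w = 6 * (w - 1) ∧ es w = 0 := by
  simp only [AA, AA1, AA2, es, cascnum_clp_mid (a := 0) (b := 2) (t := w - 1) (by linarith) (by linarith),
    cascnum_clp_hi (a := 0) (b := 1) (t := 4 - w) (by norm_num) (by linarith), As, As1, As2]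
  refine ⟨by ring, by ring, by ring, by ring⟩

theorem cascnum_B {v : ℝ} (h2 : 2 ≤ v) :
    0 ≤ AA v ∧ AA v ≤ 134 ∧ AA v / 3 ≤ 4 * (AA2 v - es v) ∧ 4 * (AA2 v - es v) ≤ 24 * AA v ∧
      |AA1 v| ≤ 1800 ∧ |es v| ≤ 6000 ∧ (v ≤ 3 → 1 ≤ AA v ∧ es v = 0) := by
  rcases le_total v 3 with h | h
  · obtain ⟨e0, e1, e2, e3⟩ := cascnum_A (w := v) (by linarith) h
    rw [e0, e1, e2, e3]
    obtain ⟨u, rfl⟩ : ∃ u, v = u + 1 := ⟨v - 1, by ring⟩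
    rw [add_sub_cancel_right]
    have h4 : 1 ≤ u := by linarith
    have h5 : u ≤ 2 := by linarith
    have h6 : 1 ≤ u ^ 2 := by nlinarith
    have h7 : u ^ 2 ≤ 4 := by nlinarith
    refine ⟨by positivity, by nlinarith, by nlinarith, by nlinarith, ?_, by simp,
      fun _ => ⟨by nlinarith, rfl⟩⟩
    rw [abs_of_nonneg (by positivity)]
    linarith
  · have hs0 : 0 ≤ clp 0 1 (4 - v) := le_max_left _ _
    have hs1 : clp 0 1 (4 - v) ≤ 1 := max_le zero_le_one (min_le_right _ _)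
    have h3 : v ≤ 3 → clp 0 1 (4 - v) = 1 := fun h' => cascnum_clp_hi zero_le_one (by linarith)
    simp only [AA, AA1, AA2, es, cascnum_clp_hi (a := 0) (b := 2) (t := v - 1) (by norm_num)
      (by linarith), As, As1, As2]
    generalize clp 0 1 (4 - v) = s at *
    have p2 : 0 ≤ s ^ 2 := by positivity
    have p3 : 0 ≤ s ^ 3 := by positivity
    have p4 : 0 ≤ s ^ 4 := by positivity
    have q2 : s ^ 2 ≤ 1 := pow_le_one₀ hs0 hs1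
    have q3 : s ^ 3 ≤ 1 := pow_le_one₀ hs0 hs1
    have q4 : s ^ 4 ≤ 1 := pow_le_one₀ hs0 hs1
    have r1 : 8 ≤ 134 - 216 * s + 90 * s ^ 2 := by nlinarith
    have r2 : 134 - 216 * s + 90 * s ^ 2 ≤ 134 := by nlinarith
    generalize 134 - 216 * s + 90 * s ^ 2 = P at *
    refine ⟨by nlinarith, by nlinarith, by nlinarith, by nlinarith, abs_le.2 ⟨by linarith, by linarith⟩,
      abs_le.2 ⟨by linarith, by linarith⟩, fun h' => ?_⟩
    have h4 := h3 h'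
    subst h4
    constructor
    · nlinarith
    · norm_num

theorem cascnum_e {δ w : ℝ} (hδ : 0 < δ) (hδ' : δ < 1 / 2) (h1 : 1 < w) (h3 : w < 3) :
    3 / 2 * AA w ≤ AA2 w - ee δ w ∧ AA2 w - ee δ w ≤ 6 / δ ^ 2 * AA w ∧ |ee δ w| ≤ 6 * δ ∧
      (3 / 2 ≤ w → ee δ w = 0) := by
  obtain ⟨e0, -, e2, -⟩ := cascnum_A h1.le h3.le
  rw [e0, e2]
  obtain ⟨u, rfl⟩ : ∃ u, w = u + 1 := ⟨w - 1, by ring⟩
  have h4 : 0 < u := by linarith
  have h5 : u < 2 := by linarith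
  have hδ2 : 0 < δ ^ 2 := by positivity
  have hz : δ ≤ u → ee δ (u + 1) = 0 := fun h => by
    rw [ee, add_sub_cancel_right, cascnum_clp_hi hδ.le h]
    field_simp
    ring
  rw [add_sub_cancel_right]
  rcases le_total u δ with h | h
  · have e : ee δ (u + 1) = 6 * u - 6 / δ ^ 2 * u ^ 3 := by
      rw [ee, add_sub_cancel_right, cascnum_clp_mid h4.le h]
      ring
    have h6 : 3 / 2 ≤ 6 / δ ^ 2 := by
      rw [le_div_iff₀ hδ2]
      nlinarith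
    have h7 : 6 / δ ^ 2 * u ^ 3 ≤ 6 * u := by
      rw [div_mul_eq_mul_div, div_le_iff₀ hδ2]
      have : u ^ 2 ≤ δ ^ 2 := by nlinarith
      nlinarith
    have h8 : 0 ≤ 6 / δ ^ 2 * u ^ 3 := by positivity
    refine ⟨?_, by rw [e]; linarith, ?_, fun h' => hz (by linarith)⟩
    · rw [e]
      nlinarith [pow_pos h4 3]
    · rw [e, abs_of_nonneg (by linarith)]
      linarith
  · rw [hz h]
    refine ⟨by nlinarith [mul_pos h4 h4], ?_, by simp [hδ.le], fun _ => rfl⟩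
    rw [div_mul_eq_mul_div, le_div_iff₀ hδ2]
    have : δ ^ 2 ≤ u ^ 2 := by nlinarith
    nlinarith

theorem cascnum_abs3 {a b c A B C : ℝ} (ha : |a| ≤ A) (hb : |b| ≤ B) (hc : |c| ≤ C) :
    |a * b * c| ≤ A * B * C := by
  have := (abs_nonneg _).trans ha
  have := (abs_nonneg _).trans hb
  rw [abs_mul, abs_mul]
  gcongr

theorem cascnum_quad {κ η M d₁ d₂ m₁ m₂ r₁ r₂ : ℝ} (hη : 0 ≤ η) (hκ : 4 * η ≤ κ) (hη1 : η ≤ 1)
    (hM : 0 ≤ M) (h1 : κ * d₁ ^ 2 ≤ m₁ * d₁) (h2 : κ * d₂ ^ 2 ≤ m₂ * d₂) (h3 : |m₁| ≤ M * |d₁|)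
    (h4 : |m₂| ≤ M * |d₂|) (h5 : |r₁| ≤ η * (|d₁| + |d₂|)) (h6 : |r₂| ≤ η * (|d₁| + |d₂|)) :
    κ / 2 * (d₁ ^ 2 + d₂ ^ 2) ≤ (m₁ - r₁) * d₁ + (m₂ - r₂) * d₂ ∧
      (m₁ - r₁) ^ 2 + (m₂ - r₂) ^ 2 ≤ (2 * (M + 2)) ^ 2 * (d₁ ^ 2 + d₂ ^ 2) := by
  have a1 : r₁ * d₁ ≤ η * (|d₁| + |d₂|) * |d₁| :=
    (le_abs_self _).trans (by rw [abs_mul]; gcongr)
  have a2 : r₂ * d₂ ≤ η * (|d₁| + |d₂|) * |d₂| :=
    (le_abs_self _).trans (by rw [abs_mul]; gcongr)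
  have a3 : |m₁ - r₁| ≤ M * |d₁| + η * (|d₁| + |d₂|) := (abs_sub _ _).trans (add_le_add h3 h5)
  have a4 : |m₂ - r₂| ≤ M * |d₂| + η * (|d₁| + |d₂|) := (abs_sub _ _).trans (add_le_add h4 h6)
  rw [← sq_abs d₁] at h1 ⊢
  rw [← sq_abs d₂] at h2 ⊢
  rw [← sq_abs (m₁ - r₁), ← sq_abs (m₂ - r₂)]
  have hx := abs_nonneg d₁
  have hy := abs_nonneg d₂
  have hp := abs_nonneg (m₁ - r₁)
  have hq := abs_nonneg (m₂ - r₂)
  generalize |d₁| = x at *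
  generalize |d₂| = y at *
  generalize |m₁ - r₁| = p at *
  generalize |m₂ - r₂| = q at *
  constructor
  · nlinarith [mul_nonneg hη (sq_nonneg (x - y)),
      mul_le_mul_of_nonneg_right hκ (add_nonneg (sq_nonneg x) (sq_nonneg y))]
  · have a5 : p + q ≤ (M + 2) * (x + y) := by
      nlinarith [mul_le_mul_of_nonneg_right hη1 (add_nonneg hx hy)]
    have a6 : (p + q) ^ 2 ≤ ((M + 2) * (x + y)) ^ 2 := pow_le_pow_left₀ (by positivity) a5 2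
    have a7 : (x + y) ^ 2 ≤ 4 * (x ^ 2 + y ^ 2) := by nlinarith [sq_nonneg (x - y)]
    calc p ^ 2 + q ^ 2 ≤ (p + q) ^ 2 := by nlinarith [mul_nonneg hp hq]
      _ ≤ (M + 2) ^ 2 * (x + y) ^ 2 := by rw [← mul_pow]; exact a6
      _ ≤ (M + 2) ^ 2 * (4 * (x ^ 2 + y ^ 2)) := by gcongr
      _ = _ := by ring

theorem cascnum_main {K Λ δ η a B βa βB e σ A1 B1 f F k W w₁ g G W' w₁' : ℝ} (hK : 1 ≤ K)
    (hη : η = 1 / (480 * K)) (hΛ : 192000 * K ^ 2 * Λ = η) (hδ : 78 * K * δ = η * Λ)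
    (hΛ0 : 0 < Λ) (hΛ1 : Λ ≤ 1 / 16) (hδ0 : 0 < δ) (hδ1 : δ < 1 / 2)
    (ha : 0 < a) (ha' : a ≤ 8) (hβa : 3 / 2 * a ≤ βa) (hβa' : βa ≤ 6 / δ ^ 2 * a)
    (hB : 0 ≤ B) (hB' : B ≤ 134) (hβB : B / 3 ≤ βB) (hβB' : βB ≤ 24 * B)
    (he : |e| ≤ 6 * δ) (he' : |e| ≤ 6 * δ * B) (hσ : |σ| ≤ 6000) (hσ' : |σ| ≤ 48000 * a)
    (hA1 : |A1| ≤ 12) (hB1 : |B1| ≤ 1800) (hf : |f| ≤ K) (hF : |F| ≤ K) (hF0 : F ≠ 0)
    (hk : 1 / K ≤ k) (hk' : k ≤ K) (hW : |W| ≤ K * |F|) (hw₁ : |w₁| ≤ K * |F|) (hg : |g| ≤ 1)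
    (hG : |G| ≤ 1) (hW' : |W'| ≤ |G|) (hw₁' : |w₁'| ≤ 13 * |G|) {d₁ d₂ d₃ j₁ j₂ : ℝ}
    (h1 : d₁ = -k * F * a) (h2 : d₂ = -(4 * Real.pi ^ 2) * G * (Λ * B))
    (h3 : d₃ = -(A1 * f + 2 * Λ * B1 * g)) (h4 : j₁ = -βa * F - (e * F * w₁' + 4 * Λ * σ * g * W))
    (h5 : j₂ = -(Λ * βB) * G - (4 * Λ * σ * G * w₁ + e * f * W')) :
    2 * η * (d₁ ^ 2 + d₂ ^ 2) ≤ j₁ * d₁ + j₂ * d₂ ∧
      j₁ ^ 2 + j₂ ^ 2 ≤ (100 * K / δ ^ 2 + 10000 * K ^ 2) ^ 2 * (d₁ ^ 2 + d₂ ^ 2) ∧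
      d₁ ≠ 0 ∧ |j₁| ≤ (100 * K / δ ^ 2 + 10000 * K ^ 2) * |F| ∧
      |j₂| ≤ (100 * K / δ ^ 2 + 10000 * K ^ 2) * |G| ∧ |d₃| ≤ 100 * K / δ ^ 2 + 10000 * K ^ 2 := by
  have hK0 : 0 < K := by linarith
  have hk0 : 0 < k := lt_of_lt_of_le (by positivity) hk
  have hkK : 1 ≤ K * k := by rwa [div_le_iff₀' hK0] at hk
  have hη0 : 0 < η := by rw [hη]; positivity
  have hηK : 480 * K * η = 1 := by rw [hη]; field_simp
  have hη1 : η ≤ 1 / 480 := by nlinarith only [hηK, hK, hη0]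
  have hπ : 1 ≤ 4 * Real.pi ^ 2 := by nlinarith only [Real.pi_gt_three]
  have hπ' : 4 * Real.pi ^ 2 ≤ 40 := by nlinarith only [Real.pi_lt_d2, Real.pi_pos]
  generalize 4 * Real.pi ^ 2 = Q at *
  have hD : 0 < 1 / δ ^ 2 := by positivity
  have eD : 6 / δ ^ 2 = 6 * (1 / δ ^ 2) := by ring
  have eD' : 100 * K / δ ^ 2 = 100 * (K * (1 / δ ^ 2)) := by ring
  rw [eD] at hβa'
  rw [eD']
  generalize 1 / δ ^ 2 = D at *
  have hFa := abs_nonneg F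
  have hGa := abs_nonneg G
  have hKK : K ≤ K ^ 2 := by nlinarith only [hK]
  have hKD : D ≤ K * D := by nlinarith only [hK, hD]
  have x1 : |d₁| = k * |F| * a := by
    rw [h1, abs_mul, abs_mul, abs_neg, abs_of_pos hk0, abs_of_pos ha]
  have x2 : |d₂| = Q * |G| * (Λ * B) := by
    rw [h2, abs_mul, abs_mul, abs_neg, abs_of_nonneg (by linarith : 0 ≤ Q),
      abs_of_nonneg (by positivity : 0 ≤ Λ * B)]
  have y1 : a * |F| ≤ K * |d₁| := by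
    rw [x1]
    linarith only [mul_le_mul_of_nonneg_right hkK (mul_nonneg ha.le hFa)]
  have y2 : Λ * B * |G| ≤ |d₂| := by
    rw [x2]
    linarith only [mul_le_mul_of_nonneg_right hπ (mul_nonneg (mul_nonneg hΛ0.le hB) hGa)]
  have z0 : |4 * Λ * σ| ≤ 4 * Λ * (48000 * a) := by
    rw [abs_mul, abs_of_pos (by positivity : 0 < 4 * Λ)]
    gcongr
  have z0' : |4 * Λ * σ| ≤ 1500 := by
    rw [abs_mul, abs_of_pos (by positivity : 0 < 4 * Λ)]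
    nlinarith only [abs_nonneg σ, hσ, hΛ0, hΛ1]
  have z1 : 4 * Λ * (48000 * a) * 1 * (K * |F|) ≤ η * |d₁| := by
    calc _ = 192000 * K * Λ * (a * |F|) := by ring
      _ ≤ 192000 * K * Λ * (K * |d₁|) := by gcongr
      _ = _ := by rw [← hΛ]; ring
  have z2 : 6 * δ * B * K * (13 * |G|) ≤ η * |d₂| := by
    calc _ = 78 * K * δ * (B * |G|) := by ring
      _ = η * (Λ * B * |G|) := by rw [hδ]; ring
      _ ≤ _ := by gcongr
  have E1 := (cascnum_abs3 he' hF hw₁').trans z2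
  have E2 := (cascnum_abs3 z0 hg hW).trans z1
  have E3 := (cascnum_abs3 z0 hG hw₁).trans z1
  have E4 := (cascnum_abs3 he' hf (hW'.trans (by linarith : |G| ≤ 13 * |G|))).trans z2
  have hβa0 : 0 ≤ βa := by linarith
  have hβB0 : 0 ≤ βB := by linarith
  have m1 : |-βa * F| = βa * |F| := by rw [abs_mul, abs_neg, abs_of_nonneg hβa0]
  have m2 : |-(Λ * βB) * G| = Λ * βB * |G| := by
    rw [abs_mul, abs_neg, abs_of_nonneg (by positivity)]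
  obtain ⟨q1, q2⟩ := cascnum_quad (κ := 4 * η) (η := η) (M := 6 * (K * D) + 24) (d₁ := d₁) (d₂ := d₂)
    (m₁ := -βa * F) (m₂ := -(Λ * βB) * G) (r₁ := e * F * w₁' + 4 * Λ * σ * g * W)
    (r₂ := 4 * Λ * σ * G * w₁ + e * f * W') hη0.le le_rfl (by linarith) (by positivity)
    (by
      have t1 : 4 * η * k ≤ 3 / 2 := by nlinarith only [hηK, hk', hη0]
      have t2 : 4 * η * k * a ≤ βa := by nlinarith only [t1, ha, hβa]
      have t3 := mul_le_mul_of_nonneg_right t2 (by positivity : 0 ≤ k * a * F ^ 2)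
      rw [h1]
      linarith only [t3])
    (by
      have t1 : 4 * η * Q ≤ 1 / 3 := by nlinarith only [hη1, hπ', hη0, hπ]
      have t2 : 4 * η * Q * B ≤ βB := by nlinarith only [t1, hB, hβB]
      have t3 := mul_le_mul_of_nonneg_right t2
        (by have : 0 ≤ Q := by linarith
            positivity : 0 ≤ Q * B * Λ ^ 2 * G ^ 2)
      rw [h2]
      linarith only [t3])
    (by
      rw [m1]
      calc βa * |F| ≤ 6 * D * a * |F| := by gcongr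
        _ = 6 * D * (a * |F|) := by ring
        _ ≤ 6 * D * (K * |d₁|) := by gcongr
        _ ≤ _ := by linarith only [abs_nonneg d₁])
    (by
      rw [m2]
      calc Λ * βB * |G| ≤ Λ * (24 * B) * |G| := by gcongr
        _ = 24 * (Λ * B * |G|) := by ring
        _ ≤ 24 * |d₂| := by gcongr
        _ ≤ _ := by linarith only [mul_nonneg (mul_pos hK0 hD).le (abs_nonneg d₂)])
    ((abs_add_le _ _).trans (by linarith)) ((abs_add_le _ _).trans (by linarith))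
  rw [← h4, ← h5] at q1 q2
  have hKD0 := mul_pos hK0 hD
  refine ⟨by linarith, q2.trans ?_, ?_, ?_, ?_, ?_⟩
  · have : 2 * (6 * (K * D) + 24 + 2) ≤ 100 * (K * D) + 10000 * K ^ 2 := by linarith
    gcongr
  · rw [h1]
    exact mul_ne_zero (mul_ne_zero (neg_ne_zero.2 hk0.ne') hF0) ha.ne'
  · have t1 := cascnum_abs3 he (le_refl |F|) (hw₁'.trans (by linarith : 13 * |G| ≤ 13))
    have t2 := cascnum_abs3 z0' hg hW
    have t3 : βa ≤ 48 * (K * D) := by nlinarith only [hβa', ha', hD, hKD]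
    have t4 := mul_le_mul_of_nonneg_right t3 hFa
    have t5 : |j₁| ≤ βa * |F| + (|e * F * w₁'| + |4 * Λ * σ * g * W|) := by
      rw [h4, ← m1]
      exact (abs_sub _ _).trans (add_le_add le_rfl (abs_add_le _ _))
    have t6 := mul_le_mul_of_nonneg_right hδ1.le hFa
    have t7 := mul_le_mul_of_nonneg_right hKK hFa
    have t8 := mul_le_mul_of_nonneg_right hK hFa
    have t9 := mul_nonneg hKD0.le hFa
    linarith only [t1, t2, t4, t5, t6, t7, t8, t9, hFa]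
  · have t1 := cascnum_abs3 z0' (le_refl |G|) (hw₁.trans (mul_le_mul_of_nonneg_left hF hK0.le))
    have t2 := cascnum_abs3 (he.trans (by linarith : 6 * δ ≤ 3)) hf hW'
    have t3 : Λ * βB ≤ 3216 := by nlinarith only [hΛ0, hΛ1, hβB0, hβB', hB']
    have t4 := mul_le_mul_of_nonneg_right t3 hGa
    have t5 : |j₂| ≤ Λ * βB * |G| + (|4 * Λ * σ * G * w₁| + |e * f * W'|) := by
      rw [h5, ← m2]
      exact (abs_sub _ _).trans (add_le_add le_rfl (abs_add_le _ _))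
    have t7 := mul_le_mul_of_nonneg_right hKK hGa
    have t8 := mul_le_mul_of_nonneg_right hK hGa
    have t9 := mul_nonneg hKD0.le hGa
    linarith only [t1, t2, t4, t5, t7, t8, t9, hGa]
  · have t1 : |A1 * f| ≤ 12 * K := by
      rw [abs_mul]
      gcongr
    have t2 := cascnum_abs3 (show |2 * Λ| ≤ 1 by rw [abs_of_pos (by positivity)]; linarith) hB1 hg
    rw [h3, abs_neg]
    refine (abs_add_le _ _).trans ?_
    linarith

/-- With `u = w - 1`, `a = AA w = u³`, `b = Λ AA (2w) ≥ 0`: `βa = AA2 w - ee δ w ∈ [1.5 a, 6 a/δ²]`,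
`βb = 4 Λ (AA2 (2w) - es (2w)) ∈ [b/3, 24 b]`, `j₁ = -βa F - e F w₁' - e' g W`,
`j₂ = -βb G - e' G w₁ - e f W'` with `e = ee δ w`, `e' = 4 Λ es (2w)`.  `e' ≠ 0` only if `w > 3/2`
(then `a ≥ 1/8`, `|es| ≤ 6000`), `e ≠ 0` only if `w < 1 + δ` (then `|e| ≤ 6 δ`, `b ≥ Λ`).  The main
terms are `κ₁ d₁`, `κ₂ d₂` with `κ_i ≥ κ₀ = 1/(120 K)`; choose `Λ` and then `δ` so small that each
error term is at most `κ₀/8` times `|d₁|` resp. `|d₂|`. -/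
theorem casc_num (K : ℝ) (hK : 1 ≤ K) : ∃ Λ δ κ K' : ℝ, 0 < Λ ∧ Λ ≤ 1 / 16 ∧ 0 < δ ∧ δ < 1 / 2 ∧
    0 < κ ∧ κ ≤ 1 / 10 ∧ 10 ≤ K' ∧ ∀ w f F k W w₁ g G W' w₁' : ℝ, 1 < w → w < 3 → |f| ≤ K →
    |F| ≤ K → F ≠ 0 → 1 / K ≤ k → k ≤ K → |W| ≤ K * |F| → |w₁| ≤ K * |F| → |g| ≤ 1 → |G| ≤ 1 →
    |W'| ≤ |G| → |w₁'| ≤ 13 * |G| → ∀ d₁ d₂ d₃ j₁ j₂ : ℝ, d₁ = -k * F * AA w →
    d₂ = -(4 * Real.pi ^ 2) * G * (Λ * AA (2 * w)) → d₃ = -(AA1 w * f + 2 * Λ * AA1 (2 * w) * g) →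
    j₁ = -AA2 w * F + ee δ w * F * (1 - w₁') - 4 * Λ * es (2 * w) * g * W →
    j₂ = -(4 * Λ * AA2 (2 * w)) * G + 4 * Λ * es (2 * w) * G * (1 - w₁) - ee δ w * f * W' →
    κ * (d₁ ^ 2 + d₂ ^ 2) ≤ j₁ * d₁ + j₂ * d₂ ∧ j₁ ^ 2 + j₂ ^ 2 ≤ K' ^ 2 * (d₁ ^ 2 + d₂ ^ 2) ∧
      d₁ ≠ 0 ∧ |j₁| ≤ K' * |F| ∧ |j₂| ≤ K' * |G| ∧ |d₃| ≤ K' := by
  have hK0 : 0 < K := by linarith
  set η := 1 / (480 * K) with hη
  have hη0 : 0 < η := by positivity
  have hη1 : η ≤ 1 / 480 := one_div_le_one_div_of_le (by norm_num) (by linarith)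
  set Λ := η / (192000 * K ^ 2) with hΛ
  have hΛ0 : 0 < Λ := by positivity
  have hΛ1 : Λ ≤ 1 / 16 := by
    rw [hΛ, div_le_iff₀ (by positivity)]
    nlinarith
  set δ := η * Λ / (78 * K) with hδ
  have hδ0 : 0 < δ := by positivity
  have hδ1 : δ < 1 / 2 := by
    rw [hδ, div_lt_iff₀ (by positivity)]
    nlinarith
  have h10 : 0 ≤ 100 * K / δ ^ 2 := by positivity
  refine ⟨Λ, δ, 2 * η, 100 * K / δ ^ 2 + 10000 * K ^ 2, hΛ0, hΛ1, hδ0, hδ1, by positivity,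
    by linarith, by nlinarith, ?_⟩
  intro w f F k W w₁ g G W' w₁' h1 h3 hf hF hF0 hk hk' hW hw₁ hg hG hW' hw₁' d₁ d₂ d₃ j₁ j₂ e1 e2 e3
    e4 e5
  obtain ⟨a0, a1, -, -⟩ := cascnum_A h1.le h3.le
  obtain ⟨b1, b2, b3, b4, b5, b6, b7⟩ := cascnum_B (v := 2 * w) (by linarith)
  obtain ⟨c1, c2, c3, c4⟩ := cascnum_e hδ0 hδ1 h1 h3
  have hu : 0 < w - 1 := by linarith
  have ha : 0 < AA w := by rw [a0]; positivity
  refine cascnum_main hK hη (by rw [hΛ]; field_simp) (by rw [hδ]; field_simp) hΛ0 hΛ1 hδ0 hδ1 ha ?_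
    c1 c2 b1 b2 b3 b4 c3 ?_ b6 ?_ ?_ b5 hf hF hF0 hk hk' hW hw₁ hg hG hW' hw₁' e1 e2 e3
    (by rw [e4]; ring) (by rw [e5]; ring)
  · rw [a0]
    exact (pow_le_pow_left₀ hu.le (by linarith : w - 1 ≤ 2) 3).trans (by norm_num)
  · rcases le_total w (3 / 2) with h | h
    · have := (b7 (by linarith)).1
      nlinarith
    · rw [c4 h, abs_zero]
      positivity
  · rcases le_total w (3 / 2) with h | h
    · rw [(b7 (by linarith)).2, abs_zero]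
      positivity
    · have := pow_le_pow_left₀ (by norm_num) (by linarith : 1 / 2 ≤ w - 1) 3
      rw [a0]
      linarith
  · rw [a1, abs_of_nonneg (by positivity)]
    nlinarith

end Crest.Agent.R083
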