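import Crest.Agent.R083.Basic

/-! Row 83: covering an open set by thin double cones. -/

set_option autoImplicit false

namespace Crest.Agent.R083

open MeasureTheory Filter Topology Set
open scoped Gradient RealInnerProductSpace

theorem cover_sub (g : E) {δ : ℝ} (hδ : 0 < δ) (c : E) (r : ℝ) :
    rh g δ c r ⊆ Metric.closedBall c (r / δ) := by
  intro y hy
  have h1 : |⟪g, y - c⟫| + δ * ‖y - c‖ ≤ r := hy
  rw [Metric.mem_closedBall, dist_eq_norm, le_div_iff₀ hδ]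
  have := abs_nonneg ⟪g, y - c⟫
  linarith

theorem cover_sup (g : E) {δ : ℝ} (hδ : 0 < δ) (c : E) (r : ℝ) :
    Metric.closedBall c (r / (‖g‖ + δ)) ⊆ rh g δ c r := by
  intro y hy
  have h0 : 0 < ‖g‖ + δ := by positivity
  rw [Metric.mem_closedBall, dist_eq_norm, le_div_iff₀ h0] at hy
  show |⟪g, y - c⟫| + δ * ‖y - c‖ ≤ r
  have := abs_real_inner_le_norm g (y - c)
  linarith

theorem cover_closed (g : E) (δ : ℝ) (c : E) (r : ℝ) : IsClosed (rh g δ c r) :=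
  isClosed_le (by fun_prop) continuous_const

theorem isCompact_rh (g : E) {δ : ℝ} (hδ : 0 < δ) (c : E) (r : ℝ) : IsCompact (rh g δ c r) := by
  exact (isCompact_closedBall c (r / δ)).of_isClosed_subset (cover_closed g δ c r) (cover_sub g hδ c r)

theorem cover_one {V : Set E} (hV : IsOpen V) (g : E) {δ r₀ : ℝ} (hδ : 0 < δ) (hr₀ : 0 < r₀) :
    ∃ S : Set (Set E), S.Countable ∧ S.PairwiseDisjoint id ∧
      (∀ R ∈ S, R ⊆ V ∧ ∃ (c : E) (r : ℝ), 0 < r ∧ r ≤ r₀ ∧ R = rh g δ c r) ∧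
      ∀ᵐ x : E, x ∈ V → ∃ R ∈ S, x ∈ R := by
  have h0 : 0 < ‖g‖ + δ := by positivity
  set k : ℝ := 3 * (‖g‖ + δ) / δ with hk
  have hk0 : 0 ≤ k := by positivity
  obtain ⟨u, hut, huc, hud, hu0⟩ := Vitali.exists_disjoint_covering_ae (volume : Measure E) V
    {a : E × ℝ | 0 < a.2 ∧ a.2 ≤ r₀ ∧ rh g δ a.1 a.2 ⊆ V} (Real.toNNReal (k ^ Module.finrank ℝ E))
    (fun a => a.2 / δ) (fun a => a.1) (fun a => rh g δ a.1 a.2)
    (fun a _ => cover_sub g hδ a.1 a.2)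
    (fun a ha => by
      have ha0 : 0 < a.2 := ha.1
      have e : 3 * (a.2 / δ) = k * (a.2 / (‖g‖ + δ)) := by rw [hk]; field_simp
      rw [e, Measure.addHaar_closedBall_mul _ _ hk0 (by positivity),
        ← Measure.addHaar_closedBall_center volume a.1]
      exact mul_le_mul_right (measure_mono (cover_sup g hδ a.1 a.2)) _)
    (fun a ha => by
      have ha0 : 0 < a.2 := ha.1
      exact ⟨a.1, mem_interior_iff_mem_nhds.2 (mem_of_superset
        (Metric.closedBall_mem_nhds _ (by positivity)) (cover_sup g hδ a.1 a.2))⟩)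
    (fun a _ => cover_closed g δ a.1 a.2)
    (fun x hx ε hε => by
      obtain ⟨η, hη, hηV⟩ := Metric.nhds_basis_closedBall.mem_iff.1 (hV.mem_nhds hx)
      have hm : 0 < min r₀ (min (ε * δ) (η * δ)) := by positivity
      refine ⟨(x, min r₀ (min (ε * δ) (η * δ))), ⟨hm, min_le_left _ _, ?_⟩, ?_, rfl⟩
      · refine (cover_sub g hδ _ _).trans ((Metric.closedBall_subset_closedBall ?_).trans hηV)
        rw [div_le_iff₀ hδ]
        exact (min_le_right _ _).trans (min_le_right _ _)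
      · show min r₀ (min (ε * δ) (η * δ)) / δ ≤ ε
        rw [div_le_iff₀ hδ]
        exact (min_le_right _ _).trans (min_le_left _ _))
  refine ⟨(fun a : E × ℝ => rh g δ a.1 a.2) '' u, huc.image _, ?_, ?_, ?_⟩
  · rintro _ ⟨a, ha, rfl⟩ _ ⟨b, hb, rfl⟩ hne
    exact hud ha hb fun e => hne (by rw [e])
  · rintro _ ⟨a, ha, rfl⟩
    exact ⟨(hut ha).2.2, a.1, a.2, (hut ha).1, (hut ha).2.1, rfl⟩
  · filter_upwards [measure_eq_zero_iff_ae_notMem.1 hu0] with x hx hxV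
    by_contra hne
    refine hx ⟨hxV, fun hx' => hne ?_⟩
    obtain ⟨a, ha, hxa⟩ := mem_iUnion₂.1 hx'
    exact ⟨_, ⟨a, ha, rfl⟩, hxa⟩

/-- Choose countably many good points `x n` whose balls `ball (x n) (r₀ n)` cover the good set
(Lindelöf), put `V n = (Ω ∩ ball (x n) (r₀ n)) \ ⋃ j < n, closedBall (x j) (r₀ j)` (open, disjoint,
covering a.e. since spheres are null, `Measure.addHaar_sphere`), and in each `V n` apply
`Vitali.exists_disjoint_covering_ae` to the sets `rh g δ c r ⊆ V n`, `c ∈ V n`; they satisfy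
`ball c (r / (‖g‖ + δ)) ⊆ rh g δ c r ⊆ closedBall c (r / δ)`. -/
theorem cover {Ω : Set E} (hΩ : IsOpen Ω) (Q : Set E → Prop)
    (h : ∀ᵐ x : E, x ∈ Ω → ∃ (g : E) (δ r₀ : ℝ), 0 < δ ∧ 0 < r₀ ∧ ∀ (c : E) (r : ℝ), 0 < r → r ≤ r₀ →
      rh g δ c r ⊆ Metric.ball x r₀ → Q (rh g δ c r)) :
    ∃ S : Set (Set E), S.Countable ∧ S.PairwiseDisjoint id ∧
      (∀ R ∈ S, Q R ∧ R ⊆ Ω ∧ IsCompact R) ∧ ∀ᵐ x : E, x ∈ Ω → ∃ R ∈ S, x ∈ R := by
  set G : Set E := {x | ∃ (g : E) (δ r₀ : ℝ), 0 < δ ∧ 0 < r₀ ∧ ∀ (c : E) (r : ℝ), 0 < r → r ≤ r₀ →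
      rh g δ c r ⊆ Metric.ball x r₀ → Q (rh g δ c r)} with hG
  have hch : ∀ x ∈ G, ∃ (g : E) (δ r₀ : ℝ), 0 < δ ∧ 0 < r₀ ∧ ∀ (c : E) (r : ℝ), 0 < r → r ≤ r₀ →
      rh g δ c r ⊆ Metric.ball x r₀ → Q (rh g δ c r) := fun x hx => hx
  choose! g δ ρ hδ hρ hQ using hch
  obtain ⟨t, htG, htc, hcov⟩ := TopologicalSpace.countable_cover_nhdsWithin
    (f := fun x => Metric.ball x (ρ x)) (s := G)
    fun x hx => mem_nhdsWithin_of_mem_nhds (Metric.ball_mem_nhds x (hρ x hx))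
  rcases t.eq_empty_or_nonempty with rfl | hne
  · refine ⟨∅, countable_empty, pairwiseDisjoint_empty, fun R hR => hR.elim, ?_⟩
    filter_upwards [h] with x hx hxΩ
    simpa using hcov (hx hxΩ)
  obtain ⟨x, rfl⟩ := htc.exists_eq_range hne
  have hxG : ∀ n, x n ∈ G := fun n => htG ⟨n, rfl⟩
  set V : ℕ → Set E := fun n => (Ω ∩ Metric.ball (x n) (ρ (x n))) \
    ⋃ j ∈ Finset.range n, Metric.closedBall (x j) (ρ (x j)) with hV
  have hVo : ∀ n, IsOpen (V n) := fun n =>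
    (hΩ.inter Metric.isOpen_ball).sdiff (isClosed_biUnion_finset fun j _ => Metric.isClosed_closedBall)
  have hVd : ∀ m n, m < n → Disjoint (V m) (V n) := fun m n hmn =>
    Set.disjoint_left.2 fun y hy hy' => hy'.2 (mem_iUnion₂.2
      ⟨m, Finset.mem_range.2 hmn, Metric.ball_subset_closedBall hy.1.2⟩)
  choose S hSc hSd hSR hSa using fun n => cover_one (hVo n) (g (x n)) (hδ _ (hxG n)) (hρ _ (hxG n))
  refine ⟨⋃ n, S n, countable_iUnion hSc, ?_, ?_, ?_⟩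
  · intro R hR R' hR' hne
    obtain ⟨m, hm⟩ := mem_iUnion.1 hR
    obtain ⟨n, hn⟩ := mem_iUnion.1 hR'
    rcases lt_trichotomy m n with hmn | rfl | hmn
    · exact (hVd m n hmn).mono (hSR m R hm).1 (hSR n R' hn).1
    · exact hSd m hm hn hne
    · exact (hVd n m hmn).symm.mono (hSR m R hm).1 (hSR n R' hn).1
  · intro R hR
    obtain ⟨n, hn⟩ := mem_iUnion.1 hR
    obtain ⟨hRV, c, r, hr, hr', rfl⟩ := hSR n R hn
    exact ⟨hQ _ (hxG n) c r hr hr' fun y hy => (hRV hy).1.2, fun y hy => (hRV hy).1.1,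
      isCompact_rh _ (hδ _ (hxG n)) c r⟩
  · have hsph : ∀ᵐ y : E, ∀ n, y ∉ Metric.sphere (x n) (ρ (x n)) :=
      ae_all_iff.2 fun n => measure_eq_zero_iff_ae_notMem.1 (Measure.addHaar_sphere _ _ _)
    filter_upwards [h, hsph, ae_all_iff.2 hSa] with y hy hys hyS hyΩ
    have hex : ∃ n, y ∈ Metric.ball (x n) (ρ (x n)) := by
      obtain ⟨_, ⟨n, rfl⟩, hn⟩ := mem_iUnion₂.1 (hcov (hy hyΩ))
      exact ⟨n, hn⟩
    classical
    obtain ⟨R, hR, hyR⟩ := hyS (Nat.find hex) ⟨⟨hyΩ, Nat.find_spec hex⟩, fun hy' => by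
      obtain ⟨j, hj, hyj⟩ := mem_iUnion₂.1 hy'
      have h1 := Nat.find_min hex (Finset.mem_range.1 hj)
      rw [← Metric.ball_union_sphere] at hyj
      exact hyj.elim h1 (hys j)⟩
    exact ⟨R, mem_iUnion.2 ⟨_, hR⟩, hyR⟩

end Crest.Agent.R083
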