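import Mathlib

/-!
# Row 83: non-uniqueness in the Calderón problem for bounded conductivities.  Definitions.

Plan.  A self-similar conductivity `γ` is built on a tree of cells (`PP`, children `CC 1`,
`CC (-1)`, ratio `8/15 > 1/2`) in such a way that the difference of the port measures of two sibling
cells is the source of a compactly supported potential.  Then every solution is constant on the
limit Cantor set, and for a bounded potential `c` of such a source `u ↦ (u - ℓ)/c + ℓ` maps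
solutions for `γ` to solutions for `c² γ` with the same boundary data.
-/

set_option autoImplicit false

namespace Crest.Agent.R083

open MeasureTheory Filter Topology Set
open scoped Gradient RealInnerProductSpace

noncomputable section

abbrev E := EuclideanSpace ℝ (Fin 3)

/-- Cross product. -/
def cr (a b : E) : E := !₂[a 1 * b 2 - a 2 * b 1, a 2 * b 0 - a 0 * b 2, a 0 * b 1 - a 1 * b 0]

def ex : E := !₂[1, 0, 0]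
def ey : E := !₂[0, 1, 0]
def ez : E := !₂[0, 0, 1]

/-- Clamp `t` to `[a, b]`. -/
def clp (a b t : ℝ) : ℝ := max a (min t b)

/-- Sign (never zero). -/
def sg (t : ℝ) : ℝ := if 0 < t then 1 else -1

/-- `φ` is `C¹` near `p` with gradient `v` at `p`. -/
def Jet (φ : E → ℝ) (p v : E) : Prop := ContDiffAt ℝ 1 φ p ∧ ∇ φ p = v

/-- Lists of Clebsch potentials. -/
abbrev CL := List ((E → ℝ) × (E → ℝ))

/-- The divergence-free field `∑ ∇p × ∇q`. -/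
def cl (L : CL) (p : E) : E := (L.map fun q => cr (∇ q.1 p) (∇ q.2 p)).sum

def CLC1 (L : CL) (p : E) : Prop := ∀ q ∈ L, ContDiffAt ℝ 1 q.1 p ∧ ContDiffAt ℝ 1 q.2 p

def CLLL (L : CL) : Prop := ∀ q ∈ L, LocallyLipschitz q.1 ∧ LocallyLipschitz q.2

/-! ### Convex integration for two fields -/

/-- States `((E₁, E₂), (J₁, J₂))`. -/
abbrev St := (E × E) × (E × E)

def Sym (X : St) : Prop := ⟪X.2.1, X.1.2⟫ = ⟪X.2.2, X.1.1⟫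

def Rk (X : St) : Prop := cr X.1.1 X.1.2 ≠ 0

def Ell (κ K : ℝ) (X : St) : Prop := ∀ a b : ℝ,
  κ * ‖a • X.1.1 + b • X.1.2‖ ^ 2 ≤ ⟪a • X.2.1 + b • X.2.2, a • X.1.1 + b • X.1.2⟫ ∧
    ‖a • X.2.1 + b • X.2.2‖ ≤ K * ‖a • X.1.1 + b • X.1.2‖

/-- Two potentials and two currents. -/
structure Fld where
  u₁ : E → ℝ
  u₂ : E → ℝ
  J₁ : E → E
  J₂ : E → E

def Fld.st (F : Fld) (x : E) : St := ((∇ F.u₁ x, ∇ F.u₂ x), (F.J₁ x, F.J₂ x))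

def Fld.Reg (F : Fld) : Prop :=
  LocallyLipschitz F.u₁ ∧ LocallyLipschitz F.u₂ ∧ Measurable F.J₁ ∧ Measurable F.J₂

/-- Near `x` the potentials are `C¹` and the currents have `C¹` Clebsch potentials. -/
def Fld.Loc (F : Fld) (x : E) : Prop :=
  ContDiffAt ℝ 1 F.u₁ x ∧ ContDiffAt ℝ 1 F.u₂ x ∧ ∃ L₁ L₂ : CL, CLC1 L₁ x ∧ CLC1 L₂ x ∧
    F.J₁ =ᶠ[𝓝 x] cl L₁ ∧ F.J₂ =ᶠ[𝓝 x] cl L₂

/-- The state after composing with `id + ψ ξ` and adding `p`-currents, where `∇ ψ = g`. -/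
def step (X : St) (ξ : E) (p : ℝ × ℝ × ℝ) (g : E) : St :=
  ((X.1.1 + ⟪X.1.1, ξ⟫ • g, X.1.2 + ⟪X.1.2, ξ⟫ • g),
    ((1 + ⟪ξ, g⟫) • X.2.1 - ⟪g, X.2.1⟫ • ξ + p.1 • cr g X.1.2 - p.2.1 • cr g X.1.1,
      (1 + ⟪ξ, g⟫) • X.2.2 - ⟪g, X.2.2⟫ • ξ + p.2.1 • cr g X.1.2 - p.2.2 • cr g X.1.1))

/-- States that split by one lamination of spread `< s` into two states of `T`. -/
def Pre (s : ℝ) (T : Set St) : Set St :=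
  {X | ∃ (ξ : E) (p : ℝ × ℝ × ℝ) (g : E), g ≠ 0 ∧ step X ξ p g ∈ T ∧ step X ξ p (-g) ∈ T ∧
    ‖step X ξ p g - X‖ < s ∧ ‖step X ξ p (-g) - X‖ < s}

/-- A thin double cone. -/
def rh (g : E) (δ : ℝ) (c : E) (r : ℝ) : Set E := {y | |⟪g, y - c⟫| + δ * ‖y - c‖ ≤ r}

def Inv (Ω : Set E) (F : Fld) (T : Set St) : Prop :=
  ∀ᵐ x : E, x ∈ Ω → F.Loc x ∧ Sym (F.st x) ∧ F.st x ∈ T

/-- `F'` is a modification of `F` inside `Ω` of size `s` with the same Cauchy data. -/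
structure Next (Ω : Set E) (s : ℝ) (F F' : Fld) : Prop where
  reg : F'.Reg
  lip₁ : ∀ x y, |(F'.u₁ x - F.u₁ x) - (F'.u₁ y - F.u₁ y)| ≤ s * dist x y
  lip₂ : ∀ x y, |(F'.u₂ x - F.u₂ x) - (F'.u₂ y - F.u₂ y)| ≤ s * dist x y
  out : ∀ x, x ∉ Ω → F'.u₁ x = F.u₁ x ∧ F'.u₂ x = F.u₂ x
  cur : ∀ᵐ x : E, x ∈ Ω → ‖F'.J₁ x - F.J₁ x‖ ≤ s ∧ ‖F'.J₂ x - F.J₂ x‖ ≤ s
  wk : ∀ f : E → ℝ, LocallyLipschitz f →
    ∫ x in Ω, ⟪F'.J₁ x - F.J₁ x, ∇ f x⟫ = 0 ∧ ∫ x in Ω, ⟪F'.J₂ x - F.J₂ x, ∇ f x⟫ = 0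

/-- Nearly isotropic states. -/
def Tset (L α β d : ℝ) : Set St :=
  {X | Rk X ∧ ‖X.1.1‖ < L ∧ ‖X.1.2‖ < L ∧ ∃ γ : ℝ, α < γ ∧ γ < β ∧ ∀ a b : ℝ, (a ≠ 0 ∨ b ≠ 0) →
    ‖a • (X.2.1 - γ • X.1.1) + b • (X.2.2 - γ • X.1.2)‖ < d * ‖a • X.1.1 + b • X.1.2‖}

/-- `J_a = σ E_a` for the symmetric matrix with eigenbasis `b` and eigenvalues `μ`. -/
def Diag (b : OrthonormalBasis (Fin 3) ℝ E) (μ : Fin 3 → ℝ) (X : St) : Prop :=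
  X.2.1 = ∑ i, (μ i * ⟪b i, X.1.1⟫) • b i ∧ X.2.2 = ∑ i, (μ i * ⟪b i, X.1.2⟫) • b i

/-! ### The cascade -/

def As (s : ℝ) : ℝ := s ^ 3 * (134 - 216 * s + 90 * s ^ 2)
def As1 (s : ℝ) : ℝ := 402 * s ^ 2 - 864 * s ^ 3 + 450 * s ^ 4
def As2 (s : ℝ) : ℝ := 804 * s - 2592 * s ^ 2 + 1800 * s ^ 3
/-- The amplitude profile: `0` for `w ≤ 1`, `(w-1)³` on `[1,3]`, `As (4-w)` on `[3,4]`, then `0`. -/
def AA (w : ℝ) : ℝ := clp 0 2 (w - 1) ^ 3 + As (clp 0 1 (4 - w)) - 8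
def AA1 (w : ℝ) : ℝ := 3 * clp 0 2 (w - 1) ^ 2 - As1 (clp 0 1 (4 - w)) - 12
def AA2 (w : ℝ) : ℝ := 6 * clp 0 2 (w - 1) + As2 (clp 0 1 (4 - w)) - 12
def es (w : ℝ) : ℝ := As2 (clp 0 1 (4 - w)) - 12 * clp 0 1 (4 - w) ^ 3
def ee (δ w : ℝ) : ℝ := 6 * clp 0 δ (w - 1) - 6 * clp 0 δ (w - 1) ^ 3 / δ ^ 2

/-- `sin (n π Z) / (n π)`. -/
def sn (n Z : ℝ) : ℝ := Real.sin (n * Real.pi * Z) / (n * Real.pi)
def cs (n Z : ℝ) : ℝ := Real.cos (n * Real.pi * Z)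

def TD (Z w : ℝ) : ℝ := AA w * cs 1 Z
def TP (Z w : ℝ) : ℝ := -AA1 w * sn 1 Z
def TX (Λ δ Z Z' w : ℝ) : ℝ := ee δ w * sn 1 Z * sn 4 Z' - 4 * Λ * es (2 * w) * sn 2 Z' * sn 2 Z

/-- Model points `(ξ, Y, τ, f, F)`. -/
abbrev W5 := ℝ × ℝ × ℝ × ℝ × ℝ

/-- The variable of the `k`-th mode. -/
def zk (k : ℕ) (q : W5) : ℝ := if Even k then q.1 else q.2.1
/-- `2 - τ`. -/
def om (q : W5) : ℝ := 2 - q.2.2.1

def tD (Λ : ℝ) (k : ℕ) (q : W5) : ℝ := Λ ^ k * TD (2 ^ k * zk k q) (2 ^ k * om q)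
def tP (Λ : ℝ) (k : ℕ) (q : W5) : ℝ := Λ ^ k * TP (2 ^ k * zk k q) (2 ^ k * om q)
def tX (Λ δ : ℝ) (k : ℕ) (q : W5) : ℝ :=
  (-Λ) ^ k * TX Λ δ (2 ^ k * zk k q) (2 ^ k * zk (k + 1) q) (2 ^ k * om q)

def cD (Λ : ℝ) (q : W5) : ℝ := AA (om q) * q.2.2.2.1 + ∑' k, tD Λ (k + 1) q
def cP1 (Λ : ℝ) (q : W5) : ℝ :=
  -AA1 (om q) * q.2.2.2.2 + ∑' k, if Even (k + 1) then tP Λ (k + 1) q else 0
def cP2 (Λ : ℝ) (q : W5) : ℝ := ∑' k, if Even (k + 1) then 0 else tP Λ (k + 1) q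
def cX (Λ δ : ℝ) (q : W5) : ℝ :=
  ee δ (om q) * q.2.2.2.2 * sn 4 q.2.1 + 4 * Λ * es (2 * om q) * sn 2 q.2.1 * sn 1 q.1 +
    ∑' k, tX Λ δ (k + 1) q

/-- Profile of the first mode: `f' = f₁`, `F' = f` in the variable `ξ`. -/
def Prof (K ξ f F f₁ : ℝ) : Prop :=
  |f| ≤ K ∧ |F| ≤ K * (1 - |ξ|) ∧ 1 - |ξ| ≤ K * |F| ∧ ∃ k, 1 / K ≤ k ∧ k ≤ K ∧ f₁ = -k * F

/-- Components of the gradient (`d`) and of the current (`j`, `d₃`) of the active field. -/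
def Num (κ K ξ Y d₁ d₂ d₃ j₁ j₂ : ℝ) : Prop :=
  κ * (d₁ ^ 2 + d₂ ^ 2) ≤ j₁ * d₁ + j₂ * d₂ ∧ j₁ ^ 2 + j₂ ^ 2 ≤ K ^ 2 * (d₁ ^ 2 + d₂ ^ 2) ∧
    (d₁ ≠ 0 ∨ d₂ ≠ 0) ∧ |j₁| ≤ K * (1 - |ξ|) ∧ |j₂| ≤ K * (1 - |Y|) ∧ |d₃| ≤ K

/-- The Clebsch potentials of the cascade. -/
def cL (P1 P2 X : W5 → ℝ) (w : E → W5) : CL :=
  [(fun p => P1 (w p), fun p => (w p).2.1), (fun p => (w p).1, fun p => P2 (w p)),
    (fun p => X (w p), fun p => (w p).2.2.1)]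

/-- The pointwise property of the cascade. -/
def CJet (K κ K' : ℝ) (N : Set ℝ) (D P1 P2 X : W5 → ℝ) : Prop :=
  ∀ (ξ Y τ f F : E → ℝ) (p a b c : E) (f₁ : ℝ), Jet ξ p a → Jet Y p b → Jet τ p c →
    ξ p ∉ N → Y p ∉ N → τ p ∉ N → |ξ p| < 1 → |Y p| < 1 → -1 < τ p → τ p < 2 →
    (τ p < 1 → Jet f p (f₁ • a) ∧ Jet F p (f p • a) ∧ Prof K (ξ p) (f p) (F p) f₁) →
    ∃ d₁ d₂ d₃ j₁ j₂ : ℝ,
      Jet (fun y => D (ξ y, Y y, τ y, f y, F y)) p (d₁ • a + d₂ • b + d₃ • c) ∧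
      CLC1 (cL P1 P2 X fun y => (ξ y, Y y, τ y, f y, F y)) p ∧
      cl (cL P1 P2 X fun y => (ξ y, Y y, τ y, f y, F y)) p =
        j₁ • cr b c + j₂ • cr c a + d₃ • cr a b ∧
      Num κ K' (ξ p) (Y p) d₁ d₂ d₃ j₁ j₂

/-- The data of a cascade. -/
structure Casc (K : ℝ) where
  D : W5 → ℝ
  P1 : W5 → ℝ
  P2 : W5 → ℝ
  X : W5 → ℝ
  κ : ℝ
  K' : ℝ
  N : Set ℝ
  hκ : 0 < κ
  hκ1 : κ ≤ 1 / 10
  hK' : 10 ≤ K'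
  hN : N.Countable
  hN1 : (1 : ℝ) ∈ N
  llD : LocallyLipschitz D
  llP1 : LocallyLipschitz P1
  llP2 : LocallyLipschitz P2
  llX : LocallyLipschitz X
  top : ∀ ξ Y τ f F : ℝ, 2 ≤ τ → D (ξ, Y, τ, f, F) = 0 ∧ P1 (ξ, Y, τ, f, F) = 0 ∧
    P2 (ξ, Y, τ, f, F) = 0 ∧ X (ξ, Y, τ, f, F) = 0
  bot : ∀ ξ Y τ f F : ℝ, τ ≤ 0 → P2 (ξ, Y, τ, f, F) = 0 ∧ X (ξ, Y, τ, f, F) = 0 ∧
    (-1 ≤ τ → D (ξ, Y, τ, f, F) = (1 - τ) ^ 3 * f ∧ P1 (ξ, Y, τ, f, F) = -3 * (1 - τ) ^ 2 * F)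
  jet : CJet K κ K' N D P1 P2 X

/-! ### Geometry of the cell -/

def xp (p : E) : ℝ := |p 0|
def vv (p : E) : ℝ := |p 1| + |p 2|
def ze (p : E) : ℝ := max |p 2| (max (vv p - 32 - |xp p - 50|) (15 * (vv p - 80) - xp p))
def hh (p : E) : ℝ := clp 80 90 (min (32 + |xp p - 50| + ze p) (80 + (xp p + ze p) / 15))
def YY (p : E) : ℝ := p 1 / hh p
def rho (p : E) : ℝ := |xp p - 50| + ze p
def pl (p : E) : ℝ := max (xp p - 50) 0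
def sx (p : E) : ℝ := clp (-1) 1 (p 0)

/-- The cell. -/
def PP : Set E := {p | |p 0| + |p 2| ≤ 150 ∧ |p 1| + |p 2| ≤ 90}
/-- The children, `s = ± 1`. -/
def CC (s : ℝ) : Set E := {p | |p 0 - 50 * s| + |p 2| ≤ 48 ∧ |p 1| + |p 2| ≤ 80}
/-- The region between the ports. -/
def RR : Set E := {p | xp p + ze p < 150 ∧ 48 < rho p}
/-- The similarity of `PP` onto `CC s`. -/
def SS (s : ℝ) (p : E) : E := !₂[50 * s + 8 / 15 * p 1, 8 / 15 * p 0, 8 / 15 * p 2]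
def SI (s : ℝ) (p : E) : E := !₂[15 / 8 * p 1, 15 / 8 * (p 0 - 50 * s), 15 / 8 * p 2]

def xiA (p : E) : ℝ := -(xp p - 50) / clp 48 49 (rho p)
def tauA (p : E) : ℝ := 2 * (49 - clp 48 49 (rho p))
def fA (p : E) : ℝ := -3 * xiA p * (2 - |xiA p|)
def FA (p : E) : ℝ := 2 - 3 * xiA p ^ 2 + |xiA p| ^ 3
def wA (p : E) : W5 := (xiA p, YY p, tauA p, fA p, FA p)

def vB (p : E) : ℝ := ze p / 49
def sB (p : E) : ℝ := p 0 / (1 + ze p)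
def PhB (p : E) : ℝ := -15 / 2 + 9 / 2 * vB p ^ 2 - 3 / 2 * (1 + vB p ^ 2) * sB p ^ 2
def XB (p : E) : ℝ := (3 * vB p + vB p ^ 3) * sB p

def zt (p : E) : ℝ := min (ze p) (150 - xp p)
def sC (p : E) : ℝ := clp (-1) 1 (p 0 / 50)
def rC (p : E) : ℝ := zt p / max (pl p + zt p) 49
def t1 (p : E) : ℝ := -(1 + sC p ^ 2 * rC p ^ 2) / 8
def thC (p : E) : ℝ := clp 0 1 ((ze p + pl p - 49) / (101 - min (xp p) 50))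
def tauC (p : E) : ℝ := t1 p + thC p * (2 - t1 p)
def XC (p : E) : ℝ := sC p * (12 - 8 * rC p - (1 - clp 0 1 (tauC p - 1)) * (rC p - rC p ^ 3))
def xiC (p : E) : ℝ := XC p / 12
def fC (p : E) : ℝ := sC p / (1 - t1 p) ^ 3
def FC (p : E) : ℝ := -2 * rC p / (3 * (1 - t1 p) ^ 2)
def wC (p : E) : W5 := (xiC p, YY p, tauC p, fC p, FC p)

/-- Gluing of the three regions. -/
def glue3 (a b c : E → ℝ) (p : E) : ℝ :=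
  if rho p ≤ 49 then a p else if ze p + pl p ≤ 49 then b p else c p

section
variable (C : Casc 1000)

def gPh : E → ℝ := glue3 (fun p => -6 * (1 + 3 * tauA p) + C.D (wA p)) PhB fun p => 24 * tauC p
def gD : E → ℝ := glue3 (fun p => sx p * (1 + 3 * tauA p)) sB fun p => C.D (wC p)
def gX : E → ℝ := glue3 (fun p => sx p * (6 * (1 - xiA p) + C.P1 (wA p) / 3)) XB XC
def gPs : E → ℝ := glue3 (fun p => 1 + xiA p) (fun p => 2 - vB p) fun p => C.P1 (wC p) / 2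
def gL1 : CL := [(gX C, YY), (xiA, fun p => sx p * C.P2 (wA p) / 3),
  (fun p => sx p * C.X (wA p) / 3, tauA)]
def gL2 : CL := [(gPs C, YY), (xiC, fun p => C.P2 (wC p) / 2), (fun p => C.X (wC p) / 2, tauC)]
/-- The anisotropic fields of the cell. -/
def gF : Fld := ⟨gPh C, gD C, fun p => sg (p 2) • cl (gL1 C) p, fun p => sg (p 2) • cl (gL2 C) p⟩
end

/-- Local properties of the unfolding `(x, y, z) ↦ (x, ze, YY)`. -/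
structure Zip (p z b : E) : Prop where
  jz : Jet ze p z
  jY : Jet YY p b
  nz : ‖z‖ ≤ 100
  nb : ‖b‖ ≤ 100
  det : 1 / 90 ≤ sg (p 2) * ⟪cr ex b, z⟫
  pos : 0 < ze p
  ylt : |YY p| < 1
  x0 : p 0 ≠ 0
  z0 : p 2 ≠ 0
  gen : ∀ a b d : ℤ, (a ≠ 0 ∨ b ≠ 0) → (a : ℝ) * xp p + b * ze p ≠ d
  wall : ∀ (J : E) (K : ℝ), ‖J‖ ≤ K → |⟪J, z⟫| ≤ K * ze p → |⟪J, b⟫| ≤ K * (1 - |YY p|) →
    |⟪J, ez⟫| ≤ 100 * K * |p 2|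

/-- A chart `(ξ, τ)` of the `(x, ze)`-plane with orientation `o`. -/
structure Chart (p z : E) (ξ τ : E → ℝ) (o ξx ξz τx τz : ℝ) : Prop where
  jξ : Jet ξ p (ξx • ex + ξz • z)
  jτ : Jet τ p (τx • ex + τz • z)
  ho : o = 1 ∨ o = -1
  bd : |ξx| ≤ 10 ∧ |ξz| ≤ 10 ∧ |τx| ≤ 10 ∧ |τz| ≤ 10
  jac : 1 / 10 ^ 5 ≤ o * (ξx * τz - ξz * τx)
  wx : |ξx| ≤ ze p
  wξ : 1 - |ξ p| ≤ ze p
  lt : |ξ p| < 1

/-- The local normal form of the fields `Φ, D` with currents `cl L₁`, `cl L₂`. -/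
def LocForm (κ K : ℝ) (Φ D : E → ℝ) (L₁ L₂ : CL) (p z b : E) : Prop :=
  ∃ (ξ τ A : E → ℝ) (L : CL) (o ν ξx ξz τx τz d₁ d₂ d₃ j₁ j₂ m₁ m₂ m₃ m₄ k₁ k₂ : ℝ),
    Chart p z ξ τ o ξx ξz τx τz ∧
    Jet A p (d₁ • (ξx • ex + ξz • z) + d₂ • b + d₃ • (τx • ex + τz • z)) ∧ CLC1 L p ∧
    cl L p = j₁ • cr b (τx • ex + τz • z) + j₂ • cr (τx • ex + τz • z) (ξx • ex + ξz • z) +
      d₃ • cr (ξx • ex + ξz • z) b ∧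
    Num κ K (ξ p) (YY p) d₁ d₂ d₃ j₁ j₂ ∧ 1 / 3 ≤ ν ∧ ν ≤ 1 ∧ m₁ * m₄ - m₂ * m₃ ≠ 0 ∧
    |m₁| ≤ 24 ∧ |m₂| ≤ 24 ∧ |m₃| ≤ 24 ∧ |m₄| ≤ 24 ∧
    (∀ᶠ y in 𝓝 p, Φ y = m₁ * τ y + m₂ * A y + k₁) ∧ (∀ᶠ y in 𝓝 p, D y = m₃ * τ y + m₄ * A y + k₂) ∧
    (∀ᶠ y in 𝓝 p, cl L₁ y = (o * ν) • (m₁ • cr (∇ ξ y) (∇ YY y) + m₂ • cl L y)) ∧
    ∀ᶠ y in 𝓝 p, cl L₂ y = (o * ν) • (m₃ • cr (∇ ξ y) (∇ YY y) + m₄ • cl L y)

/-- `φ p` avoids `N` unless `p` is a singular point of `φ`. -/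
def Gen (N : Set ℝ) (φ : E → ℝ) (p : E) : Prop := DifferentiableAt ℝ φ p → ∇ φ p ≠ 0 → φ p ∉ N

/-- The port measure: it represents the flux of `sgn z · e_z` through the boundary of `PP`. -/
structure IsPort (σ : Measure E) : Prop where
  fin : IsFiniteMeasure σ
  ne : σ ≠ 0
  supp : ∀ᵐ p ∂σ, p ∈ PP ∧ p ∈ closure PPᶜ
  lim : ∀ f : E → ℝ, LocallyLipschitz f →
    Tendsto (fun n : ℕ => ∫ p in PP, ⟪ez, ∇ (fun y => f y * clp (-1) 1 (n * y 2)) p⟫) atTop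
      (𝓝 (∫ p, f p ∂σ))

/-- The isotropic cell. -/
structure Gadget where
  γ : E → ℝ
  Φ : E → ℝ
  D : E → ℝ
  σ : Measure E
  c : ℝ
  C : ℝ
  κ : ℝ
  κ' : ℝ
  hc : 0 < c
  hc1 : c ≤ 1
  hC1 : 1 ≤ C
  hκ : 0 < κ
  hκ' : 0 < κ'
  meas : Measurable γ
  bd : ∀ p, c ≤ γ p ∧ γ p ≤ C
  llΦ : LocallyLipschitz Φ
  llD : LocallyLipschitz D
  prob : IsProbabilityMeasure σ
  supp : ∀ᵐ p ∂σ, p ∈ PP ∧ Φ p = 0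
  out : ∀ p, p ∉ PP → Φ p = 0 ∧ D p = 0
  inn : ∀ s, s = 1 ∨ s = -1 → ∀ p ∈ CC s, Φ p = 90 ∧ D p = 7 * s
  ne : ∃ p ∈ RR, D p ≠ 0
  grad : ∀ᵐ p : E, p ∉ RR → ∇ Φ p = 0 ∧ ∇ D p = 0
  wk : ∀ f : E → ℝ, LocallyLipschitz f →
    ∫ p in RR, γ p * ⟪∇ Φ p, ∇ f p⟫ =
      κ * ((∫ p, f (SS 1 p) ∂σ + ∫ p, f (SS (-1) p) ∂σ) / 2 - ∫ p, f p ∂σ) ∧
    ∫ p in RR, γ p * ⟪∇ D p, ∇ f p⟫ = κ' * (∫ p, f (SS 1 p) ∂σ - ∫ p, f (SS (-1) p) ∂σ)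

/-! ### The final argument -/

/-- Energy on the ball of radius `R`. -/
def En (R : ℝ) (γ u : E → ℝ) : ℝ := ∫ x in Metric.ball (0 : E) R, γ x * ‖∇ u x‖ ^ 2

def Comp (R : ℝ) (φ u : E → ℝ) : Prop := ContDiff ℝ 1 u ∧ ∀ x : E, ‖x‖ = R → u x = φ x

def SBE (R : ℝ) (γ₀ γ₁ : E → ℝ) : Prop :=
  ∀ φ : E → ℝ, ContDiff ℝ 1 φ →
    (∀ u, Comp R φ u → ∀ ε : ℝ, 0 < ε → ∃ w, Comp R φ w ∧ En R γ₁ w < En R γ₀ u + ε) ∧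
    (∀ u, Comp R φ u → ∀ ε : ℝ, 0 < ε → ∃ w, Comp R φ w ∧ En R γ₀ w < En R γ₁ u + ε)

/-- The average of the integrals of `f` against the measures `σ i`. -/
def av {n : ℕ} (σ : Fin n → Measure E) (f : E → ℝ) : ℝ := (∑ i, ∫ p, f p ∂σ i) / n

/-- A family of small port measures whose differences have compactly supported potentials. -/
structure Level (γ : E → ℝ) (r M η : ℝ) {n : ℕ} (σ : Fin n → Measure E) : Prop where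
  pos : 0 < n
  prob : ∀ i, IsProbabilityMeasure (σ i)
  small : ∀ i, ∃ x : E, ∀ᵐ p ∂σ i, ‖p‖ ≤ r ∧ dist p x ≤ η
  inv : ∀ i, ∃ W : E → ℝ, LocallyLipschitz W ∧ (∀ p, r < ‖p‖ → W p = 0) ∧
    ∀ f : E → ℝ, LocallyLipschitz f → ∫ p, γ p * ⟪∇ W p, ∇ f p⟫ = ∫ p, f p ∂σ i - av σ f
  trace : ∀ g : E → ℝ, LocallyLipschitz g →
    av σ (fun p => g p ^ 2) ≤ M * ∫ p in Metric.closedBall (0 : E) r, (‖∇ g p‖ ^ 2 + g p ^ 2)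

/-- The data for the final argument. -/
def FData (γ c : E → ℝ) (r : ℝ) : Prop :=
  ∃ M : ℝ, 0 < M ∧ ∀ η : ℝ, 0 < η → ∃ (n : ℕ) (σ : Fin n → Measure E) (c' : E → ℝ) (s : Fin n → ℝ),
    Level γ r M η σ ∧ LocallyLipschitz c' ∧ (∀ p, |c' p - c p| ≤ η) ∧ (∀ p, r < ‖p‖ → c' p = 1) ∧
    (∀ i, |s i| ≤ M) ∧ ∀ f : E → ℝ, LocallyLipschitz f →
      ∫ p, γ p * ⟪∇ c' p, ∇ f p⟫ = (∑ i, s i * ∫ p, f p ∂σ i) / n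

end

end Crest.Agent.R083
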