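import Crest.Agent.R083.NL

/-! Row 83: approximation by `C¹` competitors, Poincaré inequality. -/

set_option autoImplicit false

namespace Crest.Agent.R083

open MeasureTheory Filter Topology Set
open scoped Gradient RealInnerProductSpace

/-- `W` is Lipschitz (`LL.ext` and compact support); mollify (`moll`), dominated convergence. -/
theorem approx {R r C : ℝ} (hr : r < R) {γ u W : E → ℝ} (hm : Measurable γ)
    (hb : ∀ p, |γ p| ≤ C) (hu : ContDiff ℝ 1 u) (hW : LocallyLipschitz W)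
    (h0 : ∀ p, r < ‖p‖ → W p = 0) {ε : ℝ} (hε : 0 < ε) :
    ∃ V : E → ℝ, ContDiff ℝ 1 V ∧ (∀ p, ‖p‖ = R → V p = 0) ∧
      En R γ (fun p => u p + V p) < En R γ (fun p => u p + W p) + ε := by
  obtain ⟨K, g, hg, e⟩ := LL.ext hW (R + 1)
  obtain ⟨V, hV, hVb, hVl, hV0⟩ := moll hg
  obtain ⟨Ku, hKu, hub⟩ := LL.grad_bdd hu.locallyLipschitz R
  have hV1 : ∀ n, ContDiff ℝ 1 (V n) := fun n => (hV n).of_le (by norm_num)
  have hud : Differentiable ℝ u := hu.differentiable one_ne_zero
  have hgr : ∀ n x, ∇ (fun p => u p + V n p) x = ∇ u x + ∇ (V n) x := fun n x =>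
    grad_add (hud x) ((hV1 n).differentiable one_ne_zero x)
  have : IsFiniteMeasure (volume.restrict (Metric.ball (0 : E) R)) :=
    isFiniteMeasure_restrict.2 measure_ball_lt_top.ne
  have hlim : Tendsto (fun n => En R γ (fun p => u p + V n p)) atTop
      (𝓝 (En R γ (fun p => u p + W p))) := by
    refine tendsto_integral_of_dominated_convergence (fun _ => C * (Ku + K) ^ 2)
      (fun n => (hm.mul ((measurable_grad _).norm.pow_const 2)).aestronglyMeasurable)
      (integrable_const _) (fun n => ?_) ?_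
    · refine (ae_restrict_iff' Metric.isOpen_ball.measurableSet).2 (.of_forall fun x hx => ?_)
      have h1 : ‖∇ (fun p => u p + V n p) x‖ ≤ Ku + K := by
        rw [hgr]
        exact (norm_add_le _ _).trans (add_le_add (hub x (mem_ball_zero_iff.1 hx).le) (hVb n x))
      rw [Real.norm_eq_abs, abs_mul, abs_of_nonneg (sq_nonneg ‖∇ (fun p => u p + V n p) x‖)]
      exact mul_le_mul (hb x) (pow_le_pow_left₀ (norm_nonneg _) h1 2) (sq_nonneg _)
        ((abs_nonneg _).trans (hb x))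
    · refine (ae_restrict_iff' Metric.isOpen_ball.measurableSet).2 ?_
      filter_upwards [hVl, LL.ae_diff hW] with x h1 h2 hx
      have h3 : g =ᶠ[𝓝 x] W := by
        filter_upwards [Metric.isOpen_ball.mem_nhds hx] with y hy
        exact e y (mem_closedBall_zero_iff.2 (by linarith [mem_ball_zero_iff.1 hy]))
      rw [grad_add (hud x) h2, ← h3.gradient_eq]
      simp only [hgr]
      exact (((tendsto_const_nhds.add h1).norm).pow 2).const_mul _
  have h1 := hlim.eventually (gt_mem_nhds (lt_add_of_pos_right _ hε))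
  have h2 := tendsto_one_div_add_atTop_nhds_zero_nat (𝕜 := ℝ) |>.eventually
    (gt_mem_nhds (sub_pos.2 hr))
  obtain ⟨n, hn1, hn2⟩ := (h1.and h2).exists
  refine ⟨V n, hV1 n, fun p hp => hV0 n p fun y hy => ?_, hn1⟩
  have h3 : 1 / ((n : ℝ) + 1) ≤ 1 := (div_le_one (by positivity)).2 (by linarith [n.cast_nonneg (α := ℝ)])
  rw [dist_eq_norm] at hy
  have h4 := abs_le.1 ((abs_norm_sub_norm_le y p).trans hy)
  rw [e y (mem_closedBall_zero_iff.2 (by linarith [h4.2]))]
  exact h0 y (by linarith [h4.1])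

theorem fapprox_ll {R : ℝ} (hR : 0 < R) {g : E → ℝ} (hg : LocallyLipschitz g) :
    LocallyLipschitz fun p : E => g ((R / max R ‖p‖) • p) := by
  have h1 : LocallyLipschitz fun q : ℝ × E => q.1 • q.2 :=
    ContDiff.locallyLipschitz (𝕂 := ℝ) (contDiff_fst.smul contDiff_snd)
  have h2 : LocallyLipschitz fun p : E => ‖p‖ := lipschitzWith_one_norm.locallyLipschitz
  have h3 : LocallyLipschitz fun p : E => R / max R ‖p‖ :=
    LL.div (LL.const R) (LL.max (LL.const R) h2) fun p => (hR.trans_le (le_max_left _ _)).ne'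
  have h4 := hg.comp (h1.comp (h3.prodMk LocallyLipschitz.id))
  simpa only [Function.comp_def, id] using h4

/-- Extend `g` by zero (`ll_of_cover` is available in `GlueLip`, or argue directly) and use
`int_dir ex` for `x g²`: `∫ g² = -2 ∫ x g ∂ₓ g ≤ ½ ∫ g² + 2 R² ∫ ‖∇ g‖²`. -/
theorem poincare {R : ℝ} (hR : 0 < R) {g : E → ℝ} (hg : LocallyLipschitz g)
    (h0 : ∀ p, ‖p‖ = R → g p = 0) :
    ∫ p in Metric.ball (0 : E) R, g p ^ 2 ≤ 4 * R ^ 2 * ∫ p in Metric.ball (0 : E) R, ‖∇ g p‖ ^ 2 := by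
  have hgπ : LocallyLipschitz fun p : E => g ((R / max R ‖p‖) • p) := fapprox_ll hR hg
  set G : E → ℝ := fun p => p 0 * (g ((R / max R ‖p‖) • p) * g ((R / max R ‖p‖) • p)) with hG
  have hGl : LocallyLipschitz G := LL.mul (LL.coord 0) (LL.mul hgπ hgπ)
  have hout : ∀ p : E, R ≤ ‖p‖ → G p = 0 := fun p hp => by
    have h1 : 0 < ‖p‖ := hR.trans_le hp
    have : g ((R / max R ‖p‖) • p) = 0 := h0 _ (by
      rw [max_eq_right hp, norm_smul, Real.norm_eq_abs, abs_of_pos (div_pos hR h1)]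
      field_simp)
    simp only [hG, this, mul_zero]
  have hin : ∀ p : E, ‖p‖ < R → G p = p 0 * (g p * g p) := fun p hp => by
    simp only [hG, max_eq_left hp.le, div_self hR.ne', one_smul]
  have hc : HasCompactSupport G :=
    HasCompactSupport.intro (isCompact_closedBall (0 : E) R) fun p hp =>
      hout p (not_le.1 fun h => hp (mem_closedBall_zero_iff.2 h)).le
  have hB : MeasurableSet (Metric.ball (0 : E) R) := Metric.isOpen_ball.measurableSet
  have hI : ∫ p in Metric.ball (0 : E) R, ⟪ex, ∇ G p⟫ = 0 := by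
    rw [setIntegral_eq_integral_of_ae_compl_eq_zero, int_dir ex hGl hc]
    have hs : ∀ᵐ p : E, p ∉ Metric.sphere (0 : E) R :=
      compl_mem_ae_iff.2 (Measure.addHaar_sphere volume (0 : E) R)
    filter_upwards [hs] with p hp hp'
    have h1 : R < ‖p‖ := lt_of_le_of_ne (not_lt.1 fun h => hp' (mem_ball_zero_iff.2 h))
      fun h => hp (mem_sphere_zero_iff_norm.2 h.symm)
    rw [grad_of_eventually_const (c := 0), inner_zero_right]
    filter_upwards [continuousAt_const.eventually_lt continuous_norm.continuousAt h1] with y hy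
    exact hout y hy.le
  obtain ⟨K1, -, b1⟩ := LL.grad_bdd hGl R
  obtain ⟨K2, -, b2⟩ := LL.grad_bdd hg R
  obtain ⟨K3, -, b3⟩ := LL.bdd hg R
  have i1 : IntegrableOn (fun p => ⟪ex, ∇ G p⟫) (Metric.ball (0 : E) R) :=
    integrableOn_of_bdd Metric.isBounded_ball hB (measurable_const.inner (measurable_grad G))
      (K := K1) (.of_forall fun p hp => (abs_real_inner_le_norm _ _).trans (by
        rw [norm_ex, one_mul]; exact b1 p (mem_ball_zero_iff.1 hp).le))
  have i2 : IntegrableOn (fun p => ‖∇ g p‖ ^ 2) (Metric.ball (0 : E) R) :=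
    integrableOn_of_bdd Metric.isBounded_ball hB ((measurable_grad g).norm.pow_const 2)
      (K := K2 ^ 2) (.of_forall fun p hp => by
        rw [abs_of_nonneg (sq_nonneg _)]
        exact pow_le_pow_left₀ (norm_nonneg _) (b2 p (mem_ball_zero_iff.1 hp).le) 2)
  have i3 : IntegrableOn (fun p => g p ^ 2) (Metric.ball (0 : E) R) :=
    integrableOn_of_bdd Metric.isBounded_ball hB (hg.continuous.measurable.pow_const 2)
      (K := K3 ^ 2) (.of_forall fun p hp => by
        rw [abs_pow]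
        exact pow_le_pow_left₀ (abs_nonneg _) (b3 p (mem_ball_zero_iff.1 hp).le) 2)
  have hle : ∫ p in Metric.ball (0 : E) R, g p ^ 2 ≤
      ∫ p in Metric.ball (0 : E) R, (2 * ⟪ex, ∇ G p⟫ + 4 * R ^ 2 * ‖∇ g p‖ ^ 2) := by
    refine integral_mono_ae i3 ((i1.const_mul 2).add (i2.const_mul _)) ((ae_restrict_iff' hB).2 ?_)
    filter_upwards [LL.ae_diff hg] with p hd hp
    have hp' := mem_ball_zero_iff.1 hp
    have h1 : G =ᶠ[𝓝 p] fun y => y 0 * (g y * g y) := by
      filter_upwards [Metric.isOpen_ball.mem_nhds hp] with y hy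
      exact hin y (mem_ball_zero_iff.1 hy)
    have h2 : ∇ G p = p 0 • (g p • ∇ g p + g p • ∇ g p) + (g p * g p) • ex := by
      rw [h1.gradient_eq, grad_mul (Jet.c0 p).diff (hd.fun_mul hd), grad_mul hd hd, (Jet.c0 p).2]
    have h3 : ⟪ex, ∇ G p⟫ = 2 * g p * (p 0 * ∇ g p 0) + g p ^ 2 := by rw [h2]; sc3
    have h4 : |p 0| ≤ R := (PiLp.norm_apply_le p 0).trans hp'.le
    have h5 : |∇ g p 0| ≤ ‖∇ g p‖ := PiLp.norm_apply_le (∇ g p) 0
    have h6 : (p 0 * ∇ g p 0) ^ 2 ≤ R ^ 2 * ‖∇ g p‖ ^ 2 := by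
      rw [← mul_pow, ← sq_abs, abs_mul]
      exact pow_le_pow_left₀ (by positivity) (mul_le_mul h4 h5 (abs_nonneg _) hR.le) 2
    show g p ^ 2 ≤ 2 * ⟪ex, ∇ G p⟫ + 4 * R ^ 2 * ‖∇ g p‖ ^ 2
    rw [h3]
    nlinarith [sq_nonneg (g p + 2 * (p 0 * ∇ g p 0))]
  rwa [integral_add (i1.const_mul 2) (i2.const_mul _), integral_const_mul, integral_const_mul, hI,
    mul_zero, zero_add] at hle

end Crest.Agent.R083
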