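import Crest.Agent.R083.Basic

/-! Row 83: integrability of the energy form. -/

set_option autoImplicit false

namespace Crest.Agent.R083

open MeasureTheory Filter Topology Set
open scoped Gradient RealInnerProductSpace

variable {γ W f : E → ℝ} {C r : ℝ}

theorem integrableOn_form {s : Set E} (hs : Bornology.IsBounded s) (hs' : MeasurableSet s)
    (hm : Measurable γ) (hb : ∀ p, |γ p| ≤ C) (hW : LocallyLipschitz W) (hf : LocallyLipschitz f) :
    IntegrableOn (fun p => γ p * ⟪∇ W p, ∇ f p⟫) s := by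
  obtain ⟨R, hR⟩ := hs.exists_norm_le
  obtain ⟨K₁, hK₁, h1⟩ := LL.grad_bdd hW R
  obtain ⟨K₂, hK₂, h2⟩ := LL.grad_bdd hf R
  refine integrableOn_of_bdd hs hs' (hm.mul ((measurable_grad W).inner (measurable_grad f)))
    (K := C * (K₁ * K₂)) (.of_forall fun p hp => ?_)
  rw [abs_mul]
  exact mul_le_mul (hb p) ((abs_real_inner_le_norm _ _).trans
    (mul_le_mul (h1 p (hR p hp)) (h2 p (hR p hp)) (norm_nonneg _) hK₁)) (abs_nonneg _)
    ((abs_nonneg _).trans (hb p))

theorem grad_out {c : ℝ} (h0 : ∀ p, r < ‖p‖ → W p = c) {p : E} (hp : r < ‖p‖) : ∇ W p = 0 :=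
  grad_of_eventually_const ((continuousAt_const.eventually_lt continuous_norm.continuousAt hp).mono h0)

theorem integrable_form {c : ℝ} (hm : Measurable γ) (hb : ∀ p, |γ p| ≤ C) (hW : LocallyLipschitz W)
    (h0 : ∀ p, r < ‖p‖ → W p = c) (hf : LocallyLipschitz f) :
    Integrable fun p => γ p * ⟪∇ W p, ∇ f p⟫ :=
  (integrableOn_iff_integrable_of_support_subset (s := Metric.closedBall 0 r) fun p hp => by
    by_contra h
    exact hp (by simp [grad_out h0 (show r < ‖p‖ by simpa using h)])).1
    (integrableOn_form Metric.isBounded_closedBall measurableSet_closedBall hm hb hW hf)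

theorem form_eq {c : ℝ} {s : Set E} (h0 : ∀ p, r < ‖p‖ → W p = c)
    (hs : Metric.closedBall 0 r ⊆ s) :
    ∫ p in s, γ p * ⟪∇ W p, ∇ f p⟫ = ∫ p, γ p * ⟪∇ W p, ∇ f p⟫ :=
  setIntegral_eq_integral_of_forall_compl_eq_zero fun p hp => by
    simp [grad_out h0 (show r < ‖p‖ by simpa using fun h => hp (hs h))]

theorem integrableOn_cont {s : Set E} (hs : Bornology.IsBounded s) (hf : Continuous f) :
    IntegrableOn f s :=
  (hf.continuousOn.integrableOn_compact hs.isCompact_closure).mono_set subset_closure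

theorem integrable_of_supp {σ : Measure E} [IsFiniteMeasure σ] (h : ∀ᵐ p ∂σ, ‖p‖ ≤ r)
    (hf : Continuous f) : Integrable f σ := by
  obtain ⟨K, hK⟩ := (isCompact_closedBall (0 : E) r).exists_bound_of_continuousOn hf.continuousOn
  exact .of_bound hf.aestronglyMeasurable K (h.mono fun p hp => hK p (by simpa using hp))

end Crest.Agent.R083
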