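import Crest.Agent.R083.FApprox
import Crest.Agent.R083.Form

/-! Row 83: the energy form. -/

set_option autoImplicit false

namespace Crest.Agent.R083

open MeasureTheory Filter Topology Set
open scoped Gradient RealInnerProductSpace

/-- The bilinear form of the energy. -/
noncomputable def Bf (R : ℝ) (γ u w : E → ℝ) : ℝ :=
  ∫ x in Metric.ball (0 : E) R, γ x * ⟪∇ u x, ∇ w x⟫

variable {R r C : ℝ} {γ γ' u w v ψ c φ : E → ℝ}

theorem En_eq (R : ℝ) (γ u : E → ℝ) : En R γ u = Bf R γ u u := by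
  simp only [En, Bf, real_inner_self_eq_norm_sq]

theorem int_Bf (hm : Measurable γ) (hb : ∀ p, |γ p| ≤ C) (hu : LocallyLipschitz u)
    (hw : LocallyLipschitz w) : IntegrableOn (fun x => γ x * ⟪∇ u x, ∇ w x⟫) (Metric.ball 0 R) :=
  integrableOn_form Metric.isBounded_ball measurableSet_ball hm hb hu hw

theorem int_En (hm : Measurable γ) (hb : ∀ p, |γ p| ≤ C) (hu : LocallyLipschitz u) :
    IntegrableOn (fun x => γ x * ‖∇ u x‖ ^ 2) (Metric.ball 0 R) := by
  simpa only [real_inner_self_eq_norm_sq] using int_Bf hm hb hu hu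

theorem En_nonneg (h : ∀ p, 0 ≤ γ p) : 0 ≤ En R γ u :=
  integral_nonneg fun p => mul_nonneg (h p) (sq_nonneg _)

theorem En_add (hm : Measurable γ) (hb : ∀ p, |γ p| ≤ C) (hu : LocallyLipschitz u)
    (hw : LocallyLipschitz w) (t : ℝ) : En R γ (fun p => u p + t * w p) =
      En R γ w * (t * t) + 2 * Bf R γ u w * t + En R γ u := by
  have i1 := (int_En (R := R) hm hb hw).mul_const (t * t)
  have i2 := ((int_Bf (R := R) hm hb hu hw).const_mul 2).mul_const t
  rw [En, En, En, Bf, ← integral_mul_const, ← integral_const_mul, ← integral_mul_const,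
    ← integral_add i1 i2, ← integral_add (i1.fun_add i2) (int_En hm hb hu)]
  refine integral_congr_ae (ae_restrict_of_ae ?_)
  filter_upwards [LL.ae_diff hu, LL.ae_diff hw] with p h1 h2
  rw [grad_add h1 (h2.const_mul t), grad_const_mul, norm_add_sq_real, real_inner_smul_right,
    norm_smul, mul_pow, Real.norm_eq_abs, sq_abs]
  ring

theorem En_mono {C' t : ℝ} (hm : Measurable γ) (hb : ∀ p, |γ p| ≤ C) (hm' : Measurable γ')
    (hb' : ∀ p, |γ' p| ≤ C') (hu : LocallyLipschitz u) (h : ∀ p, γ p ≤ t * γ' p) :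
    En R γ u ≤ t * En R γ' u := by
  rw [En, En, ← integral_const_mul]
  refine integral_mono (int_En hm hb hu) ((int_En hm' hb' hu).const_mul t) fun p => ?_
  simpa only [mul_assoc] using mul_le_mul_of_nonneg_right (h p) (sq_nonneg ‖∇ u p‖)

theorem Bf_ground (hm : Measurable γ) (hb : ∀ p, |γ p| ≤ C) (hv : LocallyLipschitz v)
    (hψ : LocallyLipschitz ψ) (hc : LocallyLipschitz c) (h0 : ∀ p, c p ≠ 0) :
    Bf R (fun p => c p ^ 2 * γ p) (fun p => v p * (c p)⁻¹) ψ =
      Bf R γ v (fun p => c p * ψ p) - Bf R γ c fun p => v p * ψ p := by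
  rw [Bf, Bf, Bf, ← integral_sub (int_Bf hm hb hv (LL.mul hc hψ)) (int_Bf hm hb hc (LL.mul hv hψ))]
  refine integral_congr_ae (ae_restrict_of_ae ?_)
  filter_upwards [LL.ae_diff hv, LL.ae_diff hψ, LL.ae_diff hc] with p h1 h2 h3
  rw [grad_mul h1 (h3.fun_inv (h0 p)), grad_inv h3 (h0 p), grad_mul h3 h2, grad_mul h1 h2]
  simp only [inner_add_left, inner_add_right, real_inner_smul_left, real_inner_smul_right,
    real_inner_comm (∇ v p) (∇ c p)]
  have := h0 p
  field_simp
  ring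

theorem near_min {m δ : ℝ} (hr : r < R) (hm : Measurable γ) (hb : ∀ p, |γ p| ≤ C)
    (hmin : ∀ w, Comp R φ w → m ≤ En R γ w) (hu : Comp R φ u) (hE : En R γ u ≤ m + δ)
    {ψ₀ W : E → ℝ} (h1 : ContDiff ℝ 1 ψ₀) (h2 : ∀ p, ‖p‖ = R → ψ₀ p = 0) (hW : LocallyLipschitz W)
    (h0 : ∀ p, r < ‖p‖ → W p = 0) (hw : ∀ p, w p = ψ₀ p + W p) :
    Bf R γ u w ^ 2 ≤ δ * En R γ w := by
  obtain rfl : w = fun p => ψ₀ p + W p := funext hw
  have hwl := LL.add h1.locallyLipschitz hW
  have := discrim_le_zero (a := En R γ fun p => ψ₀ p + W p) (b := 2 * Bf R γ u fun p => ψ₀ p + W p)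
    (c := δ) fun t => by
      have e := En_add (R := R) hm hb hu.1.locallyLipschitz hwl t
      have : m ≤ En R γ fun p => u p + t * (ψ₀ p + W p) := le_of_forall_pos_lt_add fun ε hε => by
        have hc : ContDiff ℝ 1 fun p => u p + t * ψ₀ p := hu.1.add (contDiff_const.mul h1)
        obtain ⟨V, hV, hV0, hlt⟩ := approx hr hm hb hc (LL.mul (LL.const t) hW)
          (fun p hp => by simp only [h0 p hp, mul_zero]) hε
        refine (hmin _ ⟨hc.add hV, fun p hp => ?_⟩).trans_lt (hlt.trans_eq ?_)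
        · simp only [hV0 p hp, h2 p hp, hu.2 p hp, mul_zero, add_zero]
        · simp only [mul_add, add_assoc]
      linarith
  rw [discrim] at this
  linarith

variable {M η : ℝ} {n : ℕ} {σ : Fin n → Measure E}

theorem Level.int (h : Level γ r M η σ) (i : Fin n) {f : E → ℝ} (hf : Continuous f) :
    Integrable f (σ i) := by
  have := h.prob i
  obtain ⟨x, hx⟩ := h.small i
  exact integrable_of_supp (hx.mono fun p hp => hp.1) hf

theorem av_nonneg (g : E → ℝ) : 0 ≤ av σ fun p => g p ^ 2 :=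
  div_nonneg (Finset.sum_nonneg fun _ _ => integral_nonneg fun _ => sq_nonneg _) (Nat.cast_nonneg _)

theorem Level.src (h : Level γ r M η σ) {s : Fin n → ℝ} (hs : ∀ i, |s i| ≤ M) {f g g' : E → ℝ}
    (hg : Continuous g) (hg' : Continuous g') {a b : ℝ}
    (hf : ∀ p, |f p| ≤ a * g p ^ 2 + b * g' p ^ 2) : |(∑ i, s i * ∫ p, f p ∂σ i) / n| ≤
      M * (a * av σ (fun p => g p ^ 2) + b * av σ fun p => g' p ^ 2) := by
  rw [abs_div, Nat.abs_cast, av, av, ← mul_div_assoc, ← mul_div_assoc, ← add_div, ← mul_div_assoc,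
    Finset.mul_sum, Finset.mul_sum, ← Finset.sum_add_distrib, Finset.mul_sum]
  refine div_le_div_of_nonneg_right ((Finset.abs_sum_le_sum_abs _ _).trans
    (Finset.sum_le_sum fun i _ => ?_)) (Nat.cast_nonneg _)
  have i1 := (h.int i (hg.fun_pow 2)).const_mul a
  have i2 := (h.int i (hg'.fun_pow 2)).const_mul b
  rw [abs_mul, ← integral_const_mul, ← integral_const_mul, ← integral_add i1 i2]
  exact mul_le_mul (hs i) (norm_integral_le_of_norm_le (f := f) (i1.fun_add i2) (.of_forall hf)) (abs_nonneg _)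
    ((abs_nonneg _).trans (hs i))

theorem Level.tr {c₁ : ℝ} (h : Level γ r M η σ) (hM : 0 ≤ M) (hr0 : 0 < r) (hr : r < R)
    (hc₁ : 0 < c₁) (hm : Measurable γ') (hb : ∀ p, |γ' p| ≤ C) (hb' : ∀ p, c₁ ≤ γ' p) {g : E → ℝ}
    (hg : LocallyLipschitz g) (h0 : ∀ p, ‖p‖ = R → g p = 0) :
    av σ (fun p => g p ^ 2) ≤ M * (1 + 4 * R ^ 2) * c₁⁻¹ * En R γ' g := by
  have i1 := int_En (R := R) (γ := fun _ => 1) (C := 1) measurable_const (by simp) hg
  have e1 := En_mono (R := R) (γ := fun _ => 1) (C := 1) (t := c₁⁻¹) measurable_const (by simp) hm hb hg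
    fun p => by rw [← div_eq_inv_mul, one_le_div hc₁]; exact hb' p
  simp only [En, one_mul] at i1 e1
  have i2 := integrableOn_cont (Metric.isBounded_ball (x := (0 : E)) (r := R)) (hg.continuous.fun_pow 2)
  have e2 : ∫ p in Metric.closedBall (0 : E) r, (‖∇ g p‖ ^ 2 + g p ^ 2) ≤
      (∫ p in Metric.ball (0 : E) R, ‖∇ g p‖ ^ 2) + ∫ p in Metric.ball (0 : E) R, g p ^ 2 := by
    rw [← integral_add i1 i2]
    exact setIntegral_mono_set (i1.add i2) (.of_forall fun p => by positivity)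
      (Metric.closedBall_subset_ball hr).eventuallyLE
  have e3 := poincare (hr0.trans hr) hg h0
  refine (h.trace g hg).trans ?_
  rw [mul_assoc, mul_assoc]
  refine mul_le_mul_of_nonneg_left (e2.trans ?_) hM
  calc _ ≤ (1 + 4 * R ^ 2) * ∫ p in Metric.ball (0 : E) R, ‖∇ g p‖ ^ 2 := by linarith
    _ ≤ _ := mul_le_mul_of_nonneg_left e1 (by positivity)

end Crest.Agent.R083
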