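import Crest.Agent.R083.Basic

/-! Row 83: almost solutions are almost constant on the ports. -/

set_option autoImplicit false

namespace Crest.Agent.R083

open MeasureTheory Filter Topology Set
open scoped Gradient RealInnerProductSpace

theorem fosc_int {γ W f : E → ℝ} {r C : ℝ} (hm : Measurable γ) (hb : ∀ p, 0 ≤ γ p ∧ γ p ≤ C)
    (hW : LocallyLipschitz W) (h0 : ∀ p, r < ‖p‖ → W p = 0) (hf : LocallyLipschitz f) :
    Integrable fun p => γ p * ⟪∇ W p, ∇ f p⟫ := by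
  obtain ⟨K, hK, hK'⟩ := LL.grad_bdd hW r
  obtain ⟨K', hK1, hK1'⟩ := LL.grad_bdd hf r
  refine IntegrableOn.integrable_of_forall_notMem_eq_zero (s := Metric.closedBall (0 : E) r)
    (integrableOn_of_bdd Metric.isBounded_closedBall measurableSet_closedBall
      (hm.mul ((measurable_grad W).inner (measurable_grad f))) (K := C * (K * K'))
      (Eventually.of_forall fun p hp => ?_)) fun p hp => ?_
  · have hp' : ‖p‖ ≤ r := by simpa using hp
    rw [abs_mul, abs_of_nonneg (hb p).1]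
    refine mul_le_mul (hb p).2 ((abs_real_inner_le_norm _ _).trans ?_) (abs_nonneg _)
      ((hb p).1.trans (hb p).2)
    exact mul_le_mul (hK' p hp') (hK1' p hp') (norm_nonneg _) hK
  · have hp' : r < ‖p‖ := by simpa using hp
    have : ∇ W p = 0 := grad_of_eventually_const (c := 0)
      ((continuousAt_const.eventually_lt continuous_norm.continuousAt hp').mono h0)
    simp [this]

theorem fosc_int' {f : E → ℝ} {r : ℝ} {μ : Measure E} [IsFiniteMeasure μ]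
    (hμ : ∀ᵐ p ∂μ, ‖p‖ ≤ r) (hf : LocallyLipschitz f) : Integrable f μ := by
  obtain ⟨K, -, hK⟩ := LL.bdd hf r
  exact Integrable.of_bound hf.continuous.aestronglyMeasurable K (hμ.mono fun p hp => hK p hp)

theorem fosc_sum {γ : E → ℝ} {r C : ℝ} (hm : Measurable γ) (hb : ∀ p, 0 ≤ γ p ∧ γ p ≤ C)
    {ι : Type*} (s : Finset ι) (c : ι → ℝ) (W : ι → E → ℝ) (hW : ∀ i, LocallyLipschitz (W i))
    (h0 : ∀ i p, r < ‖p‖ → W i p = 0) :
    ∃ V : E → ℝ, LocallyLipschitz V ∧ (∀ p, r < ‖p‖ → V p = 0) ∧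
      ∀ f : E → ℝ, LocallyLipschitz f →
        ∫ p, γ p * ⟪∇ V p, ∇ f p⟫ = ∑ i ∈ s, c i * ∫ p, γ p * ⟪∇ (W i) p, ∇ f p⟫ := by
  classical
  induction s using Finset.induction_on with
  | empty =>
    refine ⟨fun _ => 0, LL.const 0, fun _ _ => rfl, fun f _ => ?_⟩
    simp
  | insert j s hj ih =>
    obtain ⟨V, hV, hV0, hV'⟩ := ih
    refine ⟨fun p => c j * W j p + V p, LL.add (LL.mul (LL.const _) (hW j)) hV,
      fun p hp => by simp [h0 j p hp, hV0 p hp], fun f hf => ?_⟩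
    rw [Finset.sum_insert hj, ← hV' f hf, ← integral_const_mul,
      ← integral_add ((fosc_int hm hb (hW j) (h0 j) hf).const_mul _) (fosc_int hm hb hV hV0 hf)]
    refine integral_congr_ae ?_
    filter_upwards [LL.ae_diff (hW j), LL.ae_diff hV] with p h1 h2
    rw [grad_add (h1.const_mul _) h2, grad_const_mul, inner_add_left, real_inner_smul_left]
    ring

theorem fosc_jensen {f : E → ℝ} {r : ℝ} {μ : Measure E} [IsProbabilityMeasure μ]
    (hμ : ∀ᵐ p ∂μ, ‖p‖ ≤ r) (hf : LocallyLipschitz f) : (∫ p, f p ∂μ) ^ 2 ≤ ∫ p, f p ^ 2 ∂μ := by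
  have h1 := fosc_int' hμ hf
  have h2 := fosc_int' hμ (LL.pow hf 2)
  have h3 : ∫ p, (2 * (∫ q, f q ∂μ) * f p - (∫ q, f q ∂μ) ^ 2) ∂μ = (∫ p, f p ∂μ) ^ 2 := by
    rw [integral_sub (h1.const_mul _) (integrable_const _), integral_const_mul]
    simp only [integral_const, probReal_univ, smul_eq_mul]
    ring
  rw [← h3]
  refine integral_mono ((h1.const_mul _).sub (integrable_const _)) h2 fun p => ?_
  simp only
  nlinarith [sq_nonneg (f p - ∫ q, f q ∂μ)]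

theorem fosc_one {u : E → ℝ} {r η L : ℝ} {μ : Measure E} [IsProbabilityMeasure μ] {x : E}
    (hμ : ∀ᵐ p ∂μ, ‖p‖ ≤ r ∧ dist p x ≤ η) (hu : LocallyLipschitz u) (hL : 0 ≤ L)
    (hlip : ∀ p q : E, ‖p‖ ≤ r → ‖q‖ ≤ r → |u p - u q| ≤ L * dist p q) (l : ℝ) :
    ∫ p, (u p - l) ^ 2 ∂μ ≤ 2 * (∫ q, u q ∂μ - l) ^ 2 + 8 * (L * η) ^ 2 := by
  have h1 := fosc_int' (hμ.mono fun p hp => hp.1) hu
  suffices h : ∀ᵐ p ∂μ, ‖(u p - l) ^ 2‖ ≤ 2 * (∫ q, u q ∂μ - l) ^ 2 + 8 * (L * η) ^ 2 by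
    have h' := norm_integral_le_of_norm_le_const h
    rw [probReal_univ, mul_one] at h'
    exact (le_abs_self _).trans h'
  filter_upwards [hμ] with p hp
  have h2 : |u p - ∫ q, u q ∂μ| ≤ 2 * (L * η) := by
    have h3 : u p - ∫ q, u q ∂μ = ∫ q, (u p - u q) ∂μ := by
      rw [integral_sub (integrable_const _) h1]
      simp
    rw [h3]
    suffices h : ∀ᵐ q ∂μ, ‖u p - u q‖ ≤ 2 * (L * η) by
      have h' := norm_integral_le_of_norm_le_const h
      rwa [probReal_univ, mul_one] at h'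
    filter_upwards [hμ] with q hq
    refine (hlip p q hp.1 hq.1).trans ?_
    have h4 : dist p q ≤ 2 * η := by linarith [dist_triangle_right p q x, hp.2, hq.2]
    nlinarith
  rw [Real.norm_of_nonneg (sq_nonneg _)]
  have h5 : (u p - ∫ q, u q ∂μ) ^ 2 ≤ (2 * (L * η)) ^ 2 := by
    rw [← sq_abs]
    exact pow_le_pow_left₀ (abs_nonneg _) h2 2
  nlinarith [sq_nonneg ((u p - ∫ q, u q ∂μ) - (∫ q, u q ∂μ - l))]

/-- Let `m i = ∫ u ∂σ i`, `ℓ = av σ u`, `a i = m i - ℓ`, `Q = (∑ a i²)/n`, `W = (∑ a i W i)/n`.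
Then `∫ γ ⟪∇ W, ∇ f⟫ = (∑ a i ∫ f ∂σ i)/n` for all `f`, so `∫ γ ⟪∇ W, ∇ u⟫ = Q` and
`e := ∫ γ ‖∇ W‖² ≤ √Q √(av σ W²) ≤ √Q √(M₁ e)`, hence `e ≤ M₁ Q` and `Q² ≤ δ e ≤ δ M₁ Q`.
Finally `(u - ℓ)² ≤ 2 (u - m i)² + 2 a i²` and `|u - m i| ≤ 2 L η` `σ i`-a.e. -/
theorem osc {γ u : E → ℝ} {r M M₁ η δ L C : ℝ} {n : ℕ} {σ : Fin n → Measure E}
    (hm : Measurable γ) (hb : ∀ p, 0 ≤ γ p ∧ γ p ≤ C) (hσ : Level γ r M η σ)
    (hu : LocallyLipschitz u) (hL : 0 ≤ L) (hδ : 0 ≤ δ) (hM₁ : 0 ≤ M₁)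
    (hlip : ∀ p q : E, ‖p‖ ≤ r → ‖q‖ ≤ r → |u p - u q| ≤ L * dist p q)
    (htr : ∀ W : E → ℝ, LocallyLipschitz W → (∀ p, r < ‖p‖ → W p = 0) →
      av σ (fun p => W p ^ 2) ≤ M₁ * ∫ p, γ p * ‖∇ W p‖ ^ 2)
    (hmin : ∀ W : E → ℝ, LocallyLipschitz W → (∀ p, r < ‖p‖ → W p = 0) →
      (∫ p, γ p * ⟪∇ W p, ∇ u p⟫) ^ 2 ≤ δ * ∫ p, γ p * ‖∇ W p‖ ^ 2) :
    av σ (fun p => (u p - av σ u) ^ 2) ≤ 2 * δ * M₁ + 8 * (L * η) ^ 2 := by
  have hprob := hσ.prob
  choose x hx using hσ.small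
  choose W hW hW0 hW' using hσ.inv
  have hn : (0 : ℝ) < n := by exact_mod_cast hσ.pos
  obtain ⟨a, ha⟩ : ∃ a : Fin n → ℝ, ∀ i, a i = ∫ p, u p ∂σ i - av σ u := ⟨_, fun _ => rfl⟩
  have ha0 : ∑ i, a i = 0 := by
    simp only [ha, Finset.sum_sub_distrib, Finset.sum_const, Finset.card_univ, Fintype.card_fin,
      nsmul_eq_mul, av]
    field_simp
    ring
  obtain ⟨V, hV, hV0, hV'⟩ := fosc_sum hm hb Finset.univ (fun i => a i / n) W hW hW0
  have key : ∀ f : E → ℝ, LocallyLipschitz f →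
      ∫ p, γ p * ⟪∇ V p, ∇ f p⟫ = (∑ i, a i * ∫ p, f p ∂σ i) / n := by
    intro f hf
    rw [hV' f hf]
    simp only [hW' _ f hf, mul_sub, Finset.sum_sub_distrib, ← Finset.sum_mul, ← Finset.sum_div,
      ha0, zero_div, zero_mul, sub_zero]
    rw [Finset.sum_div]
    exact Finset.sum_congr rfl fun i _ => by ring
  obtain ⟨Q, hQ⟩ : ∃ Q : ℝ, Q = (∑ i, a i ^ 2) / n := ⟨_, rfl⟩
  have hQ0 : 0 ≤ Q := by rw [hQ]; positivity
  have h1 : ∫ p, γ p * ⟪∇ V p, ∇ u p⟫ = Q := by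
    rw [key u hu, hQ]
    congr 1
    have : ∀ i, a i * ∫ p, u p ∂σ i = a i ^ 2 + a i * av σ u := fun i => by
      rw [show ∫ p, u p ∂σ i = a i + av σ u by rw [ha]; ring]
      ring
    simp only [this, Finset.sum_add_distrib, ← Finset.sum_mul, ha0, zero_mul, add_zero]
  obtain ⟨e, he⟩ : ∃ e : ℝ, e = ∫ p, γ p * ‖∇ V p‖ ^ 2 := ⟨_, rfl⟩
  have he0 : 0 ≤ e := by
    rw [he]
    exact integral_nonneg fun p => mul_nonneg (hb p).1 (sq_nonneg _)
  have h2 : e = (∑ i, a i * ∫ p, V p ∂σ i) / n := by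
    rw [he, ← key V hV]
    simp only [real_inner_self_eq_norm_sq]
  have h3 : e ^ 2 ≤ Q * av σ (fun p => V p ^ 2) := by
    rw [h2, hQ, av, div_pow, div_mul_div_comm, ← sq]
    gcongr
    refine (Finset.sum_mul_sq_le_sq_mul_sq _ _ _).trans ?_
    gcongr with i
    exact fosc_jensen ((hx i).mono fun p hp => hp.1) hV
  have h4 := htr V hV hV0
  have h5 := hmin V hV hV0
  rw [← he] at h4 h5
  rw [h1] at h5
  have h6 : e ≤ M₁ * Q := by
    rcases he0.eq_or_lt with h | h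
    · rw [← h]
      positivity
    · have : e * e ≤ M₁ * Q * e := by nlinarith [mul_le_mul_of_nonneg_left h4 hQ0]
      exact le_of_mul_le_mul_right this h
  have h7 : Q ≤ δ * M₁ := by
    rcases hQ0.eq_or_lt with h | h
    · rw [← h]
      positivity
    · have : Q * Q ≤ δ * M₁ * Q := by nlinarith [mul_le_mul_of_nonneg_left h6 hδ]
      exact le_of_mul_le_mul_right this h
  calc av σ (fun p => (u p - av σ u) ^ 2)
      ≤ (∑ i, (2 * a i ^ 2 + 8 * (L * η) ^ 2)) / n := by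
        rw [av]
        gcongr with i
        rw [ha]
        exact fosc_one (hx i) hu hL hlip _
    _ = 2 * Q + 8 * (L * η) ^ 2 := by
        rw [Finset.sum_add_distrib, ← Finset.mul_sum, hQ]
        simp only [Finset.sum_const, Finset.card_univ, Fintype.card_fin, nsmul_eq_mul]
        field_simp
    _ ≤ _ := by linarith

end Crest.Agent.R083
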