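import Crest.Agent.R083.FCore
import Crest.Agent.R083.FOsc

/-! Row 83: the transformation `u ↦ (u - ℓ)/c + ℓ`. -/

set_option autoImplicit false

namespace Crest.Agent.R083

open MeasureTheory Filter Topology Set
open scoped Gradient RealInnerProductSpace

variable {γ c u φ : E → ℝ} {R r c₀ C₀ M η m δ : ℝ} {n : ℕ} {σ : Fin n → Measure E}

/-- The two energy estimates at a fixed level. -/
theorem core (hr0 : 0 < r) (hr : r < R) (hc₀ : 0 < c₀) (hM : 0 < M) :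
    ∃ K : ℝ, 0 ≤ K ∧ ∀ {γ c u φ : E → ℝ} {η m δ : ℝ} {n : ℕ} {σ : Fin n → Measure E}
      {s : Fin n → ℝ}, Measurable γ → (∀ p, c₀ ≤ γ p ∧ γ p ≤ C₀) → 0 ≤ δ →
      (∀ w, Comp R φ w → m ≤ En R γ w) → Comp R φ u → En R γ u ≤ m + δ → Level γ r M η σ →
      LocallyLipschitz c → (∀ p, 1 / 4 ≤ c p ∧ c p ≤ 3) → (∀ p, r < ‖p‖ → c p = 1) →
      (∀ i, |s i| ≤ M) → (∀ f : E → ℝ, LocallyLipschitz f →
        ∫ p, γ p * ⟪∇ c p, ∇ f p⟫ = (∑ i, s i * ∫ p, f p ∂σ i) / n) →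
      (∃ W : E → ℝ, LocallyLipschitz W ∧ (∀ p, r < ‖p‖ → W p = 0) ∧
        En R (fun p => c p ^ 2 * γ p) (fun p => u p + W p) ≤
          m + K * (δ + av σ fun p => (u p - av σ u) ^ 2)) ∧
      ∀ u₁, Comp R φ u₁ → m ≤ En R (fun p => c p ^ 2 * γ p) u₁ +
        K * (δ + av σ fun p => (u p - av σ u) ^ 2) := by
  obtain ⟨M₂, hM₂, hM₂'⟩ : ∃ M₂ : ℝ, 0 < M₂ ∧ M₂ = M * (1 + 4 * R ^ 2) * (c₀ / 16)⁻¹ :=
    ⟨_, by positivity, rfl⟩
  refine ⟨2 * (1 + 3 * M * M₂) + (4 * M + 2 * M ^ 2 * M₂), by positivity, ?_⟩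
  intro γ c u φ η m δ n σ s hm hb hδ hmin hu hE hσ hc hcb hc1 hs hw
  have hb0 : ∀ p, 0 ≤ γ p := fun p => hc₀.le.trans (hb p).1
  have hab : ∀ p, |γ p| ≤ C₀ := fun p => by rw [abs_of_nonneg (hb0 p)]; exact (hb p).2
  have hc0 : ∀ p, 0 < c p := fun p => lt_of_lt_of_le (by norm_num) (hcb p).1
  have hne : ∀ p, c p ≠ 0 := fun p => (hc0 p).ne'
  have hm' : Measurable fun p => c p ^ 2 * γ p := (hc.continuous.measurable.pow_const 2).mul hm
  have hab' : ∀ p, |c p ^ 2 * γ p| ≤ 9 * C₀ := fun p => by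
    rw [abs_mul, abs_pow, abs_of_pos (hc0 p)]
    exact mul_le_mul (by nlinarith [hcb p, hc0 p]) (hab p) (abs_nonneg _) (by norm_num)
  have hlo : ∀ p, c₀ / 16 ≤ c p ^ 2 * γ p := fun p => by
    have : 1 / 16 ≤ c p ^ 2 := by nlinarith [hcb p]
    nlinarith [(hb p).1]
  have hul := hu.1.locallyLipschitz
  set l := av σ u
  have hv : LocallyLipschitz fun p => u p - l := LL.sub hul (LL.const _)
  set ω := av σ fun p => (u p - l) ^ 2
  have hω : 0 ≤ ω := av_nonneg _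
  have hsrc : ∀ {f g : E → ℝ} {a b : ℝ}, LocallyLipschitz f → Continuous g →
      (∀ p, |f p| ≤ a * g p ^ 2 + b * (u p - l) ^ 2) →
      |Bf R γ c f| ≤ M * (a * av σ (fun p => g p ^ 2) + b * ω) := fun hf hg h => by
    rw [Bf, form_eq hc1 (Metric.closedBall_subset_ball hr), hw _ hf]
    exact hσ.src hs hg hv.continuous h
  have hgv : (∇ fun p => u p - l) = ∇ u := funext fun p => by
    simp only [sub_eq_add_neg, grad_add_const]
  have hy : LocallyLipschitz fun p => (u p - l) * (c p)⁻¹ := LL.mul hv (LL.inv hc hne)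
  have e1 : |En R (fun p => c p ^ 2 * γ p) (fun p => (u p - l) * (c p)⁻¹) - En R γ u| ≤
      4 * M * ω := by
    have e : (fun p => c p * ((u p - l) * (c p)⁻¹)) = fun p => u p - l := funext fun p => by
      field_simp [hne p]
    rw [En_eq, Bf_ground hm hab hv hy hc hne, e, ← En_eq, En, hgv, ← En, sub_sub_cancel_left, abs_neg]
    refine (hsrc (a := 0) (b := 4) (LL.mul hv hy) hv.continuous fun p => ?_).trans_eq (by ring)
    have : (c p)⁻¹ ≤ 4 := inv_le_of_inv_le₀ (by norm_num) (by simpa using (hcb p).1)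
    have := inv_pos.2 (hc0 p)
    rw [← mul_assoc, ← sq, abs_of_nonneg (by positivity)]
    nlinarith [sq_nonneg (u p - l)]
  have hW0 : ∀ p, r < ‖p‖ → (u p - l) * (c p)⁻¹ + l - u p = 0 := fun p hp => by simp [hc1 p hp]
  have hmu := hmin u hu
  have hMM : 0 ≤ M ^ 2 * M₂ * δ ∧ 0 ≤ M * M₂ * ω ∧ 0 ≤ M * δ ∧ 0 ≤ M * M₂ * δ ∧
      0 ≤ M ^ 2 * M₂ * ω := ⟨by positivity, by positivity, by positivity, by positivity, by positivity⟩
  refine ⟨⟨fun p => (u p - l) * (c p)⁻¹ + l - u p, LL.sub (LL.add hy (LL.const _)) hul, hW0, ?_⟩,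
    fun u₁ hu₁ => ?_⟩
  · simp only [add_sub_cancel, En, grad_add_const] at e1 hE ⊢
    linarith [(abs_le.1 e1).2]
  · have hψ : LocallyLipschitz fun p => u₁ p - l - (u p - l) * (c p)⁻¹ :=
      LL.sub (LL.sub hu₁.1.locallyLipschitz (LL.const _)) hy
    set ψ : E → ℝ := fun p => u₁ p - l - (u p - l) * (c p)⁻¹ with hψd
    have e2 := En_add (R := R) hm' hab' hy hψ 1
    have e3 : En R (fun p => c p ^ 2 * γ p) (fun p => (u p - l) * (c p)⁻¹ + 1 * ψ p) =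
        En R (fun p => c p ^ 2 * γ p) u₁ := by
      simp only [hψd, one_mul, add_sub_cancel, En]
      simp only [sub_eq_add_neg, grad_add_const]
    rw [e3, Bf_ground hm hab hv hψ hc hne] at e2
    set e := En R (fun p => c p ^ 2 * γ p) ψ with he
    have he0 : 0 ≤ e := En_nonneg fun p => mul_nonneg (sq_nonneg _) (hb0 p)
    have hT : av σ (fun p => ψ p ^ 2) ≤ M₂ * e := hM₂' ▸
      hσ.tr hM.le hr0 hr (by positivity) hm' hab' hlo hψ fun p hp => by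
        simp [hψd, hc1 p (hp ▸ hr), hu.2 p hp, hu₁.2 p hp]
    have hcψ := LL.mul hc hψ
    have e4 : En R γ (fun p => c p * ψ p) ≤ (1 + 3 * M * M₂) * e := by
      have g := Bf_ground (R := R) hm hab hcψ hψ hc hne
      have e : (fun p => c p * ψ p * (c p)⁻¹) = ψ := funext fun p => by field_simp [hne p]
      rw [e, ← En_eq, ← En_eq, ← he] at g
      have g2 := (abs_le.1 (hsrc (a := 3) (b := 0) (LL.mul hcψ hψ) hψ.continuous fun p => by
        rw [mul_assoc, ← sq, abs_of_nonneg (mul_nonneg (hc0 p).le (sq_nonneg _))]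
        nlinarith [sq_nonneg (ψ p), (hcb p).2])).2
      nlinarith [mul_le_mul_of_nonneg_left hT hM.le]
    have e5 := near_min (w := fun p => c p * ψ p) hr hm hab hmin hu hE (hu₁.1.sub hu.1)
      (fun p hp => by simp [hu.2 p hp, hu₁.2 p hp])
      (LL.sub hcψ (LL.sub hu₁.1.locallyLipschitz hul)) (fun p hp => by simp [hψd, hc1 p hp])
      fun p => by ring
    have e6 : -(e / 4 + δ * (1 + 3 * M * M₂)) ≤ Bf R γ u fun p => c p * ψ p := by
      refine (abs_le.1 (abs_le_of_sq_le_sq' ?_ (by positivity) |> abs_le.2)).1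
      nlinarith [mul_le_mul_of_nonneg_left e4 hδ, sq_nonneg (e / 4 - δ * (1 + 3 * M * M₂))]
    have e7 := (abs_le.1 (hsrc (a := (4 * M * M₂)⁻¹) (b := M * M₂) (LL.mul hv hψ) hψ.continuous
      fun p => by
        rw [abs_mul, ← sq_abs (ψ p), ← sq_abs (u p - l)]
        have h1 : 0 < M * M₂ := by positivity
        have h2 : (4 * M * M₂)⁻¹ * |ψ p| ^ 2 + M * M₂ * |u p - l| ^ 2 - |u p - l| * |ψ p| =
          (4 * M * M₂)⁻¹ * (|ψ p| - 2 * M * M₂ * |u p - l|) ^ 2 := by field_simp; ring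
        have h3 : 0 ≤ (4 * M * M₂)⁻¹ * (|ψ p| - 2 * M * M₂ * |u p - l|) ^ 2 := by positivity
        linarith)).2
    have e8 : M * ((4 * M * M₂)⁻¹ * av σ fun p => ψ p ^ 2) ≤ e / 4 :=
      (mul_le_mul_of_nonneg_left (mul_le_mul_of_nonneg_left hT (by positivity)) hM.le).trans_eq
        (by field_simp)
    rw [Bf, hgv, ← Bf] at e2
    linarith [(abs_le.1 e1).1]

theorem small {x K ε : ℝ} (hε : 0 < ε) : ∃ δ : ℝ, 0 < δ ∧ ∀ L : ℝ, ∃ η : ℝ, 0 < η ∧ η ≤ 1 / 4 ∧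
    (1 + 4 * η) ^ 2 * (x + K * δ + L * η ^ 2) < x + ε := by
  have c1 : ContinuousAt (fun δ : ℝ => x + K * δ) 0 := by fun_prop
  obtain ⟨δ, h1, h2⟩ := (((c1.eventually_lt (g := fun _ => x + ε) continuousAt_const
    (by simpa using hε)).filter_mono nhdsWithin_le_nhds).and
      (self_mem_nhdsWithin (a := (0 : ℝ)) (s := Ioi 0))).exists
  refine ⟨δ, h2, fun L => ?_⟩
  have c2 : ContinuousAt (fun η : ℝ => (1 + 4 * η) ^ 2 * (x + K * δ + L * η ^ 2)) 0 := by fun_prop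
  obtain ⟨η, h3, h4⟩ := (((c2.eventually_lt (g := fun _ => x + ε) continuousAt_const
    (by simpa using h1)).filter_mono nhdsWithin_le_nhds).and
      (Ioc_mem_nhdsGT (show (0 : ℝ) < 1 / 4 by norm_num))).exists
  exact ⟨η, h4.1, h4.2, h3⟩

theorem sbe_of_fdata {γ c : E → ℝ} {R r c₀ C₀ : ℝ} (hr0 : 0 < r) (hr : r < R) (hc₀ : 0 < c₀)
    (hm : Measurable γ) (hb : ∀ p, c₀ ≤ γ p ∧ γ p ≤ C₀) (hmc : Measurable c)
    (hc : ∀ p, 1 / 2 ≤ c p ∧ c p ≤ 2) (h : FData γ c r) : SBE R γ fun p => c p ^ 2 * γ p := by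
  intro φ hφ
  obtain ⟨M, hM, h⟩ := h
  obtain ⟨K, hK, hcore⟩ := core (C₀ := C₀) hr0 hr hc₀ hM
  have hb0 : ∀ p, 0 ≤ γ p := fun p => hc₀.le.trans (hb p).1
  have hab : ∀ p, |γ p| ≤ C₀ := fun p => by rw [abs_of_nonneg (hb0 p)]; exact (hb p).2
  have hab2 : ∀ {c : E → ℝ}, (∀ p, 1 / 4 ≤ c p ∧ c p ≤ 3) → ∀ p, |c p ^ 2 * γ p| ≤ 9 * C₀ :=
    fun {c} hc p => by
      rw [abs_mul, abs_of_nonneg (sq_nonneg _)]
      exact mul_le_mul (by nlinarith [hc p]) (hab p) (abs_nonneg _) (by norm_num)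
  have hc4 : ∀ p, 1 / 4 ≤ c p ∧ c p ≤ 3 := fun p => ⟨by linarith [hc p], by linarith [hc p]⟩
  have hm1 : Measurable fun p => c p ^ 2 * γ p := (hmc.pow_const 2).mul hm
  set S := En R γ '' {w | Comp R φ w}
  have hS : S.Nonempty := ⟨_, φ, ⟨hφ, fun _ _ => rfl⟩, rfl⟩
  have hmin : ∀ w, Comp R φ w → sInf S ≤ En R γ w := fun w hw =>
    csInf_le ⟨0, by rintro _ ⟨w, -, rfl⟩; exact En_nonneg hb0⟩ ⟨w, hw, rfl⟩
  set m := sInf S
  set M₁ := M * (1 + 4 * R ^ 2) * c₀⁻¹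
  have hM₁ : 0 ≤ M₁ := by positivity
  have key : ∀ δ : ℝ, 0 < δ → ∃ L : ℝ, ∀ η : ℝ, 0 < η → η ≤ 1 / 4 →
      (∃ u W : E → ℝ, Comp R φ u ∧ LocallyLipschitz W ∧ (∀ p, r < ‖p‖ → W p = 0) ∧
        En R (fun p => c p ^ 2 * γ p) (fun p => u p + W p) ≤
          (1 + 4 * η) ^ 2 * (m + K * (1 + 2 * M₁) * δ + L * η ^ 2)) ∧
      ∀ u₁, Comp R φ u₁ → m ≤ (1 + 4 * η) ^ 2 *
        (En R (fun p => c p ^ 2 * γ p) u₁ + K * (1 + 2 * M₁) * δ + L * η ^ 2) := by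
    intro δ hδ
    obtain ⟨_, ⟨u, hu, rfl⟩, hE⟩ := Real.lt_sInf_add_pos hS hδ
    have hul := hu.1.locallyLipschitz
    obtain ⟨L, g, hg, hgu⟩ := LL.ext hul r
    refine ⟨8 * K * L ^ 2, fun η hη hη1 => ?_⟩
    obtain ⟨n, σ, c', s, hσ, hc', hcc, hc1, hs, hw⟩ := h η hη
    have hc'4 : ∀ p, 1 / 4 ≤ c' p ∧ c' p ≤ 3 := fun p =>
      ⟨by linarith [hc p, abs_le.1 (hcc p)], by linarith [hc p, abs_le.1 (hcc p)]⟩
    have hm' : Measurable fun p => c' p ^ 2 * γ p := (hc'.continuous.measurable.pow_const 2).mul hm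
    have hEn : ∀ W : E → ℝ, (∀ p, r < ‖p‖ → W p = 0) → En R γ W = ∫ p, γ p * ‖∇ W p‖ ^ 2 :=
      fun W h0 => by
        rw [En_eq, Bf, form_eq h0 (Metric.closedBall_subset_ball hr)]
        simp only [real_inner_self_eq_norm_sq]
    have ho := osc hm (fun p => ⟨hb0 p, (hb p).2⟩) hσ hul (NNReal.coe_nonneg L) hδ.le hM₁
      (fun p q hp hq => by
        rw [← hgu p (by simpa using hp), ← hgu q (by simpa using hq)]
        exact hg.dist_le_mul p q)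
      (fun W hW h0 => hEn W h0 ▸ hσ.tr hM.le hr0 hr hc₀ hm hab (fun p => (hb p).1) hW
        fun p hp => h0 p (hp ▸ hr))
      fun W hW h0 => by
        rw [← hEn W h0, ← form_eq h0 (Metric.closedBall_subset_ball hr)]
        simp only [real_inner_comm (∇ u _)]
        exact near_min (ψ₀ := fun _ => 0) hr hm hab hmin hu hE.le contDiff_const (fun _ _ => rfl)
          hW h0 fun p => (zero_add _).symm
    obtain ⟨⟨W, hW, hW0, h1⟩, h2⟩ := hcore hm hb hδ.le hmin hu hE.le hσ hc' hc'4 hc1 hs hw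
    have h3 : K * (δ + av σ fun p => (u p - av σ u) ^ 2) ≤
        K * (1 + 2 * M₁) * δ + 8 * K * L ^ 2 * η ^ 2 :=
      (mul_le_mul_of_nonneg_left (add_le_add_right ho δ) hK).trans_eq (by ring)
    have cmp : ∀ {a b : ℝ} (p : E), 1 / 4 ≤ a → 1 / 4 ≤ b → a ≤ b + η →
        a ^ 2 * γ p ≤ (1 + 4 * η) ^ 2 * (b ^ 2 * γ p) := fun {a b} p ha hb' hab => by
      rw [← mul_assoc, ← mul_pow]
      exact mul_le_mul_of_nonneg_right (pow_le_pow_left₀ (by linarith) (by nlinarith) 2) (hb0 p)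
    refine ⟨⟨u, W, hu, hW, hW0, ?_⟩, fun u₁ hu₁ => ?_⟩
    · refine (En_mono hm1 (hab2 hc4) hm' (hab2 hc'4) (LL.add hul hW) fun p =>
        cmp p (hc4 p).1 (hc'4 p).1 (by linarith [abs_le.1 (hcc p)])).trans ?_
      exact mul_le_mul_of_nonneg_left (by linarith) (sq_nonneg _)
    · have h4 := En_mono (R := R) hm' (hab2 hc'4) hm1 (hab2 hc4) hu₁.1.locallyLipschitz fun p =>
        cmp p (hc'4 p).1 (hc4 p).1 (by linarith [abs_le.1 (hcc p)])
      have h5 : 0 ≤ K * (1 + 2 * M₁) * δ + 8 * K * L ^ 2 * η ^ 2 := by positivity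
      have h6 : 1 ≤ (1 + 4 * η) ^ 2 := one_le_pow₀ (by linarith)
      nlinarith [h2 u₁ hu₁]
  refine ⟨fun u₀ hu₀ ε hε => ?_, fun u₁ hu₁ ε hε => ?_⟩
  · obtain ⟨δ, hδ, h1⟩ := small (x := m) (K := K * (1 + 2 * M₁)) (half_pos hε)
    obtain ⟨L, h2⟩ := key δ hδ
    obtain ⟨η, hη, hη1, h3⟩ := h1 L
    obtain ⟨⟨u, W, hu, hW, hW0, h4⟩, -⟩ := h2 η hη hη1
    obtain ⟨V, hV, hV0, h5⟩ := approx hr hm1 (hab2 hc4) hu.1 hW hW0 (half_pos hε)
    exact ⟨_, ⟨hu.1.add hV, fun p hp => by simp only [hV0 p hp, hu.2 p hp, add_zero]⟩,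
      by linarith [hmin u₀ hu₀]⟩
  · obtain ⟨δ, hδ, h1⟩ := small (x := En R (fun p => c p ^ 2 * γ p) u₁) (K := K * (1 + 2 * M₁))
      (half_pos hε)
    obtain ⟨L, h2⟩ := key δ hδ
    obtain ⟨η, hη, hη1, h3⟩ := h1 L
    obtain ⟨_, ⟨w, hw, rfl⟩, hE⟩ := Real.lt_sInf_add_pos hS (half_pos hε)
    exact ⟨w, hw, by linarith [(h2 η hη hη1).2 u₁ hu₁]⟩

end Crest.Agent.R083
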