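import Crest.Agent.R083.Basic

/-! Row 83: from frame components to ellipticity. -/

set_option autoImplicit false

namespace Crest.Agent.R083

open MeasureTheory Filter Topology Set
open scoped Gradient RealInnerProductSpace

theorem frame_norm3 {a b c : E} {M : ℝ} (ha : ‖a‖ ≤ M) (hb : ‖b‖ ≤ M) (hc : ‖c‖ ≤ M)
    (x y z : ℝ) : ‖x • a + y • b + z • c‖ ^ 2 ≤ 3 * M ^ 2 * (x ^ 2 + y ^ 2 + z ^ 2) := by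
  have h1 : ‖x • a + y • b + z • c‖ ≤ (|x| + |y| + |z|) * M := by
    calc ‖x • a + y • b + z • c‖ ≤ ‖x • a‖ + ‖y • b‖ + ‖z • c‖ := norm_add₃_le
      _ = |x| * ‖a‖ + |y| * ‖b‖ + |z| * ‖c‖ := by simp only [norm_smul, Real.norm_eq_abs]
      _ ≤ |x| * M + |y| * M + |z| * M := by gcongr
      _ = _ := by ring
  have h2 : (|x| + |y| + |z|) ^ 2 ≤ 3 * (x ^ 2 + y ^ 2 + z ^ 2) := by
    rw [← sq_abs x, ← sq_abs y, ← sq_abs z]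
    nlinarith [sq_nonneg (|x| - |y|), sq_nonneg (|x| - |z|), sq_nonneg (|y| - |z|)]
  calc ‖x • a + y • b + z • c‖ ^ 2 ≤ ((|x| + |y| + |z|) * M) ^ 2 := by gcongr
    _ = M ^ 2 * (|x| + |y| + |z|) ^ 2 := by ring
    _ ≤ M ^ 2 * (3 * (x ^ 2 + y ^ 2 + z ^ 2)) := by gcongr
    _ = _ := by ring

theorem frame_cr_le {a b : E} {M : ℝ} (ha : ‖a‖ ≤ M) (hb : ‖b‖ ≤ M) : ‖cr a b‖ ≤ M ^ 2 := by
  refine (norm_cr_le a b).trans ?_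
  rw [sq]
  exact mul_le_mul ha hb (norm_nonneg _) ((norm_nonneg _).trans ha)

theorem frame_comp {M D e : ℝ} (hM : 0 < M) (hD : 1 / M ≤ |D|) {v w : E} (hw : ‖w‖ ≤ M ^ 2)
    (h : ⟪w, v⟫ = e * D) : e ^ 2 ≤ M ^ 6 * ‖v‖ ^ 2 := by
  have h1 : |e| * |D| ≤ M ^ 2 * ‖v‖ := by
    rw [← abs_mul, ← h]
    exact (abs_real_inner_le_norm _ _).trans (by gcongr)
  have h2 : |e| ≤ M ^ 3 * ‖v‖ := by
    have h3 : |e| * (1 / M) ≤ M ^ 2 * ‖v‖ := le_trans (by gcongr) h1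
    rw [mul_one_div, div_le_iff₀ hM] at h3
    linarith
  calc e ^ 2 = |e| ^ 2 := (sq_abs e).symm
    _ ≤ (M ^ 3 * ‖v‖) ^ 2 := by gcongr
    _ = _ := by ring

theorem frame_core {κ K M : ℝ} (hκ : 0 < κ) (hM : 0 < M) {a b c : E} {o ν e₁ e₂ e₃ i₁ i₂ : ℝ}
    (ha : ‖a‖ ≤ M) (hb : ‖b‖ ≤ M) (hc : ‖c‖ ≤ M) (ho : o = 1 ∨ o = -1)
    (hd : 1 / M ≤ o * ⟪cr a b, c⟫) (hν : 1 / 3 ≤ ν) (hν1 : ν ≤ 1)
    (h1 : κ * (e₁ ^ 2 + e₂ ^ 2) ≤ i₁ * e₁ + i₂ * e₂)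
    (h2 : i₁ ^ 2 + i₂ ^ 2 ≤ K ^ 2 * (e₁ ^ 2 + e₂ ^ 2)) {V J : E}
    (hV : V = e₁ • a + e₂ • b + e₃ • c)
    (hJ : J = (o * ν) • (i₁ • cr b c + i₂ • cr c a + e₃ • cr a b)) :
    min κ 1 / (9 * M ^ 3) * ‖V‖ ^ 2 ≤ ⟪J, V⟫ ∧ ‖J‖ ≤ 3 * M ^ 5 * (|K| + 1) * ‖V‖ := by
  have hk0 : 0 < min κ 1 := lt_min hκ one_pos
  have hk1 : min κ 1 ≤ κ := min_le_left _ _
  have hk2 : min κ 1 ≤ 1 := min_le_right _ _
  have hVn : ‖V‖ ^ 2 ≤ 3 * M ^ 2 * (e₁ ^ 2 + e₂ ^ 2 + e₃ ^ 2) := hV ▸ frame_norm3 ha hb hc _ _ _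
  constructor
  · have e1 : ⟪J, V⟫ = ν * (o * ⟪cr a b, c⟫) * (i₁ * e₁ + i₂ * e₂ + e₃ ^ 2) := by
      rw [hV, hJ]; sc3
    have e2 : min κ 1 * (e₁ ^ 2 + e₂ ^ 2 + e₃ ^ 2) ≤ i₁ * e₁ + i₂ * e₂ + e₃ ^ 2 := by
      nlinarith [mul_le_mul_of_nonneg_right hk1 (add_nonneg (sq_nonneg e₁) (sq_nonneg e₂)),
        mul_le_mul_of_nonneg_right hk2 (sq_nonneg e₃)]
    rw [e1]
    calc min κ 1 / (9 * M ^ 3) * ‖V‖ ^ 2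
        ≤ min κ 1 / (9 * M ^ 3) * (3 * M ^ 2 * (e₁ ^ 2 + e₂ ^ 2 + e₃ ^ 2)) := by gcongr
      _ = 1 / 3 * (1 / M) * (min κ 1 * (e₁ ^ 2 + e₂ ^ 2 + e₃ ^ 2)) := by field_simp; ring
      _ ≤ _ := by
        have : 0 ≤ o * ⟪cr a b, c⟫ := le_trans (by positivity) hd
        gcongr
  · have hD : 1 / M ≤ |⟪cr a b, c⟫| := by
      rcases ho with rfl | rfl
      · exact hd.trans (by rw [one_mul]; exact le_abs_self _)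
      · exact hd.trans (by rw [neg_one_mul]; exact neg_le_abs _)
    have c1 : e₁ ^ 2 ≤ M ^ 6 * ‖V‖ ^ 2 := frame_comp hM hD (frame_cr_le hb hc) (by rw [hV]; sc3)
    have c2 : e₂ ^ 2 ≤ M ^ 6 * ‖V‖ ^ 2 := frame_comp hM hD (frame_cr_le hc ha) (by rw [hV]; sc3)
    have c3 : e₃ ^ 2 ≤ M ^ 6 * ‖V‖ ^ 2 := frame_comp hM hD (frame_cr_le ha hb) (by rw [hV]; sc3)
    have hon : |o * ν| ≤ 1 := by
      rcases ho with rfl | rfl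
      · rw [one_mul, abs_of_nonneg (by linarith)]; exact hν1
      · rw [neg_one_mul, abs_neg, abs_of_nonneg (by linarith)]; exact hν1
    have j1 := frame_norm3 (frame_cr_le hb hc) (frame_cr_le hc ha) (frame_cr_le ha hb) i₁ i₂ e₃
    have j2 : ‖J‖ ≤ ‖i₁ • cr b c + i₂ • cr c a + e₃ • cr a b‖ := by
      rw [hJ, norm_smul, Real.norm_eq_abs]
      exact mul_le_of_le_one_left (norm_nonneg _) hon
    have j3 : i₁ ^ 2 + i₂ ^ 2 + e₃ ^ 2 ≤ (|K| + 1) ^ 2 * (e₁ ^ 2 + e₂ ^ 2 + e₃ ^ 2) := by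
      rw [← sq_abs K] at h2
      have := abs_nonneg K
      nlinarith [mul_nonneg this (add_nonneg (add_nonneg (sq_nonneg e₁) (sq_nonneg e₂))
        (sq_nonneg e₃)), mul_nonneg (sq_nonneg |K|) (sq_nonneg e₃), sq_nonneg e₁, sq_nonneg e₂]
    refine (abs_le_of_sq_le_sq' ?_ (by positivity)).2
    calc ‖J‖ ^ 2 ≤ ‖i₁ • cr b c + i₂ • cr c a + e₃ • cr a b‖ ^ 2 := by gcongr
      _ ≤ 3 * (M ^ 2) ^ 2 * (i₁ ^ 2 + i₂ ^ 2 + e₃ ^ 2) := j1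
      _ ≤ 3 * (M ^ 2) ^ 2 * ((|K| + 1) ^ 2 * (e₁ ^ 2 + e₂ ^ 2 + e₃ ^ 2)) := by gcongr
      _ ≤ 3 * (M ^ 2) ^ 2 * ((|K| + 1) ^ 2 * (3 * (M ^ 6 * ‖V‖ ^ 2))) := by
        gcongr; linarith
      _ = _ := by ring

/-- For `E = e₁ a + e₂ b + e₃ c`, `J = i₁ cr b c + i₂ cr c a + i₃ cr a b`:
`⟪J, E⟫ = det (i₁ e₁ + i₂ e₂ + i₃ e₃)`, `‖E‖² ≤ 3 M² |e|²`, `|det| |e_i| ≤ M² ‖E‖` (`det_smul` or
inner products with `cr`).  A combination of the two fields has `e = (y d₁, y d₂, x + y d₃)`,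
`i = (y j₁, y j₂, x + y d₃)`. -/
theorem frame {κ K M : ℝ} (hκ : 0 < κ) (hM : 0 < M) : ∃ κ' K' : ℝ, 0 < κ' ∧
    ∀ (a b c : E) (o ν d₁ d₂ d₃ j₁ j₂ m₁ m₂ m₃ m₄ : ℝ), ‖a‖ ≤ M → ‖b‖ ≤ M → ‖c‖ ≤ M →
      (o = 1 ∨ o = -1) → 1 / M ≤ o * ⟪cr a b, c⟫ → 1 / 3 ≤ ν → ν ≤ 1 →
      κ * (d₁ ^ 2 + d₂ ^ 2) ≤ j₁ * d₁ + j₂ * d₂ → j₁ ^ 2 + j₂ ^ 2 ≤ K ^ 2 * (d₁ ^ 2 + d₂ ^ 2) →
      (d₁ ≠ 0 ∨ d₂ ≠ 0) → m₁ * m₄ - m₂ * m₃ ≠ 0 →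
      ∀ A J : E, A = d₁ • a + d₂ • b + d₃ • c → J = j₁ • cr b c + j₂ • cr c a + d₃ • cr a b →
      ∀ X : St, X = ((m₁ • c + m₂ • A, m₃ • c + m₄ • A),
        ((o * ν) • (m₁ • cr a b + m₂ • J), (o * ν) • (m₃ • cr a b + m₄ • J))) →
      Sym X ∧ Rk X ∧ Ell κ' K' X := by
  refine ⟨min κ 1 / (9 * M ^ 3), 3 * M ^ 5 * (|K| + 1), by
    have := lt_min hκ one_pos
    positivity, ?_⟩
  intro a b c o ν d₁ d₂ d₃ j₁ j₂ m₁ m₂ m₃ m₄ ha hb hc ho hd hν hν1 h1 h2 hd0 hm A J hA hJ X hX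
  refine ⟨?_, ?_, fun x y => ?_⟩
  · rw [Sym, hX, hA, hJ]; sc3
  · intro h
    rw [hX] at h
    have hD : ⟪cr a b, c⟫ ≠ 0 := by
      intro h0
      rw [h0, mul_zero] at hd
      exact absurd hd (not_le.2 (by positivity))
    have e1 : ⟪cr (m₁ • c + m₂ • A) (m₃ • c + m₄ • A), b⟫ =
        (m₁ * m₄ - m₂ * m₃) * ⟪cr a b, c⟫ * d₁ := by rw [hA]; sc3
    have e2 : ⟪cr (m₁ • c + m₂ • A) (m₃ • c + m₄ • A), a⟫ =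
        -((m₁ * m₄ - m₂ * m₃) * ⟪cr a b, c⟫ * d₂) := by rw [hA]; sc3
    simp only at h
    rw [h, inner_zero_left] at e1 e2
    rcases hd0 with h0 | h0
    · exact mul_ne_zero (mul_ne_zero hm hD) h0 e1.symm
    · exact mul_ne_zero (mul_ne_zero hm hD) h0 (neg_eq_zero.1 e2.symm)
  · have hy := sq_nonneg (x * m₂ + y * m₄)
    refine frame_core (e₁ := (x * m₂ + y * m₄) * d₁) (e₂ := (x * m₂ + y * m₄) * d₂)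
      (e₃ := x * m₁ + y * m₃ + (x * m₂ + y * m₄) * d₃) (i₁ := (x * m₂ + y * m₄) * j₁)
      (i₂ := (x * m₂ + y * m₄) * j₂) hκ hM ha hb hc ho hd hν hν1 ?_ ?_ ?_ ?_
    · nlinarith [mul_le_mul_of_nonneg_left h1 hy]
    · nlinarith [mul_le_mul_of_nonneg_left h2 hy]
    · rw [hX, hA]; vec3
    · rw [hX, hJ]; vec3

end Crest.Agent.R083
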