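import Crest.Agent.R083.Geo

/-! Row 83: the glued fields: continuity and values at the ports. -/

set_option autoImplicit false

namespace Crest.Agent.R083

open MeasureTheory Filter Topology Set
open scoped Gradient RealInnerProductSpace

/-- variant of `ll_glue3` in which the interface of the first two regions has `xp ≤ 50`. -/
theorem glueg_ll3 {a b c : E → ℝ} (ha : LocallyLipschitz a) (hb : LocallyLipschitz b)
    (hc : LocallyLipschitz c) (hab : ∀ p, rho p = 49 → xp p ≤ 50 → a p = b p)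
    (hac : ∀ p, rho p = 49 → 49 ≤ ze p + pl p → a p = c p)
    (hbc : ∀ p, 49 < rho p → ze p + pl p = 49 → b p = c p) : LocallyLipschitz (glue3 a b c) := by
  have c1 := ll_rho.continuous
  have c2 := ll_ze.continuous.add ll_pl.continuous
  have c3 := ll_xp.continuous
  refine ll_of_cover (ι := Fin 3) (K := ![{p | rho p ≤ 49},
    {p | 49 ≤ rho p ∧ ze p + pl p ≤ 49 ∧ xp p ≤ 50},
    {p | 49 ≤ rho p ∧ 49 ≤ ze p + pl p}]) (g := ![a, b, c]) (fun i => ?_) (fun p => ?_)
    (fun i => ?_) fun i p hp => ?_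
  · fin_cases i
    exacts [isClosed_le c1 continuous_const,
      (isClosed_le continuous_const c1).inter ((isClosed_le c2 continuous_const).inter
        (isClosed_le c3 continuous_const)),
      (isClosed_le continuous_const c1).inter (isClosed_le continuous_const c2)]
  · rcases le_total (rho p) 49 with h | h
    · exact ⟨0, h⟩
    · rcases le_total 49 (ze p + pl p) with h' | h'
      · exact ⟨2, h, h'⟩
      · rcases le_total (xp p) 50 with h'' | h''
        · exact ⟨1, h, h', h''⟩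
        · refine ⟨2, h, ?_⟩
          show 49 ≤ ze p + pl p
          have e1 : pl p = xp p - 50 := max_eq_left (by linarith)
          have e2 : rho p = xp p - 50 + ze p := by rw [rho, abs_of_nonneg (by linarith)]
          linarith
  · fin_cases i
    exacts [ha, hb, hc]
  · fin_cases i
    · exact if_pos hp
    · show glue3 a b c p = b p
      unfold glue3
      split_ifs with h1 h2
      exacts [hab p (le_antisymm h1 hp.1) hp.2.2, rfl, absurd hp.2.1 h2]
    · show glue3 a b c p = c p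
      unfold glue3
      split_ifs with h1 h2
      exacts [hac p (le_antisymm h1 hp.1) hp.2, hbc p (not_le.1 h1) (le_antisymm h2 hp.2), rfl]

theorem glueg_sx {p : E} {s : ℝ} (hs : s = 1 ∨ s = -1) (h : 1 ≤ s * p 0) : sx p = s := by
  rcases hs with rfl | rfl
  · exact clp_of_ge (by norm_num) (by linarith)
  · exact clp_of_le (by linarith)

theorem glueg_sgn (p : E) : ∃ s : ℝ, (s = 1 ∨ s = -1) ∧ xp p = s * p 0 ∧ p 0 = s * xp p := by
  rcases le_total 0 (p 0) with h | h
  · exact ⟨1, Or.inl rfl, by rw [xp, abs_of_nonneg h, one_mul], by rw [xp, abs_of_nonneg h, one_mul]⟩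
  · exact ⟨-1, Or.inr rfl, by rw [xp, abs_of_nonpos h]; ring, by rw [xp, abs_of_nonpos h]; ring⟩

theorem glueg_A0 (C : Casc 1000) {p : E} (h : tauA p = 0) :
    C.D (wA p) = fA p ∧ C.P1 (wA p) = -3 * FA p := by
  have h1 := (C.bot (xiA p) (YY p) (tauA p) (fA p) (FA p) h.le).2.2 (by rw [h]; norm_num)
  rw [h] at h1
  rw [wA, h]
  exact ⟨h1.1.trans (by ring), h1.2.trans (by ring)⟩

theorem glueg_C0 (C : Casc 1000) {p : E} (h : ze p + pl p ≤ 49) (h1 : -1 ≤ t1 p) :
    tauC p = t1 p ∧ C.D (wC p) = sC p ∧ C.P1 (wC p) = 2 * rC p ∧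
      XC p = sC p * (12 - 9 * rC p + rC p ^ 3) := by
  have ht : tauC p = t1 p := by rw [tauC, thC_eq_zero h]; ring
  have h2 := t1_le p
  have h3 := (C.bot (xiC p) (YY p) (tauC p) (fC p) (FC p) (tauC_nonpos h)).2.2 (by rw [ht]; exact h1)
  have h4 : (1 - t1 p) ≠ 0 := by linarith
  refine ⟨ht, h3.1.trans ?_, h3.2.trans ?_, ?_⟩
  · rw [ht, fC]
    field_simp
  · rw [ht, FC]
    field_simp
  · rw [XC, clp_of_le (by rw [ht]; linarith)]
    ring

theorem glueg_AB {p : E} (h : rho p = 49) (h' : xp p ≤ 50) :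
    tauA p = 0 ∧ xiA p = 1 - vB p ∧ 0 ≤ 1 - vB p ∧ sB p = sx p ∧ sx p ^ 2 = 1 := by
  have hz := ze_nonneg p
  have e : xp p = 1 + ze p := by
    rw [rho, abs_of_nonpos (by linarith)] at h
    linarith
  obtain ⟨s, hs, e1, e2⟩ := glueg_sgn p
  have e3 : sx p = s := glueg_sx hs (by linarith)
  refine ⟨tauA_eq_zero h.ge, ?_, ?_, ?_, ?_⟩
  · rw [xiA, h, clp_of_ge (by norm_num) le_rfl, e, vB]
    ring
  · rw [vB]
    linarith
  · rw [sB, e3, e2, e]
    field_simp
  · rw [e3]
    rcases hs with rfl | rfl <;> norm_num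

theorem glueg_AC {p : E} (h : rho p = 49) (h' : 49 ≤ ze p + pl p) :
    tauA p = 0 ∧ xiA p = rC p - 1 ∧ rC p - 1 ≤ 0 ∧ sC p = sx p ∧ sx p ^ 2 = 1 ∧
      ze p + pl p ≤ 49 ∧ -1 ≤ t1 p := by
  have hz := ze_nonneg p
  have h1 := ze_add_pl_le p
  have hx : 50 ≤ xp p := by
    by_contra hc
    push Not at hc
    rw [rho, abs_of_neg (by linarith)] at h
    rw [pl, max_eq_right (by linarith)] at h'
    linarith
  have e1 : pl p = xp p - 50 := max_eq_left (by linarith)
  have e2 : ze p = 99 - xp p := by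
    rw [rho, abs_of_nonneg (by linarith)] at h
    linarith
  have e3 : zt p = ze p := min_eq_left (by linarith)
  have e4 : rC p = ze p / 49 := by rw [rC, e3, max_eq_right (by linarith)]
  obtain ⟨s, hs, e5, e6⟩ := glueg_sgn p
  have e7 : sx p = s := glueg_sx hs (by linarith)
  have e8 : sC p = s := by
    rcases hs with rfl | rfl
    · exact clp_of_ge (by norm_num) (by linarith)
    · exact clp_of_le (by linarith)
  have e9 : s ^ 2 = 1 := by rcases hs with rfl | rfl <;> norm_num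
  refine ⟨tauA_eq_zero h.ge, ?_, ?_, e8.trans e7.symm, by rw [e7, e9], by linarith, ?_⟩
  · rw [xiA, h, clp_of_ge (by norm_num) le_rfl, e4, e2]
    ring
  · rw [e4]
    linarith
  · have h2 : 0 ≤ rC p := by rw [e4]; positivity
    have h3 : rC p ≤ 1 := by rw [e4]; linarith
    rw [t1, e8, e9]
    nlinarith

theorem glueg_BC {p : E} (h : 49 < rho p) (h' : ze p + pl p = 49) :
    vB p = 1 ∧ rC p = 1 ∧ sB p = sC p ∧ -1 ≤ t1 p := by
  have hx : xp p < 50 := by
    by_contra hc
    push Not at hc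
    rw [rho, abs_of_nonneg (by linarith)] at h
    rw [pl, max_eq_left (by linarith)] at h'
    linarith
  have e1 : pl p = 0 := max_eq_right (by linarith)
  have e2 : ze p = 49 := by linarith
  have e3 : zt p = 49 := by rw [zt, e2]; exact min_eq_left (by linarith)
  have e4 : rC p = 1 := by rw [rC, e3, e1]; norm_num
  have h1 := le_abs_self (p 0)
  have h2 := neg_abs_le (p 0)
  have e5 : sC p = p 0 / 50 := by
    unfold xp at hx
    exact clp_of_mem (by linarith) (by linarith)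
  refine ⟨by rw [vB, e2]; norm_num, e4, by rw [sB, e5, e2]; norm_num, ?_⟩
  have h3 : sC p ≤ 1 := clp_le (by norm_num) _
  have h4 : -1 ≤ sC p := le_clp _ _ _
  rw [t1, e4]
  nlinarith

theorem glueg_out {p : E} (h : 150 ≤ xp p + ze p) : 100 ≤ ze p + pl p ∧ tauC p = 2 ∧ tauA p = 0 ∧
    XC p = 2 / 25 * p 0 ∧ YY p = 1 / 90 * p 1 := by
  have h0 : 100 ≤ ze p + pl p := by
    have h1 : xp p - 50 ≤ pl p := le_max_left _ _
    linarith
  have h1 := ze_add_pl_le p
  have ht : thC p = 1 := by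
    refine clp_of_ge (by norm_num) ?_
    rw [le_div_iff₀ (by linarith [min_le_right (xp p) 50])]
    rcases le_total (xp p) 50 with hx | hx
    · rw [min_eq_left hx]
      linarith [pl_nonneg p]
    · rw [min_eq_right hx]
      linarith
  have ht' : tauC p = 2 := by rw [tauC, ht]; ring
  have e3 : zt p = 150 - xp p := min_eq_right (by linarith)
  refine ⟨h0, ht', tauA_eq_zero (by linarith), ?_, ?_⟩
  · rw [XC, ht', clp_of_ge (by norm_num) (by norm_num), rC, e3]
    rcases le_total (xp p) 50 with hx | hx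
    · have h2 := le_abs_self (p 0)
      have h3 := neg_abs_le (p 0)
      have e5 : sC p = p 0 / 50 := by
        unfold xp at hx
        exact clp_of_mem (by linarith) (by linarith)
      rw [e5, pl, max_eq_right (show xp p - 50 ≤ 0 by linarith), zero_add,
        max_eq_left (by linarith), div_self (by linarith)]
      ring
    · obtain ⟨s, hs, e5, e6⟩ := glueg_sgn p
      have e8 : sC p = s := by
        rcases hs with rfl | rfl
        · exact clp_of_ge (by norm_num) (by linarith)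
        · exact clp_of_le (by linarith)
      rw [e8, pl, max_eq_left (show 0 ≤ xp p - 50 by linarith), max_eq_left (by linarith)]
      conv_rhs => rw [e6]
      rw [show xp p - 50 + (150 - xp p) = 100 by ring]
      ring
  · have e : hh p = 90 := by
      refine clp_of_ge (by norm_num) (le_min ?_ (by linarith))
      unfold rho at h1
      linarith
    rw [YY, e]
    ring

theorem glueg_inn {s : ℝ} (hs : s = 1 ∨ s = -1) {p : E} (h : rho p ≤ 48) (h' : 1 ≤ s * p 0) :
    tauA p = 2 ∧ tauC p ≤ 0 ∧ sx p = s ∧ xiA p = -(s * p 0 - 50) / 48 ∧ YY p = 1 / 80 * p 1 := by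
  have h1 := ze_add_pl_le p
  refine ⟨by rw [tauA, clp_of_le h]; norm_num, tauC_nonpos (by linarith), glueg_sx hs h', ?_, ?_⟩
  · rw [xiA, clp_of_le h, xp]
    rcases hs with rfl | rfl
    · rw [abs_of_nonneg (by linarith), one_mul]
    · rw [abs_of_nonpos (by linarith), neg_one_mul]
  · have e : hh p = 80 := by
      refine clp_of_le ((min_le_left _ _).trans ?_)
      unfold rho at h
      linarith
    rw [YY, e]
    ring

theorem glueg_grad0 {f : E → ℝ} {p : E} {a b : ℝ} (h : ∀ᶠ y in 𝓝 p, f y = a * y 0 + b) :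
    ∇ f p = a • ex :=
  ((((Jet.c0 p).const_mul a).add_const b).congr h).2

theorem glueg_grad1 {f : E → ℝ} {p : E} {a : ℝ} (h : ∀ᶠ y in 𝓝 p, f y = a * y 1) :
    ∇ f p = a • ey :=
  (((Jet.c1 p).const_mul a).congr h).2

/-- `ll_glue3`.  On `rho = 49`: `tauA = 0`, `thC = 0`, `tauC = t1 ∈ [-1/4, 0]`, `zt = ze`.  If moreover
`ze + pl ≤ 49` then `xp ≤ 50`, `xp = 1 + ze`, `sB = sx = ± 1`, `xiA = 1 - vB`; if `ze + pl ≥ 49` then
either `xp ≥ 50` (`sC = sx = ± 1`, `xiA = rC - 1`, `rC = ze/49`) or `xp = 50`.  On `ze + pl = 49`,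
`rho ≥ 49`: either `xp ≤ 50`, `ze = 49`, `sB = sC`, `vB = rC = 1`, or `xp > 50`, and then ... `rho = 49`
and the value of `glue3` is the first one, so only `49 < rho` has to be treated. -/
theorem gLL (C : Casc 1000) : LocallyLipschitz (gPh C) ∧ LocallyLipschitz (gD C) ∧
    CLLL (gL1 C) ∧ CLLL (gL2 C) := by
  have hτ : LocallyLipschitz fun p => 1 + 3 * tauA p :=
    LL.add (LL.const _) (LL.mul (LL.const _) ll_tauA)
  have hPh : LocallyLipschitz (gPh C) := by
    refine glueg_ll3 (LL.add (LL.mul (LL.const _) hτ) (C.llD.comp ll_wA)) ll_PhB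
      (LL.mul (LL.const _) ll_tauC) (fun p h h' => ?_) (fun p h h' => ?_) (fun p h h' => ?_)
    · obtain ⟨h1, h2, h3, h4, h5⟩ := glueg_AB h h'
      rw [(glueg_A0 C h1).1, h1, fA, h2, abs_of_nonneg h3, PhB, h4, h5]
      ring
    · obtain ⟨h1, h2, h3, h4, h5, h6, h7⟩ := glueg_AC h h'
      rw [(glueg_A0 C h1).1, h1, fA, h2, abs_of_nonpos h3, (glueg_C0 C h6 h7).1, t1, h4, h5]
      ring
    · obtain ⟨h1, h2, h3, h4⟩ := glueg_BC h h'
      rw [PhB, h1, h3, (glueg_C0 C h'.le h4).1, t1, h2]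
      ring
  have hD : LocallyLipschitz (gD C) := by
    refine glueg_ll3 (LL.mul ll_sx hτ) ll_sB (C.llD.comp ll_wC)
      (fun p h h' => ?_) (fun p h h' => ?_) (fun p h h' => ?_)
    · obtain ⟨h1, h2, h3, h4, h5⟩ := glueg_AB h h'
      rw [h1, h4]
      ring
    · obtain ⟨h1, h2, h3, h4, h5, h6, h7⟩ := glueg_AC h h'
      rw [h1, (glueg_C0 C h6 h7).2.1, h4]
      ring
    · obtain ⟨h1, h2, h3, h4⟩ := glueg_BC h h'
      rw [(glueg_C0 C h'.le h4).2.1, h3]
  have hX : LocallyLipschitz (gX C) := by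
    refine glueg_ll3 (LL.mul ll_sx (LL.add (LL.mul (LL.const _) (LL.sub (LL.const _) ll_xiA))
      (LL.div_const (C.llP1.comp ll_wA) _))) ll_XB ll_XC
      (fun p h h' => ?_) (fun p h h' => ?_) (fun p h h' => ?_)
    · obtain ⟨h1, h2, h3, h4, h5⟩ := glueg_AB h h'
      rw [(glueg_A0 C h1).2, FA, h2, abs_of_nonneg h3, XB, h4]
      ring
    · obtain ⟨h1, h2, h3, h4, h5, h6, h7⟩ := glueg_AC h h'
      rw [(glueg_A0 C h1).2, FA, h2, abs_of_nonpos h3, (glueg_C0 C h6 h7).2.2.2, h4]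
      ring
    · obtain ⟨h1, h2, h3, h4⟩ := glueg_BC h h'
      rw [XB, h1, h3, (glueg_C0 C h'.le h4).2.2.2, h2]
      ring
  have hPs : LocallyLipschitz (gPs C) := by
    refine glueg_ll3 (LL.add (LL.const _) ll_xiA) (LL.sub (LL.const _) ll_vB)
      (LL.div_const (C.llP1.comp ll_wC) _)
      (fun p h h' => ?_) (fun p h h' => ?_) (fun p h h' => ?_)
    · obtain ⟨h1, h2, h3, h4, h5⟩ := glueg_AB h h'
      rw [h2]
      ring
    · obtain ⟨h1, h2, h3, h4, h5, h6, h7⟩ := glueg_AC h h'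
      rw [h2, (glueg_C0 C h6 h7).2.2.1]
      ring
    · obtain ⟨h1, h2, h3, h4⟩ := glueg_BC h h'
      rw [h1, (glueg_C0 C h'.le h4).2.2.1, h2]
      ring
  refine ⟨hPh, hD, ?_, ?_⟩
  · intro q hq
    simp only [gL1, List.mem_cons, List.not_mem_nil, or_false] at hq
    rcases hq with rfl | rfl | rfl
    · exact ⟨hX, ll_YY⟩
    · exact ⟨ll_xiA, LL.div_const (LL.mul ll_sx (C.llP2.comp ll_wA)) _⟩
    · exact ⟨LL.div_const (LL.mul ll_sx (C.llX.comp ll_wA)) _, ll_tauA⟩
  · intro q hq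
    simp only [gL2, List.mem_cons, List.not_mem_nil, or_false] at hq
    rcases hq with rfl | rfl | rfl
    · exact ⟨hPs, ll_YY⟩
    · exact ⟨ll_xiC, LL.div_const (C.llP2.comp ll_wC) _⟩
    · exact ⟨LL.div_const (C.llX.comp ll_wC) _, ll_tauC⟩

/-- Outside: `thC = 1`, `tauC = 2`, `tauA = 0`, `XC = 2 x / 25`, `YY = y / 90`. -/
theorem g_out (C : Casc 1000) {p : E} (h : 150 ≤ xp p + ze p) : gPh C p = 48 ∧ gD C p = 0 ∧
    (150 < xp p + ze p → cl (gL1 C) p = (1 / 1125 : ℝ) • ez ∧ cl (gL2 C) p = (0 : ℝ) • ez) := by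
  have hC : ∀ (a b c : E → ℝ) (y : E), 150 ≤ xp y + ze y → glue3 a b c y = c y :=
    fun a b c y hy => (glue3_C (by linarith [(glueg_out hy).1])).eq_of_nhds
  have hT : ∀ y : E, 150 ≤ xp y + ze y → C.D (wC y) = 0 ∧ C.P1 (wC y) = 0 ∧ C.P2 (wC y) = 0 ∧
      C.X (wC y) = 0 := fun y hy => C.top _ _ _ _ _ (glueg_out hy).2.1.ge
  have hB : ∀ y : E, 150 ≤ xp y + ze y → C.P2 (wA y) = 0 ∧ C.X (wA y) = 0 := fun y hy =>
    have h1 := C.bot (xiA y) (YY y) (tauA y) (fA y) (FA y) (glueg_out hy).2.2.1.le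
    ⟨h1.1, h1.2.1⟩
  refine ⟨?_, ?_, fun h' => ?_⟩
  · rw [gPh, hC _ _ _ p h, (glueg_out h).2.1]
    norm_num
  · rw [gD, hC _ _ _ p h, (hT p h).1]
  · have hev : ∀ᶠ y in 𝓝 p, 150 ≤ xp y + ze y :=
      (continuousAt_const.eventually_lt (ll_xp.continuous.add ll_ze.continuous).continuousAt
        h').mono fun y hy => le_of_lt hy
    have g1 : ∇ (gX C) p = (2 / 25 : ℝ) • ex := glueg_grad0 (b := 0) (hev.mono fun y hy => by
      rw [gX, hC _ _ _ y hy, (glueg_out hy).2.2.2.1, add_zero])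
    have g2 : ∇ YY p = (1 / 90 : ℝ) • ey := glueg_grad1 (hev.mono fun y hy => (glueg_out hy).2.2.2.2)
    have g3 : ∇ (fun y => sx y * C.P2 (wA y) / 3) p = 0 :=
      grad_of_eventually_const (c := 0) (hev.mono fun y hy => by rw [(hB y hy).1]; simp)
    have g4 : ∇ (fun y => sx y * C.X (wA y) / 3) p = 0 :=
      grad_of_eventually_const (c := 0) (hev.mono fun y hy => by rw [(hB y hy).2]; simp)
    have g5 : ∇ (gPs C) p = 0 :=
      grad_of_eventually_const (c := 0) (hev.mono fun y hy => by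
        rw [gPs, hC _ _ _ y hy, (hT y hy).2.1, zero_div])
    have g6 : ∇ (fun y => C.P2 (wC y) / 2) p = 0 :=
      grad_of_eventually_const (c := 0) (hev.mono fun y hy => by rw [(hT y hy).2.2.1, zero_div])
    have g7 : ∇ (fun y => C.X (wC y) / 2) p = 0 :=
      grad_of_eventually_const (c := 0) (hev.mono fun y hy => by rw [(hT y hy).2.2.2, zero_div])
    constructor
    · simp only [gL1, cl_cons, cl_nil, g1, g2, g3, g4, cr_zero_left, cr_zero_right, add_zero]
      vec3
    · simp only [gL2, cl_cons, cl_nil, g5, g6, g7, cr_zero_left, cr_zero_right, add_zero, zero_smul]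

/-- In a child: `tauA = 2`, `tauC ≤ 0`, `sx = s`, `gX = 6 s + (x - 50 s)/8`,
`gPs = 1 - (s x - 50)/48`, `YY = y / 80`. -/
theorem g_inn (C : Casc 1000) {s : ℝ} (hs : s = 1 ∨ s = -1) {p : E} (h : p ∈ CC s) :
    gPh C p = -42 ∧ gD C p = 7 * s ∧
    (rho p < 48 → cl (gL1 C) p = (1 / 640 : ℝ) • ez ∧ cl (gL2 C) p = (-s / 3840) • ez) := by
  have hρ : rho p ≤ 48 := (rho_le_iff p).2 (by
    rcases hs with rfl | rfl
    exacts [Or.inl h, Or.inr h])
  have hx : 2 ≤ s * p 0 := by
    have h1 : |p 0 - 50 * s| + |p 2| ≤ 48 := h.1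
    have h2 := abs_nonneg (p 2)
    have h3 := le_abs_self (p 0 - 50 * s)
    have h4 := neg_abs_le (p 0 - 50 * s)
    rcases hs with rfl | rfl <;> linarith
  have hs2 : s * s = 1 := by rcases hs with rfl | rfl <;> norm_num
  have hA : ∀ (a b c : E → ℝ) (y : E), rho y ≤ 48 → glue3 a b c y = a y :=
    fun a b c y hy => if_pos (by linarith)
  have hT : ∀ y : E, rho y ≤ 48 → 1 ≤ s * y 0 → C.D (wA y) = 0 ∧ C.P1 (wA y) = 0 ∧
      C.P2 (wA y) = 0 ∧ C.X (wA y) = 0 := fun y hy hy' =>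
    C.top _ _ _ _ _ (glueg_inn hs hy hy').1.ge
  have hB : ∀ y : E, rho y ≤ 48 → 1 ≤ s * y 0 → C.P2 (wC y) = 0 ∧ C.X (wC y) = 0 := fun y hy hy' =>
    have h1 := C.bot (xiC y) (YY y) (tauC y) (fC y) (FC y) (glueg_inn hs hy hy').2.1
    ⟨h1.1, h1.2.1⟩
  have hx1 : 1 ≤ s * p 0 := by linarith
  refine ⟨?_, ?_, fun h' => ?_⟩
  · rw [gPh, hA _ _ _ p hρ, (hT p hρ hx1).1, (glueg_inn hs hρ hx1).1]
    norm_num
  · rw [gD, hA _ _ _ p hρ, (glueg_inn hs hρ hx1).1, (glueg_inn hs hρ hx1).2.2.1]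
    ring
  · have hev : ∀ᶠ y in 𝓝 p, rho y ≤ 48 ∧ 1 ≤ s * y 0 := by
      have c1 : Continuous fun y : E => s * y 0 := continuous_const.mul (LL.coord 0).continuous
      filter_upwards [ll_rho.continuous.continuousAt.eventually_lt continuousAt_const h',
        continuousAt_const.eventually_lt c1.continuousAt (show 1 < s * p 0 by linarith)]
        with y h1 h2
      exact ⟨h1.le, h2.le⟩
    have g1 : ∇ (gX C) p = (1 / 8 : ℝ) • ex :=
      glueg_grad0 (b := 6 * s - 50 * s / 8) (hev.mono fun y hy => by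
        rw [gX, hA _ _ _ y hy.1, (hT y hy.1 hy.2).2.1, (glueg_inn hs hy.1 hy.2).2.2.1,
          (glueg_inn hs hy.1 hy.2).2.2.2.1]
        linear_combination (y 0 / 8) * hs2)
    have g2 : ∇ YY p = (1 / 80 : ℝ) • ey :=
      glueg_grad1 (hev.mono fun y hy => (glueg_inn hs hy.1 hy.2).2.2.2.2)
    have g3 : ∇ (fun y => sx y * C.P2 (wA y) / 3) p = 0 :=
      grad_of_eventually_const (c := 0) (hev.mono fun y hy => by
        rw [(hT y hy.1 hy.2).2.2.1]; simp)
    have g4 : ∇ (fun y => sx y * C.X (wA y) / 3) p = 0 :=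
      grad_of_eventually_const (c := 0) (hev.mono fun y hy => by
        rw [(hT y hy.1 hy.2).2.2.2]; simp)
    have g5 : ∇ (gPs C) p = (-s / 48) • ex :=
      glueg_grad0 (b := 1 + 50 / 48) (hev.mono fun y hy => by
        rw [gPs, hA _ _ _ y hy.1, (glueg_inn hs hy.1 hy.2).2.2.2.1]
        ring)
    have g6 : ∇ (fun y => C.P2 (wC y) / 2) p = 0 :=
      grad_of_eventually_const (c := 0) (hev.mono fun y hy => by rw [(hB y hy.1 hy.2).1, zero_div])
    have g7 : ∇ (fun y => C.X (wC y) / 2) p = 0 :=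
      grad_of_eventually_const (c := 0) (hev.mono fun y hy => by rw [(hB y hy.1 hy.2).2, zero_div])
    constructor
    · simp only [gL1, cl_cons, cl_nil, g1, g2, g3, g4, cr_zero_left, cr_zero_right, add_zero]
      vec3
    · simp only [gL2, cl_cons, cl_nil, g2, g5, g6, g7, cr_zero_left, cr_zero_right, add_zero]
      vec3

end Crest.Agent.R083
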