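import Crest.Agent.R083.Basic

/-! Row 83: gluing Lipschitz functions; generic points. -/

set_option autoImplicit false

namespace Crest.Agent.R083

open MeasureTheory Filter Topology Set
open scoped Gradient RealInnerProductSpace

/-- A pointwise local Lipschitz bound on a convex set is a global one. -/
theorem gluelip_convex {B : Set E} (hB : Convex ℝ B) {f : E → ℝ} {L : ℝ}
    (h : ∀ x ∈ B, ∀ᶠ y in 𝓝 x, |f y - f x| ≤ L * ‖y - x‖) {x y : E} (hx : x ∈ B) (hy : y ∈ B) :
    |f y - f x| ≤ L * ‖y - x‖ := by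
  have hcont : ∀ z ∈ B, ContinuousAt f z := by
    intro z hz
    rw [ContinuousAt, tendsto_iff_norm_sub_tendsto_zero]
    refine squeeze_zero' (.of_forall fun _ => norm_nonneg _) (h z hz) ?_
    have : Tendsto (fun y : E => L * ‖y - z‖) (𝓝 z) (𝓝 (L * ‖z - z‖)) :=
      Continuous.tendsto (by fun_prop) z
    simpa using this
  let γ : ℝ → E := fun t => x + t • (y - x)
  have hγ : Continuous γ := by fun_prop
  have hγB : ∀ t ∈ Icc (0 : ℝ) 1, γ t ∈ B := fun t ht => hB.add_smul_sub_mem hx hy ht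
  let S : Set ℝ := {t | |f (γ t) - f x| ≤ L * ‖y - x‖ * t}
  have hS : IsClosed (S ∩ Icc 0 1) := by
    have h1 : ContinuousOn (fun t => |f (γ t) - f x|) (Icc 0 1) := fun t ht =>
      ((((hcont _ (hγB t ht)).comp hγ.continuousAt).sub continuousAt_const).abs).continuousWithinAt
    have := isClosed_Icc.isClosed_le h1 (g := fun t => L * ‖y - x‖ * t) (by fun_prop)
    convert this using 1
    ext t; simp only [S, mem_inter_iff, mem_ofPred_eq]; tauto
  have h1 : (1 : ℝ) ∈ S := by
    refine hS.mem_of_ge_of_forall_exists_gt (by simp [S, γ]) zero_le_one ?_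
    rintro t ⟨ht, ht0, ht1⟩
    have e1 : ∀ᶠ s in 𝓝[>] t, |f (γ s) - f (γ t)| ≤ L * ‖γ s - γ t‖ :=
      nhdsWithin_le_nhds (hγ.continuousAt.eventually (h _ (hγB t ⟨ht0, ht1.le⟩)))
    obtain ⟨s, hs, hs'⟩ := (e1.and (Ioc_mem_nhdsGT ht1)).exists
    refine ⟨s, ?_, hs'⟩
    have e2 : γ s - γ t = (s - t) • (y - x) := by simp only [γ]; module
    rw [e2, norm_smul, Real.norm_of_nonneg (by linarith [hs'.1])] at hs
    have ht' : |f (γ t) - f x| ≤ L * ‖y - x‖ * t := ht
    have := abs_sub_le (f (γ s)) (f (γ t)) (f x)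
    show |f (γ s) - f x| ≤ L * ‖y - x‖ * s
    linarith
  simpa [S, γ] using h1

/-- Gluing along a finite closed cover.  On a ball where all `g i` are `K`-Lipschitz, argue on a
segment by induction on the number of sets: if `x ∈ K i`, let `z` be the last point of the segment
`[x, y]` in `K i`; the rest `[z, y]` is covered by the other (closed) sets. -/
theorem ll_of_cover {ι : Type*} [Finite ι] {K : ι → Set E} (hK : ∀ i, IsClosed (K i))
    (hc : ∀ x, ∃ i, x ∈ K i) {f : E → ℝ} {g : ι → E → ℝ} (hg : ∀ i, LocallyLipschitz (g i))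
    (h : ∀ i, ∀ x ∈ K i, f x = g i x) : LocallyLipschitz f := by
  intro x0
  choose Kc g' hg' hgg using fun i => LL.ext (hg i) (‖x0‖ + 1)
  obtain ⟨L, hL⟩ := Finite.exists_le Kc
  refine ⟨L, Metric.ball 0 (‖x0‖ + 1), Metric.isOpen_ball.mem_nhds (by simp), ?_⟩
  refine LipschitzOnWith.of_dist_le_mul fun y hy x hx => ?_
  rw [Real.dist_eq, dist_eq_norm]
  refine gluelip_convex (convex_ball _ _) (fun z hz => ?_) hx hy
  have h1 : ∀ᶠ w in 𝓝 z, ∀ i, z ∉ K i → w ∉ K i := by
    refine eventually_all.2 fun i => ?_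
    by_cases hz' : z ∈ K i
    · exact .of_forall fun _ h' => absurd hz' h'
    · exact Filter.mem_of_superset ((hK i).isOpen_compl.mem_nhds hz') fun _ hw _ => hw
  filter_upwards [h1, Metric.isOpen_ball.mem_nhds hz] with w hw hw'
  obtain ⟨i, hi⟩ := hc w
  have hzi : z ∈ K i := by_contra fun h' => hw i h' hi
  rw [h i w hi, h i z hzi, ← hgg i w (Metric.ball_subset_closedBall hw'),
    ← hgg i z (Metric.ball_subset_closedBall hz), ← Real.dist_eq, ← dist_eq_norm]
  exact ((hg' i).weaken (hL i)).dist_le_mul w z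

/-- Level sets are null away from singular points (Lebesgue density,
`Besicovitch.ae_tendsto_measure_inter_div`: at a point with non-zero gradient a ball of radius
`r/4` inside the ball of radius `r` misses the level set; or Fubini along coordinate lines). -/
theorem ae_gen {N : Set ℝ} (hN : N.Countable) {φ : E → ℝ} (hφ : Continuous φ) :
    ∀ᵐ p : E, Gen N φ p := by
  have key : ∀ c : ℝ, ∀ᵐ p : E, p ∈ {p | φ p = c ∧ DifferentiableAt ℝ φ p} → ∇ φ p = 0 := by
    intro c
    have hs : MeasurableSet {p | φ p = c ∧ DifferentiableAt ℝ φ p} :=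
      (isClosed_eq hφ continuous_const).measurableSet.inter (measurableSet_of_differentiableAt ℝ φ)
    have hA : ApproximatesLinearOn (fun y => φ y • ex) (0 : E →L[ℝ] E)
        {p | φ p = c ∧ DifferentiableAt ℝ φ p} 0 := by
      intro x hx y hy
      simp [hx.1, hy.1]
    have := hA.norm_fderiv_sub_le volume hs (fun x => (fderiv ℝ φ x).smulRight ex)
      fun x hx => (hx.2.hasFDerivAt.smul_const ex).hasFDerivWithinAt
    rw [ae_restrict_iff' hs] at this
    filter_upwards [this] with p hp hp'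
    have h1 : (fderiv ℝ φ p).smulRight ex = 0 := by
      have := hp hp'
      rwa [sub_zero, nonpos_iff_eq_zero, nnnorm_eq_zero] at this
    have h2 := congrArg norm h1
    rw [ContinuousLinearMap.norm_smulRight_apply, norm_ex, mul_one, norm_zero, ← norm_grad] at h2
    exact norm_eq_zero.1 h2
  filter_upwards [(ae_ball_iff hN).2 fun c _ => key c] with p hp hd hne hmem
  exact hne (hp _ hmem ⟨rfl, hd⟩)

/-- Almost every point avoids all these (countably many, piecewise) hyperplanes. -/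
theorem ae_int : ∀ᵐ p : E, ∀ a b c d : ℤ, (a ≠ 0 ∨ b ≠ 0 ∨ c ≠ 0) →
    (a : ℝ) * |p 0| + b * |p 1| + c * |p 2| ≠ d := by
  have key : ∀ᵐ p : E, ∀ q : ℤ × ℤ × ℤ, Gen (range (Int.cast : ℤ → ℝ))
      (fun y => (q.1 : ℝ) * y 0 + q.2.1 * y 1 + q.2.2 * y 2) p :=
    ae_all_iff.2 fun q => ae_gen (countable_range _) (by fun_prop)
  filter_upwards [key] with p hp
  have h1 : ∀ a b c d : ℤ, (a ≠ 0 ∨ b ≠ 0 ∨ c ≠ 0) → (a : ℝ) * p 0 + b * p 1 + c * p 2 ≠ d := by
    intro a b c d hne e
    have j := (((Jet.c0 p).const_mul a).add ((Jet.c1 p).const_mul b)).add ((Jet.c2 p).const_mul c)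
    refine hp (a, b, c) j.diff ?_ ⟨d, e.symm⟩
    rw [j.2]
    intro h0
    have e0 := congrArg (fun v : E => v 0) h0
    have e1 := congrArg (fun v : E => v 1) h0
    have e2 := congrArg (fun v : E => v 2) h0
    simp at e0 e1 e2
    tauto
  intro a b c d hne e
  have hs : ∀ t : ℝ, ∃ s : ℤ, s ≠ 0 ∧ |t| = s * t := fun t => by
    rcases abs_choice t with h | h
    exacts [⟨1, one_ne_zero, by simpa using h⟩, ⟨-1, by norm_num, by simpa using h⟩]
  obtain ⟨s0, h0, h0'⟩ := hs (p 0)
  obtain ⟨s1, h1', h1''⟩ := hs (p 1)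
  obtain ⟨s2, h2, h2'⟩ := hs (p 2)
  refine h1 (a * s0) (b * s1) (c * s2) d ?_ ?_
  · simpa [h0, h1', h2] using hne
  · rw [h0', h1'', h2'] at e
    push_cast
    linarith

end Crest.Agent.R083
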