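import Crest.Agent.R083.NL
import Crest.Agent.R083.GlueLip

/-! Row 83: the port measure. -/

set_option autoImplicit false

namespace Crest.Agent.R083

open MeasureTheory Filter Topology Set
open scoped Gradient RealInnerProductSpace

noncomputable section

/-- Height of the cell. -/
def portH (p : E) : ℝ := min (150 - |p 0|) (90 - |p 1|)
/-- Clamped height coordinate. -/
def portC (p : E) : ℝ := max (-max (portH p) 0) (min (p 2) (max (portH p) 0))
/-- Vertical projection to the cell. -/
def portP (p : E) : E := p + (portC p - p 2) • ez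
/-- The layer above and below the cell. -/
def portA : Set E := {p | 0 < portH p ∧ portH p < |p 2| ∧ |p 2| < portH p + 1}
/-- The test function. -/
def portG (F : E → ℝ) (p : E) : ℝ := F (portP p) * clp 0 1 (max (portH p) 0 + 1 - |p 2|)

end

theorem port_mem (p : E) : p ∈ PP ↔ |p 2| ≤ portH p := by
  simp only [PP, mem_ofPred_eq, portH, le_min_iff]
  constructor <;> rintro ⟨a, b⟩ <;> constructor <;> linarith

theorem port_llH : LocallyLipschitz portH :=
  LL.min (LL.sub (LL.const _) (LL.abs (LL.coord 0))) (LL.sub (LL.const _) (LL.abs (LL.coord 1)))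

theorem port_llC : LocallyLipschitz portC :=
  LL.max (LL.neg (LL.max port_llH (LL.const _)))
    (LL.min (LL.coord 2) (LL.max port_llH (LL.const _)))

theorem port_llP : LocallyLipschitz portP := by
  have h1 : LocallyLipschitz fun p : E => (portC p - p 2) • ez :=
    (ContinuousLinearMap.toSpanSingleton ℝ ez).lipschitz.locallyLipschitz.comp
      (LL.sub port_llC (LL.coord 2))
  exact LocallyLipschitz.id.add h1

theorem port_P0 (p : E) : portP p 0 = p 0 := by simp [portP]
theorem port_P1 (p : E) : portP p 1 = p 1 := by simp [portP]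
theorem port_P2 (p : E) : portP p 2 = portC p := by simp [portP]
theorem port_HP (p : E) : portH (portP p) = portH p := by simp only [portH, port_P0, port_P1]

theorem port_H_add (p : E) (t : ℝ) : portH (p + t • ez) = portH p := by simp [portH]

theorem port_C_A {p : E} (hp : p ∈ portA) : portC p = sg (p 2) * portH p := by
  obtain ⟨h1, h2, -⟩ := hp
  rw [portC, max_eq_left h1.le, sg]
  split_ifs with h
  · rw [abs_of_pos h] at h2
    rw [min_eq_right h2.le, max_eq_right (by linarith), one_mul]
  · rw [abs_of_nonpos (not_lt.1 h)] at h2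
    rw [max_eq_left ((min_le_left _ _).trans (by linarith)), neg_one_mul]

theorem port_isOpen : IsOpen portA := by
  have h1 := port_llH.continuous
  have h2 := (LL.abs (LL.coord 2)).continuous
  exact (isOpen_lt continuous_const h1).inter
    ((isOpen_lt h1 h2).inter (isOpen_lt h2 (h1.add continuous_const)))

theorem port_isClosed : IsClosed PP := by
  have : PP = {p : E | |p 2| ≤ portH p} := Set.ext port_mem
  rw [this]
  exact isClosed_le (LL.abs (LL.coord 2)).continuous port_llH.continuous

theorem port_norm {p : E} (h1 : 0 ≤ portH p) (h2 : |p 2| ≤ portH p + 1) : ‖p‖ ≤ 300 := by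
  have a0 : portH p ≤ 150 - |p 0| := min_le_left _ _
  have a1 : portH p ≤ 90 - |p 1| := min_le_right _ _
  have b0 := abs_nonneg (p 0)
  have b1 := abs_nonneg (p 1)
  have b2 := abs_nonneg (p 2)
  refine (abs_le_of_sq_le_sq' ?_ (by norm_num)).2
  rw [norm_sq3, ← sq_abs (p 0), ← sq_abs (p 1), ← sq_abs (p 2)]
  nlinarith

theorem port_bddA : Bornology.IsBounded portA :=
  (Metric.isBounded_closedBall (x := (0 : E)) (r := 300)).subset fun p hp => by
    simpa using port_norm hp.1.le hp.2.2.le

theorem port_normPP {p : E} (hp : p ∈ PP) : ‖p‖ ≤ 300 := by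
  rw [port_mem] at hp
  exact port_norm ((abs_nonneg _).trans hp) (by linarith)

theorem port_bddPP : Bornology.IsBounded PP :=
  (Metric.isBounded_closedBall (x := (0 : E)) (r := 300)).subset fun p hp => by
    simpa using port_normPP hp

theorem port_PA {p : E} (hp : p ∈ portA) : |portP p 2| = portH (portP p) := by
  rw [port_P2, port_HP, port_C_A hp, abs_mul, abs_of_pos hp.1]
  rcases sg_cases (p 2) with h | h <;> rw [h] <;> simp

theorem port_llG {F : E → ℝ} (hF : LocallyLipschitz F) : LocallyLipschitz (portG F) :=
  LL.mul (hF.comp port_llP) (LL.clp _ _ (LL.sub (LL.add (LL.max port_llH (LL.const _))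
    (LL.const _)) (LL.abs (LL.coord 2))))

theorem port_G_neg {F : E → ℝ} (h0 : ∀ p : E, p 2 = 0 → F p = 0) {p : E} (h : portH p ≤ 0) :
    portG F p = 0 := by
  rw [portG, h0, zero_mul]
  rw [port_P2, portC, max_eq_right h, neg_zero]
  exact max_eq_left (min_le_right _ _)

theorem port_G_far {F : E → ℝ} (h0 : ∀ p : E, p 2 = 0 → F p = 0) {p : E}
    (h : portH p + 1 ≤ |p 2|) : portG F p = 0 := by
  rcases le_total (portH p) 0 with h1 | h1
  · exact port_G_neg h0 h1
  · rw [portG, max_eq_left h1, clp_of_le (by linarith), mul_zero]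

theorem port_G_in {F : E → ℝ} {p : E} (h : |p 2| ≤ portH p) : portG F p = F p := by
  have h1 : 0 ≤ portH p := (abs_nonneg _).trans h
  obtain ⟨h2, h3⟩ := abs_le.1 h
  have : portC p = p 2 := by
    rw [portC, max_eq_left h1, min_eq_left h3, max_eq_right h2]
  rw [portG, max_eq_left h1, clp_of_ge zero_le_one (by linarith), mul_one, portP, this, sub_self,
    zero_smul, add_zero]

theorem port_G_A {F : E → ℝ} {p : E} (hp : p ∈ portA) (hd : DifferentiableAt ℝ (portG F) p) :
    ⟪ez, ∇ (portG F) p⟫ = -(sg (p 2) * F (portP p)) := by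
  have hc : Continuous fun t : ℝ => p + t • ez := by fun_prop
  have hz : p 2 ≠ 0 := fun h => by
    have h1 := hp.1
    have h2 := hp.2.1
    rw [h, abs_zero] at h2
    linarith
  have h1 : HasDerivAt (fun t : ℝ => portG F (p + t • ez)) (fderiv ℝ (portG F) p ez) 0 :=
    hd.hasFDerivAt.hasLineDerivAt ez
  have h2 : HasDerivAt (fun t : ℝ => F (portP p) * (portH p + 1 - sg (p 2) * (p 2 + t)))
      (F (portP p) * (-(sg (p 2) * 1))) 0 :=
    ((((hasDerivAt_id (0 : ℝ)).const_add (p 2)).const_mul (sg (p 2))).const_sub _).const_mul _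
  have h3 : (fun t : ℝ => portG F (p + t • ez)) =ᶠ[𝓝 0]
      fun t : ℝ => F (portP p) * (portH p + 1 - sg (p 2) * (p 2 + t)) := by
    have e1 : ∀ᶠ t : ℝ in 𝓝 0, p + t • ez ∈ portA :=
      hc.continuousAt.eventually_mem (port_isOpen.mem_nhds (by simpa using hp))
    have e2 : ∀ᶠ t : ℝ in 𝓝 0, sg (p 2 + t) = sg (p 2 + 0) :=
      sg_eventually (f := fun t : ℝ => p 2 + t) (by fun_prop) (by simpa using hz)
    filter_upwards [e1, e2] with t ht hs
    have e3 : (p + t • ez) 2 = p 2 + t := by simp
    rw [add_zero] at hs
    have e4 : portP (p + t • ez) = portP p := by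
      refine ext3 ?_ ?_ ?_
      · simp [port_P0]
      · simp [port_P1]
      · rw [port_P2, port_P2, port_C_A ht, port_C_A hp, e3, hs, port_H_add]
    obtain ⟨k1, k2, k3⟩ := ht
    rw [portG, e4, max_eq_left k1.le, clp_of_mem (by linarith) (by linarith), port_H_add, e3,
      ← sg_mul_self, hs]
  have h4 := h1.unique (h2.congr_of_eventuallyEq h3)
  rw [real_inner_comm, inner_gradient_left, h4]
  ring

theorem port_ae : ∀ᵐ p : E, portH p ≠ 0 ∧ |p 2| ≠ portH p ∧ |p 2| ≠ portH p + 1 := by
  filter_upwards [ae_int] with p hp
  rcases min_choice (150 - |p 0|) (90 - |p 1|) with h | h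
  · rw [portH, h]
    exact ⟨fun e => hp 1 0 0 150 (by simp) (by push_cast; linarith),
      fun e => hp 1 0 1 150 (by simp) (by push_cast; linarith),
      fun e => hp 1 0 1 151 (by simp) (by push_cast; linarith)⟩
  · rw [portH, h]
    exact ⟨fun e => hp 0 1 0 90 (by simp) (by push_cast; linarith),
      fun e => hp 0 1 1 90 (by simp) (by push_cast; linarith),
      fun e => hp 0 1 1 91 (by simp) (by push_cast; linarith)⟩

theorem port_flux {F : E → ℝ} (hF : LocallyLipschitz F) (h0 : ∀ p : E, p 2 = 0 → F p = 0) :
    ∫ p in PP, ⟪ez, ∇ F p⟫ = ∫ p in portA, sg (p 2) * F (portP p) := by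
  have hG := port_llG hF
  have cH := port_llH.continuous
  have cz := (LL.abs (LL.coord 2)).continuous
  have hc : HasCompactSupport (portG F) := by
    refine HasCompactSupport.intro (isCompact_closedBall (0 : E) 300) fun p hp => ?_
    by_contra hn
    refine hp ?_
    have h1 : 0 ≤ portH p := by
      by_contra h; exact hn (port_G_neg h0 (not_le.1 h).le)
    have h2 : |p 2| ≤ portH p + 1 := by
      by_contra h; exact hn (port_G_far h0 (not_le.1 h).le)
    simpa using port_norm h1 h2
  have key := int_dir ez hG hc
  have mP := port_isClosed.measurableSet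
  have mA := port_isOpen.measurableSet
  have i1 : IntegrableOn (fun p => ⟪ez, ∇ F p⟫) PP := by
    obtain ⟨K, -, hK⟩ := LL.grad_bdd hF 300
    refine integrableOn_of_bdd port_bddPP mP (measurable_const.inner (measurable_grad F)) (K := K)
      (.of_forall fun p hp => ?_)
    refine (abs_real_inner_le_norm _ _).trans ?_
    rw [norm_ez, one_mul]
    exact hK p (port_normPP hp)
  have i2 : IntegrableOn (fun p : E => sg (p 2) * F (portP p)) portA := by
    obtain ⟨K, -, hK⟩ := LL.bdd (hF.comp port_llP) 300
    refine integrableOn_of_bdd port_bddA mA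
      ((measurable_sg.comp (LL.coord 2).continuous.measurable).mul
        (hF.comp port_llP).continuous.measurable) (K := K) (.of_forall fun p hp => ?_)
    have := hK p (port_norm hp.1.le hp.2.2.le)
    rw [abs_mul]
    rcases sg_cases (p 2) with h | h <;> rw [h] <;> simpa using this
  have e : (fun p => ⟪ez, ∇ (portG F) p⟫) =ᵐ[volume] fun p =>
      PP.indicator (fun p => ⟪ez, ∇ F p⟫) p -
        portA.indicator (fun p : E => sg (p 2) * F (portP p)) p := by
    filter_upwards [port_ae, LL.ae_diff hG] with p ⟨a1, a2, a3⟩ hd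
    rcases a2.lt_or_gt with b2 | b2
    · have : portG F =ᶠ[𝓝 p] F :=
        (cz.continuousAt.eventually_lt cH.continuousAt b2).mono fun y hy => port_G_in hy.le
      rw [this.gradient_eq, indicator_of_mem ((port_mem p).2 b2.le),
        indicator_of_notMem (fun h => h.2.1.not_gt b2), sub_zero]
    · rw [indicator_of_notMem (fun h => ((port_mem p).1 h).not_gt b2), zero_sub]
      rcases a1.lt_or_gt with b1 | b1
      · rw [indicator_of_notMem (fun h => h.1.not_gt b1), grad_of_eventually_const
          ((cH.continuousAt.eventually_lt continuousAt_const b1).mono fun y hy =>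
            port_G_neg h0 hy.le)]
        simp
      · rcases a3.lt_or_gt with b3 | b3
        · have hp : p ∈ portA := ⟨b1, b2, b3⟩
          rw [indicator_of_mem hp, port_G_A hp hd]
        · rw [indicator_of_notMem (fun h => h.2.2.not_gt b3), grad_of_eventually_const
            (((cH.add continuous_const).continuousAt.eventually_lt cz.continuousAt b3).mono
              fun y hy => port_G_far h0 hy.le)]
          simp
  rw [integral_congr_ae e, integral_sub ((integrable_indicator_iff mP).2 i1)
    ((integrable_indicator_iff mA).2 i2), integral_indicator mP, integral_indicator mA] at key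
  linarith

/-- With `H p = min (150 - |x|) (90 - |y|)` the port measure is the image of the volume of the
layer `{0 < H < |z| < H + 1}` under the vertical projection to `PP`. -/
theorem exists_port : ∃ σ : Measure E, IsPort σ := by
  have mA := port_isOpen.measurableSet
  have cP := port_llP.continuous
  refine ⟨Measure.map portP (volume.restrict portA), ?_, ?_, ?_, fun f hf => ?_⟩
  · have : IsFiniteMeasure (volume.restrict portA) :=
      ⟨by rw [Measure.restrict_apply_univ]; exact port_bddA.measure_lt_top⟩
    infer_instance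
  · intro h
    rw [Measure.map_eq_zero_iff cP.measurable.aemeasurable, Measure.restrict_eq_zero] at h
    refine (port_isOpen.measure_pos volume ⟨(181 / 2 : ℝ) • ez, ?_⟩).ne' h
    have : portH ((181 / 2 : ℝ) • ez) = 90 := by simp [portH]; norm_num
    simp only [portA, mem_ofPred_eq, this, PiLp.smul_apply, ez2, smul_eq_mul]
    rw [abs_of_pos (by norm_num)]
    norm_num
  · refine (ae_map_iff cP.measurable.aemeasurable
      (port_isClosed.inter isClosed_closure).measurableSet).2 ?_
    refine (ae_restrict_iff' mA).2 (.of_forall fun p hp => ⟨(port_mem _).2 (port_PA hp).le, ?_⟩)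
    have hc : Continuous fun t : ℝ => portP p + (t * portP p 2) • ez := by fun_prop
    have ht : Tendsto (fun t : ℝ => portP p + (t * portP p 2) • ez) (𝓝[>] 0) (𝓝 (portP p)) := by
      have := (hc.tendsto 0).mono_left (nhdsWithin_le_nhds (s := Ioi 0))
      simpa using this
    refine mem_closure_of_tendsto ht (eventually_nhdsWithin_of_forall fun t ht h => ?_)
    have ht' : 0 < t := ht
    rw [port_mem, port_H_add, ← port_PA hp] at h
    have e : (portP p + (t * portP p 2) • ez) 2 = (1 + t) * portP p 2 := by
      simp only [PiLp.add_apply, PiLp.smul_apply, ez2, smul_eq_mul]; ring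
    rw [e, abs_mul, abs_of_pos (by linarith : (0 : ℝ) < 1 + t), port_PA hp, port_HP] at h
    nlinarith [hp.1]
  · rw [integral_map cP.measurable.aemeasurable hf.continuous.aestronglyMeasurable]
    have e : ∀ n : ℕ, ∫ p in PP, ⟪ez, ∇ (fun y => f y * clp (-1) 1 (n * y 2)) p⟫ =
        ∫ p in portA, f (portP p) * clp 0 1 (n * portH p) := fun n => by
      rw [port_flux (LL.mul hf (LL.clp _ _ (LL.mul (LL.const _) (LL.coord 2)))) fun p hp => by
        rw [hp, mul_zero, clp_of_mem (by norm_num) (by norm_num), mul_zero]]
      refine setIntegral_congr_fun mA fun p hp => ?_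
      have h1 : 0 ≤ n * portH p := mul_nonneg n.cast_nonneg hp.1.le
      simp only [port_P2, port_C_A hp]
      rcases le_total (n * portH p) 1 with h2 | h2
      · rw [clp_of_mem h1 h2]
        rcases sg_cases (p 2) with h | h <;> rw [h, clp_of_mem (by linarith) (by linarith)] <;> ring
      · rw [clp_of_ge zero_le_one h2]
        rcases sg_cases (p 2) with h | h
        · rw [h, clp_of_ge (by norm_num) (by linarith)]; ring
        · rw [h, clp_of_le (by linarith)]; ring
    simp only [e]
    obtain ⟨K, -, hK⟩ := LL.bdd (hf.comp port_llP) 300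
    have : IsFiniteMeasure (volume.restrict portA) :=
      ⟨by rw [Measure.restrict_apply_univ]; exact port_bddA.measure_lt_top⟩
    refine tendsto_integral_of_dominated_convergence (fun _ => K) (fun n => ?_)
      (integrable_const K) (fun n => ?_) ?_
    · exact (LL.mul (hf.comp port_llP)
        (LL.clp _ _ (LL.mul (LL.const _) port_llH))).continuous.aestronglyMeasurable
    · refine (ae_restrict_iff' mA).2 (.of_forall fun p hp => ?_)
      have h1 := hK p (port_norm hp.1.le hp.2.2.le)
      rw [Real.norm_eq_abs, abs_mul, abs_of_nonneg (le_clp _ _ _)]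
      exact (mul_le_of_le_one_right (abs_nonneg _) (clp_le zero_le_one _)).trans h1
    · refine (ae_restrict_iff' mA).2 (.of_forall fun p hp => ?_)
      refine tendsto_const_nhds.congr' ?_
      filter_upwards [(tendsto_natCast_atTop_atTop.atTop_mul_const hp.1).eventually_ge_atTop 1]
        with n hn
      rw [clp_of_ge zero_le_one hn, mul_one]

end Crest.Agent.R083
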