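import Crest.Agent.R083.Geo

/-! Row 83: the region around the children. -/

set_option autoImplicit false

namespace Crest.Agent.R083

open MeasureTheory Filter Topology Set
open scoped Gradient RealInnerProductSpace

theorem rega_ne {p z b : E} (hZ : Zip p z b) {α β : ℝ} (hβ : β ≠ 0) : α • ex + β • z ≠ 0 := by
  intro h
  have h1 : ⟪cr ex b, α • ex + β • z⟫ = β * ⟪cr ex b, z⟫ := by sc3
  rw [h, inner_zero_right] at h1
  have h2 := hZ.det
  rw [(mul_eq_zero.1 h1.symm).resolve_left hβ] at h2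
  norm_num at h2

theorem rega_b_ne {p z b : E} (hZ : Zip p z b) : b ≠ 0 := by
  intro h
  have h2 := hZ.det
  rw [h, cr_zero_right, inner_zero_left] at h2
  norm_num at h2

theorem rega_prof {t : ℝ} (h1 : |t| < 1) :
    Prof 1000 t (-3 * t * (2 - |t|)) (2 - 3 * t ^ 2 + |t| ^ 3) (-6 * (1 - |t|)) := by
  have h0 := abs_nonneg t
  have e : 2 - 3 * t ^ 2 + |t| ^ 3 = (1 - |t|) * (3 - (1 - |t|) ^ 2) := by
    rw [← sq_abs t]; ring
  have hm : 2 ≤ 3 - (1 - |t|) ^ 2 := by nlinarith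
  have hm' : 3 - (1 - |t|) ^ 2 ≤ 3 := by nlinarith [sq_nonneg (1 - |t|)]
  have hpos : 0 < (1 - |t|) * (3 - (1 - |t|) ^ 2) := mul_pos (by linarith) (by linarith)
  rw [e]
  refine ⟨?_, ?_, ?_, 6 / (3 - (1 - |t|) ^ 2), ?_, ?_, ?_⟩
  · rw [abs_mul, abs_mul, abs_of_pos (show 0 < 2 - |t| by linarith), abs_neg,
      abs_of_pos (show (0 : ℝ) < 3 by norm_num)]
    nlinarith
  · rw [abs_of_pos hpos]; nlinarith
  · rw [abs_of_pos hpos]; nlinarith
  · rw [le_div_iff₀ (by linarith)]; linarith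
  · rw [div_le_iff₀ (by linarith)]; linarith
  · have : 3 - (1 - |t|) ^ 2 ≠ 0 := by linarith
    field_simp

theorem rega_jf {ξ : E → ℝ} {p a : E} (h : Jet ξ p a) (h0 : ξ p ≠ 0) :
    Jet (fun y => -3 * ξ y * (2 - |ξ y|)) p ((-6 * (1 - |ξ p|)) • a) := by
  refine ((h.const_mul (-3)).mul ((h.abs h0).const_sub 2)).of_eq ?_
  rw [← sg_mul_self (ξ p)]
  module

theorem rega_jF {ξ : E → ℝ} {p a : E} (h : Jet ξ p a) (h0 : ξ p ≠ 0) :
    Jet (fun y => 2 - 3 * ξ y ^ 2 + |ξ y| ^ 3) p ((-3 * ξ p * (2 - |ξ p|)) • a) := by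
  refine ((((h.pow 2).const_mul 3).const_sub 2).add ((h.abs h0).pow 3)).of_eq ?_
  have e : |ξ p| ^ 2 * sg (ξ p) = ξ p * |ξ p| := by
    rw [sq_abs, ← sg_mul_self (ξ p)]; ring
  simp only [smul_smul, ← neg_smul, ← add_smul]
  congr 1
  push_cast
  linear_combination 3 * e

/-- Here `48 < rho < 49`, `|p 0| > 1` so `sx = sg (p 0) =: o` near `p`; `ξ = xiA`, `τ = tauA`,
`A = C.D ∘ wA`, `L = cL C.P1 C.P2 C.X wA`, `ν = 1/3`, `m = (-18, 1, 3 o, 0)`, `k = (-6, o)`.
`xp p ≠ 50` by `hZ.gen`.  `1 - |xiA| = ze / rho`, `fA' = -6 (1 - |ξ|)`, `FA' = fA`,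
`FA = 3 m - m³` with `m = 1 - |ξ|`.  The `C`-cascade terms of `gL2` vanish near `p` because
`tauC = t1 ≤ 0` where `ze + pl ≤ 49` (`tauC_nonpos`, `C.bot`). -/
theorem regA (C : Casc 1000) {p z b : E} (hZ : Zip p z b) (hR : p ∈ RR) (hA : rho p < 49)
    (g1 : Gen C.N xiA p) (g2 : Gen C.N tauA p) (g3 : Gen C.N YY p) :
    LocForm C.κ C.K' (gPh C) (gD C) (gL1 C) (gL2 C) p z b := by
  have h48 : 48 < rho p := hR.2
  have hz := hZ.pos
  have hu : xp p - 50 ≠ 0 := fun h => hZ.gen 1 0 50 (Or.inl one_ne_zero) (by push_cast; linarith)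
  have hρ : rho p = |xp p - 50| + ze p := rfl
  have hx1 : 1 < xp p := by linarith [neg_abs_le (xp p - 50)]
  set o := sg (p 0) with ho
  have hoo : o * o = 1 := sg_sq _
  have ho1 : |o| = 1 := by rcases sg_cases (p 0) with h | h <;> rw [ho, h] <;> simp
  set s := sg (xp p - 50) with hs
  have hs1 : |s| = 1 := by rcases sg_cases (xp p - 50) with h | h <;> rw [hs, h] <;> simp
  have hsu : s * (xp p - 50) = |xp p - 50| := sg_mul_self _
  have hcl : clp 48 49 (rho p) = rho p := clp_of_mem h48.le hA.le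
  have hρ0 : rho p ≠ 0 := by linarith
  have jx : Jet xp p (o • ex) := (Jet.c0 p).abs hZ.x0
  have ju : Jet (fun y => xp y - 50) p (o • ex) := jx.sub_const 50
  have jρ : Jet rho p (s • o • ex + z) := (ju.abs hu).add hZ.jz
  have jc : Jet (fun y => clp 48 49 (rho y)) p (s • o • ex + z) := jρ.clp_mid h48 hA
  have jξ : Jet xiA p ((-o * ze p / rho p ^ 2) • ex + ((xp p - 50) / rho p ^ 2) • z) := by
    refine (ju.neg.div jc (by rw [hcl]; exact hρ0)).of_eq ?_
    rw [hcl]
    have e : -o * ze p / rho p ^ 2 = -(rho p)⁻¹ * o + (xp p - 50) / rho p ^ 2 * s * o := by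
      field_simp
      rw [hρ, ← hsu]; ring
    rw [e]
    have e2 : -(xp p - 50) / rho p ^ 2 = -((xp p - 50) / rho p ^ 2) := neg_div _ _
    rw [e2]
    module
  have jτ : Jet tauA p ((-2 * s * o) • ex + (-2 : ℝ) • z) := by
    refine ((jc.const_sub 49).const_mul 2).of_eq ?_
    module
  have hξ : xiA p = -(xp p - 50) / rho p := by rw [xiA, hcl]
  have hτ : tauA p = 2 * (49 - rho p) := by rw [tauA, hcl]
  have hξa : |xiA p| = 1 - ze p / rho p := by
    rw [hξ, abs_div, abs_neg, abs_of_pos (show 0 < rho p by linarith)]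
    field_simp
    linarith
  have hq0 : 0 < ze p / rho p := div_pos hz (by linarith)
  have hq1 : ze p / rho p ≤ ze p := div_le_self hz.le (by linarith)
  have hξ1 : |xiA p| < 1 := by linarith
  have hξ0 : xiA p ≠ 0 := by rw [hξ]; exact div_ne_zero (neg_ne_zero.2 hu) hρ0
  obtain ⟨d₁, d₂, d₃, j₁, j₂, hJ, hC, hcl', hN⟩ := C.jet xiA YY tauA fA FA p _ b _
    (-6 * (1 - |xiA p|)) jξ hZ.jY jτ
    (g1 jξ.diff (by rw [jξ.2]; exact rega_ne hZ (div_ne_zero hu (pow_ne_zero _ hρ0))))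
    (g3 hZ.jY.diff (by rw [hZ.jY.2]; exact rega_b_ne hZ))
    (g2 jτ.diff (by rw [jτ.2]; exact rega_ne hZ (by norm_num)))
    hξ1 hZ.ylt (by linarith) (by linarith)
    (fun _ => ⟨rega_jf jξ hξ0, rega_jF jξ hξ0, rega_prof hξ1⟩)
  have hρ2 : 1 ≤ rho p ^ 2 := by nlinarith
  have hzρ : ze p ≤ 49 := by linarith [abs_nonneg (xp p - 50)]
  have hξx : |-o * ze p / rho p ^ 2| ≤ ze p / 48 := by
    rw [abs_div, abs_mul, abs_neg, ho1, one_mul, abs_of_pos hz, abs_of_pos (by positivity)]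
    exact div_le_div_of_nonneg_left hz.le (by norm_num) (by nlinarith)
  have hsx : ∀ᶠ y in 𝓝 p, sx y = o := by
    filter_upwards [sg_eventually (Jet.c0 p).cont hZ.x0,
      continuousAt_const.eventually_lt jx.cont hx1] with y h1 h2
    rw [ho, ← h1]
    unfold sg sx
    unfold xp at h2
    split_ifs with h
    · rw [abs_of_pos h] at h2; exact clp_of_ge (by norm_num) h2.le
    · rw [abs_of_nonpos (not_lt.1 h)] at h2; exact clp_of_le (by linarith)
  have hbot : ∀ᶠ y in 𝓝 p, C.P2 (wC y) = 0 ∧ C.X (wC y) = 0 := by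
    filter_upwards [jρ.cont.eventually_lt continuousAt_const hA] with y hy
    have := C.bot (xiC y) (YY y) (tauC y) (fC y) (FC y)
      (tauC_nonpos ((ze_add_pl_le y).trans hy.le))
    exact ⟨this.1, this.2.1⟩
  refine ⟨xiA, tauA, fun y => C.D (wA y), cL C.P1 C.P2 C.X wA, o, 1 / 3, _, _, _, _, d₁, d₂, d₃, j₁, j₂,
    -18, 1, 3 * o, 0, -6, o, ⟨jξ, jτ, sg_cases _, ⟨by linarith, ?_, ?_, by norm_num⟩, ?_, by linarith,
      by linarith, hξ1⟩, hJ, hC, hcl', hN, le_rfl, by norm_num, ?_, by norm_num, by norm_num, ?_,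
      by norm_num, ?_, ?_, ?_, ?_⟩
  · rw [abs_div, abs_of_pos (show 0 < rho p ^ 2 by positivity), div_le_iff₀ (by positivity)]
    nlinarith
  · rw [abs_mul, abs_mul, hs1, ho1]; norm_num
  · have e : o * (-o * ze p / rho p ^ 2 * -2 - (xp p - 50) / rho p ^ 2 * (-2 * s * o)) =
        2 / rho p := by
      field_simp
      rw [hρ, ← hsu]
      linear_combination (ze p + s * (xp p - 50)) * hoo
    rw [e, le_div_iff₀ (by linarith)]
    linarith
  · intro h
    have : o = 0 := by linarith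
    rw [this] at hoo
    norm_num at hoo
  · rw [abs_mul, ho1]; norm_num
  · filter_upwards [glue3_A (a := fun p => -6 * (1 + 3 * tauA p) + C.D (wA p)) (b := PhB)
      (c := fun p => 24 * tauC p) hA] with y hy
    rw [gPh, hy]; ring
  · filter_upwards [glue3_A (a := fun p => sx p * (1 + 3 * tauA p)) (b := sB)
      (c := fun p => C.D (wC p)) hA, hsx] with y hy h2
    rw [gD, hy, h2]; ring
  · have e1 : gX C =ᶠ[𝓝 p] fun y => (-6 * o) * xiA y + (o / 3) * C.P1 (wA y) + 6 * o := by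
      filter_upwards [glue3_A (a := fun p => sx p * (6 * (1 - xiA p) + C.P1 (wA p) / 3)) (b := XB)
        (c := XC) hA, hsx] with y hy h2
      rw [gX, hy, h2]; ring
    have e2 : (fun y => sx y * C.P2 (wA y) / 3) =ᶠ[𝓝 p] fun y => (o / 3) * C.P2 (wA y) := by
      filter_upwards [hsx] with y h2
      rw [h2]; ring
    have e3 : (fun y => sx y * C.X (wA y) / 3) =ᶠ[𝓝 p] fun y => (o / 3) * C.X (wA y) := by
      filter_upwards [hsx] with y h2
      rw [h2]; ring
    filter_upwards [e1.eventuallyEq_nhds, e2.eventuallyEq_nhds, e3.eventuallyEq_nhds,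
      hC.eventually, jξ.1.eventually (by simp)] with y h1 h2 h3 h4 h5
    have d1 : DifferentiableAt ℝ (fun y => C.P1 (wA y)) y :=
      (h4 _ (List.mem_cons_self ..)).1.differentiableAt one_ne_zero
    have d2 : DifferentiableAt ℝ xiA y := h5.differentiableAt one_ne_zero
    have e4 : cl (cL C.P1 C.P2 C.X wA) y = cr (∇ (fun y => C.P1 (wA y)) y) (∇ YY y) +
        (cr (∇ xiA y) (∇ (fun y => C.P2 (wA y)) y) +
          (cr (∇ (fun y => C.X (wA y)) y) (∇ tauA y) + 0)) := by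
      simp only [cL, cl_cons, cl_nil]; rfl
    rw [e4]
    simp only [gL1, cl_cons, cl_nil]
    rw [h1.gradient_eq, h2.gradient_eq, h3.gradient_eq, grad_add_const,
      grad_add (d2.const_mul _) (d1.const_mul _), grad_const_mul, grad_const_mul, grad_const_mul,
      grad_const_mul]
    vec3
  · have e1 : gPs C =ᶠ[𝓝 p] fun y => xiA y + 1 := by
      filter_upwards [glue3_A (a := fun p => 1 + xiA p) (b := fun p => 2 - vB p)
        (c := fun p => C.P1 (wC p) / 2) hA] with y hy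
      rw [gPs, hy]; ring
    filter_upwards [e1.eventuallyEq_nhds, hbot.eventually_nhds] with y h1 h2
    have e2 : ∇ (fun y => C.P2 (wC y) / 2) y = 0 :=
      grad_of_eventually_const (c := 0) (h2.mono fun _ h => by rw [h.1, zero_div])
    have e3 : ∇ (fun y => C.X (wC y) / 2) y = 0 :=
      grad_of_eventually_const (c := 0) (h2.mono fun _ h => by rw [h.2, zero_div])
    simp only [gL2, cl_cons, cl_nil]
    rw [h1.gradient_eq, grad_add_const, e2, e3, cr_zero_left, cr_zero_right, zero_smul, add_zero,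
      add_zero, add_zero, add_zero, smul_smul, show o * (1 / 3) * (3 * o) = 1 by linarith, one_smul]

end Crest.Agent.R083
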