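import Crest.Agent.R083.Geo

/-! Row 83: the region between the children. -/

set_option autoImplicit false

namespace Crest.Agent.R083

open MeasureTheory Filter Topology Set
open scoped Gradient RealInnerProductSpace

theorem regb_num {κ K v s Y : ℝ} (hκ : 0 < κ) (hκ1 : κ ≤ 1 / 10) (hK : 10 ≤ K) (h0 : 0 < v)
    (h1 : v < 1) (hs : |s| < 1) (hY : |Y| < 1) :
    Num κ K (1 - v) Y (-9 * v + 3 * v * s ^ 2) 0 (-3 * (1 + v ^ 2) * s) (-(3 * v + v ^ 3)) 0 := by
  have hs2 : s ^ 2 < 1 := by rw [← sq_abs]; nlinarith [abs_nonneg s]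
  have hs0 : 0 ≤ s ^ 2 := sq_nonneg s
  have hv2 : v ^ 2 < 1 := by nlinarith
  have hv0 : 0 < v ^ 2 := by positivity
  have hd : 6 * v ≤ 9 * v - 3 * v * s ^ 2 := by nlinarith
  have hd' : 9 * v - 3 * v * s ^ 2 ≤ 9 * v := by nlinarith
  have hj : 3 * v ≤ 3 * v + v ^ 3 := by nlinarith [pow_pos h0 3]
  have hj' : 3 * v + v ^ 3 ≤ 4 * v := by nlinarith
  set d := 9 * v - 3 * v * s ^ 2 with hdd
  set j := 3 * v + v ^ 3 with hjj
  have e : -9 * v + 3 * v * s ^ 2 = -d := by rw [hdd]; ring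
  rw [e]
  have hd0 : 0 < d := by linarith
  have hj0 : 0 < j := by linarith
  refine ⟨?_, ?_, Or.inl (neg_ne_zero.2 hd0.ne'), ?_, ?_, ?_⟩
  · have h2 : κ * d ≤ j := by nlinarith
    nlinarith [mul_le_mul_of_nonneg_right h2 hd0.le]
  · have h2 : j ≤ K * d := by nlinarith
    nlinarith [mul_self_le_mul_self hj0.le h2]
  · rw [abs_neg, abs_of_pos hj0, abs_of_pos (show 0 < 1 - v by linarith)]
    nlinarith
  · rw [abs_zero]
    exact mul_nonneg (by linarith) (by linarith)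
  · rw [abs_mul, abs_mul, abs_neg, abs_of_pos (show (0 : ℝ) < 3 by norm_num),
      abs_of_pos (show 0 < 1 + v ^ 2 by positivity)]
    nlinarith [abs_nonneg s]

/-- Here `xp < 50`, `xp < 1 + ze`, `0 < ze < 49`; `ξ = 1 - vB`, `τ = sB`, `A = PhB`,
`L = [(XB, YY)]`, `o = ν = 1`, `m = (0, 1, 1, 0)`, `d₁ = -9 v + 3 v s²`, `d₂ = 0`,
`d₃ = -3 (1 + v²) s`, `j₁ = -(3 v + v³)`, `j₂ = 0`.  All cascade terms vanish near `p`
(`tauA = 0`, `tauC ≤ 0`, `C.bot`). -/
theorem regB (C : Casc 1000) {p z b : E} (hZ : Zip p z b) (hB : 49 < rho p)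
    (hB' : ze p + pl p < 49) : LocForm C.κ C.K' (gPh C) (gD C) (gL1 C) (gL2 C) p z b := by
  have hz := hZ.pos
  have hρ : rho p = |xp p - 50| + ze p := rfl
  have hpl : xp p - 50 ≤ pl p := le_max_left _ _
  have hz49 : ze p < 49 := by linarith [pl_nonneg p]
  have hx : xp p < 1 + ze p := by
    rcases abs_choice (xp p - 50) with h | h <;> rw [h] at hρ <;> linarith
  have hz1 : 0 < 1 + ze p := by linarith
  have hv0 : 0 < vB p := div_pos hz (by norm_num)
  have hv1 : vB p < 1 := (div_lt_one (by norm_num)).2 hz49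
  have hvz : vB p ≤ ze p := div_le_self hz.le (by norm_num)
  have hs : |sB p| < 1 := by
    rw [sB, abs_div, abs_of_pos hz1, div_lt_one hz1]
    exact hx
  have jv : Jet vB p ((49 : ℝ)⁻¹ • z) := hZ.jz.div_const 49
  have jξ : Jet (fun y => 1 - vB y) p ((0 : ℝ) • ex + (-49⁻¹ : ℝ) • z) :=
    (jv.const_sub 1).of_eq (by module)
  have jτ : Jet sB p ((1 + ze p)⁻¹ • ex + (-(p 0 / (1 + ze p) ^ 2)) • z) :=
    ((Jet.c0 p).div (hZ.jz.const_add 1) hz1.ne').of_eq (by module)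
  have jA : Jet PhB p ((-9 * vB p + 3 * vB p * sB p ^ 2) • ((0 : ℝ) • ex + (-49⁻¹ : ℝ) • z) +
      (0 : ℝ) • b + (-3 * (1 + vB p ^ 2) * sB p) •
        ((1 + ze p)⁻¹ • ex + (-(p 0 / (1 + ze p) ^ 2)) • z)) := by
    refine ((((jv.pow 2).const_mul (9 / 2)).const_add (-15 / 2)).sub
      ((((jv.pow 2).const_add 1).const_mul (3 / 2)).mul (jτ.pow 2))).of_eq ?_
    generalize (1 + ze p)⁻¹ • ex + (-(p 0 / (1 + ze p) ^ 2)) • z = t
    push_cast
    module
  have jX : Jet XB p ((-3 * (1 + vB p ^ 2) * sB p) • ((0 : ℝ) • ex + (-49⁻¹ : ℝ) • z) +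
      (3 * vB p + vB p ^ 3) • ((1 + ze p)⁻¹ • ex + (-(p 0 / (1 + ze p) ^ 2)) • z)) := by
    refine (((jv.const_mul 3).add (jv.pow 3)).mul jτ).of_eq ?_
    generalize (1 + ze p)⁻¹ • ex + (-(p 0 / (1 + ze p) ^ 2)) • z = t
    push_cast
    module
  have hbotA : ∀ᶠ y in 𝓝 p, C.P2 (wA y) = 0 ∧ C.X (wA y) = 0 := by
    filter_upwards [continuousAt_const.eventually_lt ll_rho.continuous.continuousAt hB] with y hy
    have := C.bot (xiA y) (YY y) (tauA y) (fA y) (FA y) (tauA_eq_zero hy.le).le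
    exact ⟨this.1, this.2.1⟩
  have hbotC : ∀ᶠ y in 𝓝 p, C.P2 (wC y) = 0 ∧ C.X (wC y) = 0 := by
    filter_upwards [(ll_ze.continuous.add ll_pl.continuous).continuousAt.eventually_lt
      continuousAt_const hB'] with y hy
    have := C.bot (xiC y) (YY y) (tauC y) (fC y) (FC y)
      (tauC_nonpos (show ze y + pl y < 49 from hy).le)
    exact ⟨this.1, this.2.1⟩
  have hi : (1 + ze p)⁻¹ ≤ 1 := inv_le_one_of_one_le₀ (by linarith)
  have hi0 : 0 < (1 + ze p)⁻¹ := inv_pos.2 hz1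
  refine ⟨fun y => 1 - vB y, sB, PhB, [(XB, YY)], 1, 1, _, _, _, _, _, _, _,
    -(3 * vB p + vB p ^ 3), 0, 0, 1, 1, 0, 0, 0,
    ⟨jξ, jτ, Or.inl rfl, ⟨by norm_num, ?_, ?_, ?_⟩, ?_, by simpa using hz.le, ?_, ?_⟩, jA, ?_, ?_,
    regb_num C.hκ C.hκ1 C.hK' hv0 hv1 hs hZ.ylt, by norm_num, le_rfl, by norm_num, by norm_num,
    by norm_num, by norm_num, by norm_num, ?_, ?_, ?_, ?_⟩
  · rw [abs_neg, abs_of_pos (by norm_num)]; norm_num
  · rw [abs_of_pos hi0]; linarith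
  · have e : p 0 / (1 + ze p) ^ 2 = sB p * (1 + ze p)⁻¹ := by
      rw [sB]; field_simp
    rw [abs_neg, e, abs_mul, abs_of_pos hi0]
    nlinarith [abs_nonneg (sB p)]
  · have h1 : (50 : ℝ)⁻¹ ≤ (1 + ze p)⁻¹ := inv_anti₀ hz1 (by linarith)
    linarith
  · show 1 - |1 - vB p| ≤ ze p
    rw [abs_of_pos (by linarith)]; linarith
  · show |1 - vB p| < 1
    rw [abs_of_pos (by linarith)]; linarith
  · intro q hq
    rw [List.mem_singleton.1 hq]
    exact ⟨jX.1, hZ.jY.1⟩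
  · simp only [cl_cons, cl_nil]
    rw [jX.2, hZ.jY.2]
    generalize (1 + ze p)⁻¹ • ex + (-(p 0 / (1 + ze p) ^ 2)) • z = t
    generalize (0 : ℝ) • ex + (-49⁻¹ : ℝ) • z = u
    vec3
  · filter_upwards [glue3_B (a := fun p => -6 * (1 + 3 * tauA p) + C.D (wA p)) (b := PhB)
      (c := fun p => 24 * tauC p) hB hB'] with y hy
    rw [gPh, hy]; ring
  · filter_upwards [glue3_B (a := fun p => sx p * (1 + 3 * tauA p)) (b := sB)
      (c := fun p => C.D (wC p)) hB hB'] with y hy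
    rw [gD, hy]; ring
  · have e1 : gX C =ᶠ[𝓝 p] XB := glue3_B hB hB'
    filter_upwards [e1.eventuallyEq_nhds, hbotA.eventually_nhds] with y h1 h2
    have e2 : ∇ (fun y => sx y * C.P2 (wA y) / 3) y = 0 :=
      grad_of_eventually_const (c := 0) (h2.mono fun _ h => by rw [h.1, mul_zero, zero_div])
    have e3 : ∇ (fun y => sx y * C.X (wA y) / 3) y = 0 :=
      grad_of_eventually_const (c := 0) (h2.mono fun _ h => by rw [h.2, mul_zero, zero_div])
    simp only [gL1, cl_cons, cl_nil]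
    rw [h1.gradient_eq, e2, e3]
    simp
  · have e1 : gPs C =ᶠ[𝓝 p] fun y => (1 - vB y) + 1 := by
      filter_upwards [glue3_B (a := fun p => 1 + xiA p) (b := fun p => 2 - vB p)
        (c := fun p => C.P1 (wC p) / 2) hB hB'] with y hy
      rw [gPs, hy]; ring
    filter_upwards [e1.eventuallyEq_nhds, hbotC.eventually_nhds] with y h1 h2
    have e2 : ∇ (fun y => C.P2 (wC y) / 2) y = 0 :=
      grad_of_eventually_const (c := 0) (h2.mono fun _ h => by rw [h.1, zero_div])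
    have e3 : ∇ (fun y => C.X (wC y) / 2) y = 0 :=
      grad_of_eventually_const (c := 0) (h2.mono fun _ h => by rw [h.2, zero_div])
    simp only [gL2, cl_cons, cl_nil]
    rw [h1.gradient_eq, grad_add_const, e2, e3]
    simp

end Crest.Agent.R083
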