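import Crest.Agent.R083.Geo

/-! Row 83: the region near the port of the cell. -/

set_option autoImplicit false

namespace Crest.Agent.R083

open MeasureTheory Filter Topology Set
open scoped Gradient RealInnerProductSpace

section aux
variable {p z b S R T Θ H : E}

theorem regc_ind (hZ : Zip p z b) {a c : ℝ} (h : a • ex + c • z = 0) : a = 0 ∧ c = 0 := by
  have h1 : c * ⟪cr ex b, z⟫ = ⟪cr ex b, a • ex + c • z⟫ := by sc3
  rw [h, inner_zero_right] at h1
  have hd := hZ.det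
  have hc : c = 0 := (mul_eq_zero.1 h1).resolve_right fun e => by rw [e] at hd; norm_num at hd
  subst hc
  simpa using congrArg (fun v : E => v 0) h

theorem regc_t1 (hs : Jet sC p S) (hr : Jet rC p R) :
    Jet t1 p ((-(sC p * rC p ^ 2) / 4) • S + (-(sC p ^ 2 * rC p) / 4) • R) :=
  (((Jet.const_add 1 ((hs.pow 2).mul (hr.pow 2))).neg).div_const 8).of_eq (by
    match_scalars <;> ring)

theorem regc_tau (h : Jet t1 p T) (hθ : Jet thC p Θ) :
    Jet tauC p ((1 - thC p) • T + (2 - t1 p) • Θ) :=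
  (h.add (hθ.mul (Jet.const_sub 2 h))).of_eq (by match_scalars <;> ring)

theorem regc_f (hs : Jet sC p S) (h : Jet t1 p T) :
    Jet fC p ((1 / (1 - t1 p) ^ 3) • S + (3 * sC p / (1 - t1 p) ^ 4) • T) := by
  have h0 : 1 - t1 p ≠ 0 := by linarith [t1_le p]
  exact (hs.div ((Jet.const_sub 1 h).pow 3) (pow_ne_zero _ h0)).of_eq (by
    match_scalars <;> field_simp)

theorem regc_F (hr : Jet rC p R) (h : Jet t1 p T) :
    Jet FC p ((-2 / (3 * (1 - t1 p) ^ 2)) • R + (-4 * rC p / (3 * (1 - t1 p) ^ 3)) • T) := by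
  have h0 : 1 - t1 p ≠ 0 := by linarith [t1_le p]
  exact ((hr.const_mul (-2)).div (((Jet.const_sub 1 h).pow 2).const_mul 3)
    (mul_ne_zero (by norm_num) (pow_ne_zero _ h0))).of_eq (by
    match_scalars <;> field_simp <;> ring)

theorem regc_xi (hs : Jet sC p S) (hr : Jet rC p R)
    (hη : Jet (fun y => clp 0 1 (tauC y - 1)) p H) :
    Jet xiC p (((12 - 8 * rC p - (1 - clp 0 1 (tauC p - 1)) * (rC p - rC p ^ 3)) / 12) • S +
      (-(sC p * (8 + (1 - clp 0 1 (tauC p - 1)) * (1 - 3 * rC p ^ 2))) / 12) • R +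
      (sC p * (rC p - rC p ^ 3) / 12) • H) :=
  ((hs.mul ((Jet.const_sub 12 (hr.const_mul 8)).sub
    ((Jet.const_sub 1 hη).mul (hr.sub (hr.pow 3))))).div_const 12).of_eq (by
    match_scalars <;> ring)

/-- The cut-off `η` is `C¹` because `τ ≠ 1`. -/
theorem regc_eta (C : Casc 1000) (g2 : Gen C.N tauC p) (h : Jet tauC p T) (hT : T ≠ 0)
    (h2 : tauC p < 2) : ∃ e : ℝ, 0 ≤ e ∧ e ≤ 1 ∧ Jet (fun y => clp 0 1 (tauC y - 1)) p (e • T) ∧
      (tauC p < 1 → e = 0 ∧ clp 0 1 (tauC p - 1) = 0) := by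
  have h1 : tauC p ≠ 1 := fun e => g2 h.diff (h.2 ▸ hT) (e ▸ C.hN1)
  rcases h1.lt_or_gt with h1 | h1
  · exact ⟨0, le_rfl, zero_le_one, (Jet.clp_low (h.sub_const 1).cont (by linarith)).of_eq
      (zero_smul _ _).symm, fun _ => ⟨rfl, clp_of_le (by linarith)⟩⟩
  · exact ⟨1, zero_le_one, le_rfl, ((h.sub_const 1).clp_mid (by linarith) (by linarith)).of_eq
      (one_smul _ _).symm, fun h' => absurd h' h1.not_gt⟩

theorem regc_fin (C : Casc 1000) (hZ : Zip p z b) (hC : 49 < ze p + pl p)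
    (g1 : Gen C.N xiC p) (g2 : Gen C.N tauC p) (g3 : Gen C.N YY p) {ξx ξz τx τz f₁ : ℝ}
    (hch : Chart p z xiC tauC 1 ξx ξz τx τz) (h1 : -1 < tauC p) (h2 : tauC p < 2)
    (h3 : tauC p < 1 → Jet fC p (f₁ • (ξx • ex + ξz • z)) ∧
      Jet FC p (fC p • (ξx • ex + ξz • z)) ∧ Prof 1000 (xiC p) (fC p) (FC p) f₁) :
    LocForm C.κ C.K' (gPh C) (gD C) (gL1 C) (gL2 C) p z b := by
  have hj := hch.jac
  have n1 : ξx • ex + ξz • z ≠ 0 := fun e => by
    obtain ⟨rfl, rfl⟩ := regc_ind hZ e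
    norm_num at hj
  have n2 : τx • ex + τz • z ≠ 0 := fun e => by
    obtain ⟨rfl, rfl⟩ := regc_ind hZ e
    norm_num at hj
  have n3 : b ≠ 0 := fun e => by
    have hd := hZ.det
    rw [e, cr_zero_right, inner_zero_left] at hd
    norm_num at hd
  obtain ⟨d₁, d₂, d₃, j₁, j₂, a1, a2, a3, a4⟩ := C.jet xiC YY tauC fC FC p _ b _ f₁ hch.jξ hZ.jY
    hch.jτ (g1 hch.jξ.diff (hch.jξ.2 ▸ n1)) (g3 hZ.jY.diff (hZ.jY.2 ▸ n3))
    (g2 hch.jτ.diff (hch.jτ.2 ▸ n2)) hch.lt hZ.ylt h1 h2 h3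
  have ev : ∀ᶠ y in 𝓝 p, 49 < ze y + pl y :=
    continuousAt_const.eventually_lt (ll_ze.continuous.add ll_pl.continuous).continuousAt hC
  refine ⟨xiC, tauC, fun y => C.D (wC y), cL C.P1 C.P2 C.X wC, 1, 1 / 2, ξx, ξz, τx, τz, d₁, d₂, d₃,
    j₁, j₂, 24, 0, 0, 1, 0, 0, hch, a1, a2, a3, a4, by norm_num, by norm_num, by norm_num,
    by norm_num, by norm_num, by norm_num, by norm_num, ?_, ?_, ?_, ?_⟩
  · filter_upwards [glue3_C (a := fun p => -6 * (1 + 3 * tauA p) + C.D (wA p)) (b := PhB)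
      (c := fun p => 24 * tauC p) hC] with y hy
    rw [gPh, hy]
    ring
  · filter_upwards [glue3_C (a := fun p => sx p * (1 + 3 * tauA p)) (b := sB)
      (c := fun p => C.D (wC p)) hC] with y hy
    rw [gD, hy]
    ring
  · filter_upwards [ev, ev.eventually_nhds] with y hy hy'
    have e0 : ∀ᶠ w in 𝓝 y, tauA w ≤ 0 :=
      hy'.mono fun w hw => (tauA_eq_zero (hw.le.trans (ze_add_pl_le w))).le
    have e1 : ∇ (gX C) y = (12 : ℝ) • ∇ xiC y := by
      rw [gX, (glue3_C hy).gradient_eq, ← grad_const_mul]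
      congr 1
      funext w
      rw [xiC]
      ring
    have e2 : ∇ (fun p => sx p * C.P2 (wA p) / 3) y = 0 :=
      grad_of_eventually_const (c := 0) (e0.mono fun w hw => by
        rw [wA, (C.bot _ _ _ _ _ hw).1, mul_zero, zero_div])
    have e3 : ∇ (fun p => sx p * C.X (wA p) / 3) y = 0 :=
      grad_of_eventually_const (c := 0) (e0.mono fun w hw => by
        rw [wA, (C.bot _ _ _ _ _ hw).2.1, mul_zero, zero_div])
    simp only [gL1, cl_cons, cl_nil, e1, e2, e3, cr_zero_left, cr_zero_right, cr_smul_left]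
    module
  · filter_upwards [ev] with y hy
    have e : ∀ g : E → ℝ, ∇ (fun p => g p / 2) y = (1 / 2 : ℝ) • ∇ g y := fun g => by
      rw [← grad_const_mul]
      congr 1
      funext w
      ring
    have e1 : ∇ (gPs C) y = (1 / 2 : ℝ) • ∇ (fun p => C.P1 (wC p)) y := by
      rw [gPs, (glue3_C hy).gradient_eq, e]
    simp only [gL2, cL, cl_cons, cl_nil, e1, e, cr_smul_left, cr_smul_right]
    rw [show (fun p => (wC p).2.1) = YY from rfl, show (fun p => (wC p).1) = xiC from rfl,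
      show (fun p => (wC p).2.2.1) = tauC from rfl]
    module

theorem regc_zt (hZ : Zip p z b) (hR : p ∈ RR) : Jet zt p z ∧ zt p = ze p := by
  have h : ze p < 150 - xp p := by linarith [hR.1]
  exact ⟨hZ.jz.min_left (continuousAt_const.sub ll_xp.continuous.continuousAt) h, min_eq_left h.le⟩

theorem regc_xp (hZ : Zip p z b) : Jet xp p (sg (p 0) • ex) := (Jet.c0 p).abs hZ.x0

/-- The case `|x| < 50`. -/
theorem regc_one (C : Casc 1000) (hZ : Zip p z b) (hR : p ∈ RR) (hC : 49 < ze p + pl p)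
    (g1 : Gen C.N xiC p) (g2 : Gen C.N tauC p) (g3 : Gen C.N YY p) (hx : xp p < 50) :
    LocForm C.κ C.K' (gPh C) (gD C) (gL1 C) (gL2 C) p z b := by
  obtain ⟨jt, et⟩ := regc_zt hZ hR
  have jx := regc_xp hZ
  have hx' := abs_lt.1 (show |p 0| < 50 from hx)
  have x0 := xp_nonneg p
  have hR1 := hR.1
  have ep : pl p = 0 := max_eq_right (by linarith)
  have jp : Jet pl p 0 := Jet.max_right (jx.sub_const 50).cont (Jet.const 0) (by linarith)
  have hζ : 49 < ze p := by linarith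
  have es : sC p = p 0 / 50 := clp_of_mem (by linarith) (by linarith)
  have js : Jet sC p ((50 : ℝ)⁻¹ • ex) :=
    ((Jet.c0 p).div_const 50).clp_mid (by linarith) (by linarith)
  have em : max (pl p + zt p) 49 = ze p := by rw [ep, et, zero_add, max_eq_left hζ.le]
  have er : rC p = 1 := by rw [rC, em, et, div_self hZ.pos.ne']
  have jr : Jet rC p 0 := (jt.div ((jp.add jt).max_left continuousAt_const (by linarith))
    (by rw [em]; exact hZ.pos.ne')).of_eq (by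
      have := hZ.pos.ne'
      rw [em, et]
      match_scalars
      field_simp
      ring)
  have em' : min (xp p) 50 = xp p := min_eq_left hx.le
  have hd : 0 < 101 - xp p := by linarith
  have q0 : 0 < (ze p + pl p - 49) / (101 - min (xp p) 50) := by
    rw [em']; exact div_pos (by linarith) hd
  have q1 : (ze p + pl p - 49) / (101 - min (xp p) 50) < 1 := by
    rw [em', div_lt_one hd]; linarith
  have eθ : thC p = (ze p + pl p - 49) / (101 - min (xp p) 50) := clp_of_mem q0.le q1.le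
  have jθ : Jet thC p ((thC p * sg (p 0) / (101 - xp p)) • ex + (1 / (101 - xp p)) • z) :=
    ((((hZ.jz.add jp).sub_const 49).div (Jet.const_sub 101 (jx.min_left continuousAt_const hx))
      (by rw [em']; exact hd.ne')).clp_mid q0 q1).of_eq (by
      rw [eθ, em']
      match_scalars <;> field_simp)
  rw [← eθ] at q0 q1
  have j1 := regc_t1 js jr
  have e1 : t1 p = -(1 + sC p ^ 2) / 8 := by rw [t1, er, one_pow, mul_one]
  have s1 : -1 < sC p := by rw [es]; linarith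
  have s2 : sC p < 1 := by rw [es]; linarith
  have s3 : sC p ^ 2 < 1 := by nlinarith
  have s4 := sq_nonneg (sC p)
  have jτ : Jet tauC p
      (((1 - thC p) * (-sC p / 200) + (2 - t1 p) * (thC p * sg (p 0) / (101 - xp p))) • ex +
        ((2 - t1 p) / (101 - xp p)) • z) := (regc_tau j1 jθ).of_eq (by
    rw [er]
    match_scalars <;> ring)
  have τz1 : 1 / 50 ≤ (2 - t1 p) / (101 - xp p) := by rw [le_div_iff₀ hd]; linarith
  have τz2 : (2 - t1 p) / (101 - xp p) ≤ 1 := by rw [div_le_one hd]; linarith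
  have τ1 : -1 < tauC p := by rw [tauC]; nlinarith
  have τ2 : tauC p < 2 := by rw [tauC]; nlinarith
  obtain ⟨e, -, -, jη, -⟩ := regc_eta C g2 jτ (fun e => by
    linarith [(regc_ind hZ e).2]) τ2
  have jξ : Jet xiC p ((1 / 150 : ℝ) • ex + (0 : ℝ) • z) := (regc_xi js jr jη).of_eq (by
    rw [er]
    match_scalars <;> ring)
  have eξ : xiC p = sC p / 3 := by rw [xiC, XC, er]; ring
  have aξ : |xiC p| ≤ 1 / 3 := by rw [eξ, abs_le]; constructor <;> linarith
  have a0 := abs_nonneg (xiC p)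
  have u0 : 0 < 9 + sC p ^ 2 := by positivity
  have eu : 1 - t1 p = (9 + sC p ^ 2) / 8 := by rw [e1]; ring
  refine regc_fin C hZ hC g1 g2 g3 (f₁ := 1536 * (9 - 5 * sC p ^ 2) / (9 + sC p ^ 2) ^ 4)
    ⟨jξ, jτ, Or.inl rfl, ⟨by norm_num [abs_le], by norm_num, ?_, ?_⟩, by nlinarith,
      by rw [abs_of_pos (by norm_num)]; linarith, by linarith, by linarith⟩ τ1 τ2 fun _ =>
    ⟨(regc_f js j1).of_eq ?_, (regc_F jr j1).of_eq ?_, ?_⟩
  · rw [show (2 - t1 p) * (thC p * sg (p 0) / (101 - xp p)) =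
      thC p * sg (p 0) * ((2 - t1 p) / (101 - xp p)) by ring, abs_le]
    rcases sg_cases (p 0) with h | h <;> rw [h] <;> constructor <;> nlinarith
  · rw [abs_le]; constructor <;> linarith
  · rw [eu, er]
    match_scalars <;> field_simp <;> ring
  · rw [fC, eu, er]
    match_scalars <;> field_simp <;> ring
  · have eF : FC p = -(128 / (3 * (9 + sC p ^ 2) ^ 2)) := by
      rw [FC, eu, er]; field_simp; ring
    have F1 : 128 / (3 * (9 + sC p ^ 2) ^ 2) ≤ 1 := by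
      rw [div_le_one (by positivity)]; nlinarith
    have F2 : 1 / 3 ≤ 128 / (3 * (9 + sC p ^ 2) ^ 2) := by
      rw [le_div_iff₀ (by positivity)]; nlinarith
    have aF : |FC p| = 128 / (3 * (9 + sC p ^ 2) ^ 2) := by
      rw [eF, abs_neg, abs_of_pos (by positivity)]
    refine ⟨?_, by rw [aF]; linarith, by rw [aF]; linarith,
      36 * (9 - 5 * sC p ^ 2) / (9 + sC p ^ 2) ^ 2, ?_, ?_, ?_⟩
    · have : 1 ≤ (1 - t1 p) ^ 3 := one_le_pow₀ (by linarith)
      rw [fC, abs_div, abs_of_pos (by linarith : 0 < (1 - t1 p) ^ 3), div_le_iff₀ (by linarith),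
        abs_le]
      constructor <;> linarith
    · rw [le_div_iff₀ (by positivity)]; nlinarith
    · rw [div_le_iff₀ (by positivity)]; nlinarith
    · rw [eF]; field_simp; ring

theorem regc_num1 {r θ i t a c : ℝ} (r0 : 0 < r) (r1 : r < 1) (q0 : 0 < θ) (q1 : θ < 1)
    (i0 : 1 / 100 < i) (i1 : i < 1 / 49) (e1 : t = -(1 + r ^ 2) / 8)
    (ha : a = (1 - θ) * r ^ 2 * i / 4 + (2 - t) / 51)
    (hc : c = -((1 - θ) * (r * (1 - r)) * i / 4) + (2 - t) / 51) :
    0 < a ∧ a < 1 ∧ 0 < c ∧ c < 1 ∧ -1 < t + θ * (2 - t) ∧ t + θ * (2 - t) < 2 := by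
  have r3 : r ^ 2 < 1 := by nlinarith
  have r4 : 0 < r ^ 2 := by positivity
  have h1 : 0 ≤ 1 - θ := by linarith
  have h2 : 0 ≤ 1 - r := by linarith
  have h3 : 0 ≤ i := by linarith
  have k1 : 0 ≤ (1 - θ) * r ^ 2 * i := by positivity
  have k2 : (1 - θ) * r ^ 2 * i ≤ i :=
    mul_le_of_le_one_left h3 (mul_le_one₀ (by linarith) r4.le r3.le)
  have k3 : 0 ≤ (1 - θ) * (r * (1 - r)) * i := by positivity
  have k4 : (1 - θ) * (r * (1 - r)) * i ≤ i :=
    mul_le_of_le_one_left h3 (mul_le_one₀ (by linarith) (by positivity)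
      (mul_le_one₀ r1.le h2 (by linarith)))
  have k5 : 0 < θ * (2 - t) := mul_pos q0 (by linarith)
  have k6 : θ * (2 - t) < 2 - t := mul_lt_of_lt_one_left (by linarith) q1
  exact ⟨by linarith, by linarith, by linarith, by linarith, by linarith, by linarith⟩

theorem regc_num2 {r i t a c e η m : ℝ} (r0 : 0 < r) (r1 : r < 1) (i0 : 1 / 100 < i)
    (i1 : i < 1 / 49) (t0 : t ≤ 0) (a0 : 0 < a) (a1 : a < 1) (c0 : 0 < c) (c1 : c < 1)
    (e0 : 0 ≤ e) (e1 : e ≤ 1) (η0 : 0 ≤ η) (η1 : η ≤ 1) (hm : m = 8 + η * (1 - 3 * r ^ 2)) :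
    0 ≤ η * (r - r ^ 3) ∧ η * (r - r ^ 3) ≤ r ∧
      |r * (m * i + (1 - r ^ 2) * e * a) / 12| ≤ r ∧
      |(-(m * ((1 - r) * i)) + (r - r ^ 3) * e * c) / 12| ≤ 10 ∧
      1 / 10 ^ 5 ≤ m * i * (2 - t) / 612 := by
  have r3 : r ^ 2 < 1 := by nlinarith
  have r4 : 0 < r ^ 2 := by positivity
  have m0 : 6 ≤ m := by nlinarith
  have m1 : m ≤ 9 := by nlinarith
  have w0 : 0 < r - r ^ 3 := by nlinarith
  have w1 : r - r ^ 3 < r := by linarith [pow_pos r0 3]
  have h1 : 0 ≤ 1 - r ^ 2 := by linarith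
  have h2 : 0 ≤ 1 - r := by linarith
  have h3 : 0 ≤ i := by linarith
  have h4 : 0 ≤ m := by linarith
  have b0 : 0 ≤ m * i + (1 - r ^ 2) * e * a := by positivity
  have b1 : (1 - r ^ 2) * e * a ≤ 1 :=
    mul_le_one₀ (mul_le_one₀ (by linarith) e0 e1) a0.le a1.le
  have b2 : m * i ≤ 9 * 1 := mul_le_mul m1 (by linarith) h3 (by norm_num)
  have b3 : 6 * (1 / 100) ≤ m * i := mul_le_mul m0 i0.le (by norm_num) h4
  have b4 : 0 ≤ m * ((1 - r) * i) := by positivity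
  have b5 : m * ((1 - r) * i) ≤ 9 * 1 :=
    mul_le_mul m1 (mul_le_one₀ (by linarith) h3 (by linarith)) (by positivity) (by norm_num)
  have b6 : 0 ≤ (r - r ^ 3) * e * c := by positivity
  have b7 : (r - r ^ 3) * e * c ≤ 1 := mul_le_one₀ (mul_le_one₀ (by linarith) e0 e1) c0.le c1.le
  have b8 : r * (m * i + (1 - r ^ 2) * e * a) ≤ r * 12 :=
    mul_le_mul_of_nonneg_left (by linarith) r0.le
  have b9 : m * i * 2 ≤ m * i * (2 - t) := mul_le_mul_of_nonneg_left (by linarith) (by linarith)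
  refine ⟨by positivity, (mul_le_of_le_one_left w0.le η1).trans w1.le, ?_, ?_, by linarith⟩
  · rw [abs_of_nonneg (by positivity)]
    linarith
  · rw [abs_le]
    constructor <;> linarith

theorem regc_prof {r ξ f F : ℝ} (r0 : 0 < r) (r1 : r < 1) (hf : |f| ≤ 1000)
    (aξ : |ξ| = 1 - (8 * r + 1 * (r - r ^ 3)) / 12)
    (eF : F = -2 * r / (3 * ((9 + r ^ 2) / 8) ^ 2)) :
    Prof 1000 ξ f F (12288 * r / ((9 + r ^ 2) ^ 4 * (3 - r ^ 2))) := by
  have r3 : r ^ 2 < 1 := by nlinarith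
  have r4 : 0 < r ^ 2 := by positivity
  have w0 : 0 < r - r ^ 3 := by nlinarith
  have w1 : 0 < r ^ 3 := by positivity
  have u1 : 0 < 3 - r ^ 2 := by linarith
  have v0 : 81 ≤ (9 + r ^ 2) ^ 2 := by nlinarith
  have v1 : (9 + r ^ 2) ^ 2 ≤ 100 := by nlinarith
  replace eF : F = -(128 / (3 * (9 + r ^ 2) ^ 2) * r) := by rw [eF]; field_simp; ring
  have F1 : 128 / (3 * (9 + r ^ 2) ^ 2) ≤ 1 := by rw [div_le_one (by positivity)]; linarith
  have F2 : 1 / 3 ≤ 128 / (3 * (9 + r ^ 2) ^ 2) := by rw [le_div_iff₀ (by positivity)]; linarith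
  have aF : |F| = 128 / (3 * (9 + r ^ 2) ^ 2) * r := by
    rw [eF, abs_neg, abs_of_pos (by positivity)]
  have F3 := mul_le_mul_of_nonneg_right F1 r0.le
  have F4 := mul_le_mul_of_nonneg_right F2 r0.le
  refine ⟨hf, by rw [aF, aξ]; linarith, by rw [aF, aξ]; linarith,
    288 / ((9 + r ^ 2) ^ 2 * (3 - r ^ 2)), ?_, ?_, ?_⟩
  · rw [le_div_iff₀ (by positivity)]; nlinarith
  · rw [div_le_iff₀ (by positivity)]; nlinarith
  · rw [eF]; field_simp; ring

/-- The case `|x| > 50`. -/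
theorem regc_two (C : Casc 1000) (hZ : Zip p z b) (hR : p ∈ RR) (hC : 49 < ze p + pl p)
    (g1 : Gen C.N xiC p) (g2 : Gen C.N tauC p) (g3 : Gen C.N YY p) (hx : 50 < xp p) :
    LocForm C.κ C.K' (gPh C) (gD C) (gL1 C) (gL2 C) p z b := by
  obtain ⟨jt, et⟩ := regc_zt hZ hR
  have jx := regc_xp hZ
  have hR1 := hR.1
  have hζ := hZ.pos
  have ep : pl p = xp p - 50 := max_eq_left (by linarith)
  have jp : Jet pl p (sg (p 0) • ex) := (jx.sub_const 50).max_left continuousAt_const (by linarith)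
  have hs : sC p = sg (p 0) ∧ Jet sC p 0 := by
    have c0 := ((Jet.c0 p).div_const 50).cont
    rcases lt_abs.1 (show 50 < |p 0| from hx) with h | h
    · exact ⟨by rw [sg, if_pos (by linarith)]; exact clp_of_ge (by norm_num) (by linarith),
        Jet.clp_high (by norm_num) c0 (by linarith)⟩
    · exact ⟨by rw [sg, if_neg (by linarith)]; exact clp_of_le (by linarith),
        Jet.clp_low c0 (by linarith)⟩
  obtain ⟨es, js⟩ := hs
  obtain ⟨ρ, hρ⟩ : ∃ ρ, ρ = ze p + pl p := ⟨_, rfl⟩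
  have ρ1 : 49 < ρ := by linarith
  have ρ2 : ρ < 100 := by linarith
  have ρ0 : 0 < ρ := by linarith
  have em : max (pl p + zt p) 49 = ρ := by rw [et, add_comm, ← hρ, max_eq_left ρ1.le]
  have er : rC p = ze p / ρ := by rw [rC, em, et]
  have r0 : 0 < rC p := by rw [er]; positivity
  have r1 : rC p < 1 := by rw [er, div_lt_one ρ0]; linarith
  have r2 : rC p ≤ ze p := by rw [er]; exact div_le_self hζ.le (by linarith)
  have jr : Jet rC p ((-(sg (p 0) * rC p) * ρ⁻¹) • ex + ((1 - rC p) * ρ⁻¹) • z) :=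
    (jt.div ((jp.add jt).max_left continuousAt_const (by linarith))
      (by rw [em]; exact ρ0.ne')).of_eq (by
      rw [em, et, er]
      match_scalars <;> field_simp)
  have em' : min (xp p) 50 = 50 := min_eq_right hx.le
  have q0 : 0 < (ze p + pl p - 49) / (101 - min (xp p) 50) := by
    rw [em']; exact div_pos (by linarith) (by norm_num)
  have q1 : (ze p + pl p - 49) / (101 - min (xp p) 50) < 1 := by
    rw [em', div_lt_one (by norm_num)]; linarith
  have eθ : thC p = (ze p + pl p - 49) / (101 - min (xp p) 50) := clp_of_mem q0.le q1.le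
  have jθ : Jet thC p ((sg (p 0) / 51) • ex + (1 / 51 : ℝ) • z) :=
    ((((hZ.jz.add jp).sub_const 49).div
      (Jet.const_sub 101 (Jet.min_right jx.cont (Jet.const 50) hx))
      (by rw [em']; norm_num)).clp_mid q0 q1).of_eq (by
      rw [em']
      match_scalars <;> ring)
  rw [← eθ] at q0 q1
  have j1 := regc_t1 js jr
  have hσ := sg_sq (p 0)
  have hσ2 : sg (p 0) ^ 2 = 1 := by rw [sq, hσ]
  have aσ : |sg (p 0)| = 1 := by rcases sg_cases (p 0) with h | h <;> rw [h] <;> simp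
  have e1 : t1 p = -(1 + rC p ^ 2) / 8 := by rw [t1, es, hσ2, one_mul]
  have i0 : 1 / 100 < ρ⁻¹ := by rw [one_div]; exact inv_strictAnti₀ ρ0 ρ2
  have i1 : ρ⁻¹ < 1 / 49 := by rw [one_div]; exact inv_strictAnti₀ (by norm_num) ρ1
  obtain ⟨a, ha⟩ : ∃ a, a = (1 - thC p) * rC p ^ 2 * ρ⁻¹ / 4 + (2 - t1 p) / 51 := ⟨_, rfl⟩
  obtain ⟨c, hc⟩ : ∃ c, c = -((1 - thC p) * (rC p * (1 - rC p)) * ρ⁻¹ / 4) + (2 - t1 p) / 51 :=
    ⟨_, rfl⟩
  have jτ : Jet tauC p ((sg (p 0) * a) • ex + c • z) := (regc_tau j1 jθ).of_eq (by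
    rw [es, hσ2, ha, hc]
    match_scalars <;> ring)
  obtain ⟨a0, a1, c0, c1, τ1, τ2⟩ := regc_num1 r0 r1 q0 q1 i0 i1 e1 ha hc
  obtain ⟨e, e0, e1', jη, hη⟩ := regc_eta C g2 jτ (fun e => c0.ne' (regc_ind hZ e).2) τ2
  obtain ⟨η, hη'⟩ : ∃ η, η = 1 - clp 0 1 (tauC p - 1) := ⟨_, rfl⟩
  have η0 : 0 ≤ η := by linarith [clp_le zero_le_one (tauC p - 1)]
  have η1 : η ≤ 1 := by linarith [le_clp 0 1 (tauC p - 1)]
  obtain ⟨m, hm⟩ : ∃ m, m = 8 + η * (1 - 3 * rC p ^ 2) := ⟨_, rfl⟩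
  have jξ : Jet xiC p ((rC p * (m * ρ⁻¹ + (1 - rC p ^ 2) * e * a) / 12) • ex +
      (sg (p 0) * ((-(m * ((1 - rC p) * ρ⁻¹)) + (rC p - rC p ^ 3) * e * c) / 12)) • z) :=
    (regc_xi js jr jη).of_eq (by
      rw [es, ← hη', ← hm]
      match_scalars
      · linear_combination (rC p * (m * ρ⁻¹ + (1 - rC p ^ 2) * e * a) / 12) * hσ
      · ring)
  have t0 := t1_le p
  obtain ⟨w2, w3, b2, b3, b4⟩ :=
    regc_num2 (t := t1 p) r0 r1 i0 i1 (by linarith) a0 a1 c0 c1 e0 e1' η0 η1 hm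
  have aξ : |xiC p| = 1 - (8 * rC p + η * (rC p - rC p ^ 3)) / 12 := by
    rw [xiC, XC, es, ← hη', abs_div, abs_mul, aσ, abs_of_pos (by linarith),
      abs_of_pos (by norm_num)]
    ring
  have u0 : 0 < 9 + rC p ^ 2 := by positivity
  have u1 : 0 < 3 - rC p ^ 2 := by linarith [pow_le_one₀ r0.le r1.le (n := 2)]
  have eu : 1 - t1 p = (9 + rC p ^ 2) / 8 := by rw [e1]; ring
  refine regc_fin C hZ hC g1 g2 g3 (f₁ := 12288 * rC p / ((9 + rC p ^ 2) ^ 4 * (3 - rC p ^ 2)))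
    ⟨jξ, jτ, Or.inl rfl, ⟨by linarith, ?_, ?_, ?_⟩, ?_, by linarith, by linarith, by linarith⟩ τ1 τ2
    fun h => ?_
  · rwa [abs_mul, aσ, one_mul]
  · rw [abs_mul, aσ, abs_of_pos a0]; linarith
  · rw [abs_of_pos c0]; linarith
  · refine b4.trans_eq ?_
    have : rC p * c + (1 - rC p) * a = (2 - t1 p) / 51 := by rw [ha, hc]; ring
    linear_combination (-(m * ρ⁻¹ / 12)) * this +
      ((-(m * ((1 - rC p) * ρ⁻¹)) + (rC p - rC p ^ 3) * e * c) / 12 * a) * hσ
  · obtain ⟨rfl, hz⟩ := hη h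
    rw [hz, sub_zero] at hη'
    subst hη'
    have em : m = 3 * (3 - rC p ^ 2) := by rw [hm]; ring
    refine ⟨(regc_f js j1).of_eq ?_, (regc_F jr j1).of_eq ?_,
      regc_prof r0 r1 ?_ aξ (by rw [FC, eu])⟩
    · rw [eu, es, hσ2, em]
      rcases sg_cases (p 0) with h | h <;> rw [h] <;> match_scalars <;> field_simp <;> ring
    · rw [fC, eu, es, hσ2, em]
      rcases sg_cases (p 0) with h | h <;> rw [h] <;> match_scalars <;> field_simp <;> ring
    · have : 1 ≤ (1 - t1 p) ^ 3 := one_le_pow₀ (by linarith)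
      rw [fC, abs_div, es, aσ, abs_of_pos (by linarith : 0 < (1 - t1 p) ^ 3),
        div_le_iff₀ (by linarith)]
      linarith

end aux

/-- Here `ξ = xiC`, `τ = tauC`, `A = C.D ∘ wC`, `L = cL C.P1 C.P2 C.X wC`, `o = 1`, `ν = 1/2`,
`m = (24, 0, 0, 1)`; `zt = ze`, `0 < thC < 1` near `p`.  Case `xp < 50`: `sC = x/50`, `rC = 1`,
`xiC = x/150`, `thC = (ze - 49)/(101 - xp)`.  Case `xp > 50`: `sC = sg x`, `rC = ze/rho`,
`thC = (rho - 49)/51`; first get the jet of `tauC` (its `z`-coefficient is positive, and `ex, z` are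
independent by `hZ.det`), so `tauC p ≠ 1` by `g2`, `C.hN1`; then
`12 ∇ xiC = -sC (8 + (1 - η)(1 - 3 r²)) ∇ r + sC (r - r³) η' ∇ τ`, `η = clp 0 1 (τ - 1)`.
For `τ < 1`: `η = 0`, `∇ FC = fC ∇ xiC`, `∇ fC = f₁ ∇ xiC` with `f₁ = 1536 (9 - 5 s²)/(9 + s²)⁴`
(first case), `f₁ = 36864 r/((9 + r²)⁴ (9 - 3 r²))` (second case).  The `A`-cascade terms of `gL1`
vanish near `p` (`tauA = 0`). -/
theorem regC (C : Casc 1000) {p z b : E} (hZ : Zip p z b) (hR : p ∈ RR) (hC : 49 < ze p + pl p)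
    (g1 : Gen C.N xiC p) (g2 : Gen C.N tauC p) (g3 : Gen C.N YY p) :
    LocForm C.κ C.K' (gPh C) (gD C) (gL1 C) (gL2 C) p z b := by
  have h : xp p ≠ 50 := fun e => hZ.gen 1 0 50 (by simp) (by push_cast; linarith)
  rcases h.lt_or_gt with h | h
  exacts [regc_one C hZ hR hC g1 g2 g3 h, regc_two C hZ hR hC g1 g2 g3 h]

end Crest.Agent.R083
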