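import Crest.Agent.R083.Basic

/-! Row 83: the similarities. -/

set_option autoImplicit false

namespace Crest.Agent.R083

open MeasureTheory Filter Topology Set
open scoped Gradient RealInnerProductSpace

variable {s : ℝ}

theorem SI_SS (s : ℝ) (p : E) : SI s (SS s p) = p := by
  refine ext3 ?_ ?_ ?_ <;> simp <;> ring

theorem SS_SI (s : ℝ) (p : E) : SS s (SI s p) = p := by
  refine ext3 ?_ ?_ ?_ <;> simp <;> ring

/-- The swap of the first two coordinates. -/
noncomputable def sim_sw : E ≃ₗᵢ[ℝ] E := LinearIsometryEquiv.piLpCongrLeft 2 ℝ ℝ (Equiv.swap 0 1)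

theorem sim_sw0 (p : E) : sim_sw p 0 = p 1 := by
  simp [sim_sw, LinearIsometryEquiv.piLpCongrLeft_apply, Equiv.piCongrLeft']

theorem sim_sw1 (p : E) : sim_sw p 1 = p 0 := by
  simp [sim_sw, LinearIsometryEquiv.piLpCongrLeft_apply, Equiv.piCongrLeft']

theorem sim_sw2 (p : E) : sim_sw p 2 = p 2 := by
  simp [sim_sw, LinearIsometryEquiv.piLpCongrLeft_apply, Equiv.piCongrLeft',
    Equiv.swap_apply_of_ne_of_ne (show (2 : Fin 3) ≠ 0 by decide) (show (2 : Fin 3) ≠ 1 by decide)]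

theorem sim_SS_eq (s : ℝ) (p : E) : SS s p = (8 / 15 : ℝ) • sim_sw p + (50 * s) • ex := by
  refine ext3 ?_ ?_ ?_ <;> simp [sim_sw0, sim_sw1, sim_sw2] <;> ring

theorem sim_SI_eq (s : ℝ) (p : E) : SI s p = (15 / 8 : ℝ) • sim_sw (p - (50 * s) • ex) := by
  refine ext3 ?_ ?_ ?_ <;> simp [sim_sw0, sim_sw1, sim_sw2]

/-- The linear part of `SS s`. -/
noncomputable def sim_L : E ≃L[ℝ] E :=
  sim_sw.toContinuousLinearEquiv.trans
    (ContinuousLinearEquiv.smulLeft (R₁ := ℝ) (M₁ := E) (Units.mk0 (8 / 15 : ℝ) (by norm_num)))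

theorem sim_L_apply (p : E) : sim_L p = (8 / 15 : ℝ) • sim_sw p := rfl

theorem sim_grad_SS (s : ℝ) (f : E → ℝ) (p : E) :
    ∇ (fun y => f (SS s y)) p = (8 / 15 : ℝ) • sim_sw (∇ f (SS s p)) := by
  refine grad_ext fun w => ?_
  have e : (fun y => f (SS s y)) = (fun y => f (y + (50 * s) • ex)) ∘ sim_L := by
    funext y
    simp only [Function.comp, sim_L_apply, sim_SS_eq]
  rw [e, ContinuousLinearEquiv.comp_right_fderiv, fderiv_comp_add_right, sim_L_apply, ← sim_SS_eq]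
  simp only [ContinuousLinearMap.comp_apply, ContinuousLinearEquiv.coe_coe, sim_L_apply]
  rw [← inner_gradient_left, inner3, inner3]
  simp only [PiLp.smul_apply, smul_eq_mul, sim_sw0, sim_sw1, sim_sw2]
  ring

theorem SS_mem (s : ℝ) (p : E) : SS s p ∈ CC s ↔ p ∈ PP := by
  have h0 : |50 * s + 8 / 15 * p 1 - 50 * s| = 8 / 15 * |p 1| := by
    rw [show 50 * s + 8 / 15 * p 1 - 50 * s = 8 / 15 * p 1 by ring, abs_mul]; norm_num
  have h1 : |8 / 15 * p 0| = 8 / 15 * |p 0| := by rw [abs_mul]; norm_num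
  have h2 : |8 / 15 * p 2| = 8 / 15 * |p 2| := by rw [abs_mul]; norm_num
  simp only [CC, PP, mem_ofPred_eq, SS0, SS1, SS2, h0, h1, h2]
  constructor <;> rintro ⟨a, b⟩ <;> constructor <;> linarith

theorem SI_mem (s : ℝ) (p : E) : SI s p ∈ PP ↔ p ∈ CC s := by
  rw [← SS_mem s, SS_SI]

theorem CC_sub (hs : s = 1 ∨ s = -1) : CC s ⊆ PP := by
  rintro p ⟨h1, h2⟩
  refine ⟨?_, by linarith⟩
  have : |p 0| ≤ |p 0 - 50 * s| + 50 := by
    have h := abs_add_le (p 0 - 50 * s) (50 * s)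
    rw [sub_add_cancel] at h
    have h3 : |50 * s| = 50 := by rcases hs with rfl | rfl <;> norm_num
    linarith
  linarith

theorem CC_disj : Disjoint (CC 1) (CC (-1)) := by
  rw [Set.disjoint_left]
  rintro p ⟨h1, -⟩ ⟨h2, -⟩
  have a1 := neg_abs_le (p 0 - 50 * 1)
  have a2 := le_abs_self (p 0 - 50 * -1)
  have a3 := abs_nonneg (p 2)
  linarith

theorem isClosed_PP : IsClosed PP := by
  have h1 : IsClosed {p : E | |p 0| + |p 2| ≤ 150} := isClosed_le (by fun_prop) continuous_const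
  have h2 : IsClosed {p : E | |p 1| + |p 2| ≤ 90} := isClosed_le (by fun_prop) continuous_const
  exact h1.inter h2

theorem isClosed_CC (s : ℝ) : IsClosed (CC s) := by
  have h1 : IsClosed {p : E | |p 0 - 50 * s| + |p 2| ≤ 48} :=
    isClosed_le (by fun_prop) continuous_const
  have h2 : IsClosed {p : E | |p 1| + |p 2| ≤ 80} := isClosed_le (by fun_prop) continuous_const
  exact h1.inter h2

theorem PP_norm {p : E} (h : p ∈ PP) : ‖p‖ ≤ 175 := by
  obtain ⟨h1, h2⟩ := h
  refine (abs_le_of_sq_le_sq' ?_ (by norm_num)).2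
  rw [norm_sq3, ← sq_abs (p 0), ← sq_abs (p 1), ← sq_abs (p 2)]
  have a0 := abs_nonneg (p 0)
  have a1 := abs_nonneg (p 1)
  have a2 := abs_nonneg (p 2)
  nlinarith [mul_nonneg a0 a2, mul_nonneg a1 a2]

theorem dist_SS (s : ℝ) (p q : E) : dist (SS s p) (SS s q) = 8 / 15 * dist p q := by
  rw [sim_SS_eq, sim_SS_eq, dist_add_right, dist_smul₀, sim_sw.dist_map]
  norm_num

theorem ll_SS (s : ℝ) : LocallyLipschitz (SS s) := by
  refine (LipschitzWith.of_dist_le_mul (K := 1) fun p q => ?_).locallyLipschitz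
  rw [dist_SS]
  have := dist_nonneg (x := p) (y := q)
  simp only [NNReal.coe_one]
  linarith

theorem ll_SI (s : ℝ) : LocallyLipschitz (SI s) := by
  refine (LipschitzWith.of_dist_le_mul (K := 2) fun p q => ?_).locallyLipschitz
  have h := dist_SS s (SI s p) (SI s q)
  rw [SS_SI, SS_SI] at h
  have := dist_nonneg (x := p) (y := q)
  simp only [NNReal.coe_ofNat]
  linarith

/-- Change of variables: `SS s` is a translation composed with `8/15` times a linear isometry. -/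
theorem integral_SS (s : ℝ) (g : E → ℝ) : ∫ p, g p = (8 / 15) ^ 3 * ∫ p, g (SS s p) := by
  have h1 : ∫ p, g (SS s p) = ∫ p, g ((8 / 15 : ℝ) • p + (50 * s) • ex) := by
    simp only [sim_SS_eq]
    exact sim_sw.measurePreserving.integral_comp sim_sw.toHomeomorph.measurableEmbedding
      fun p => g ((8 / 15 : ℝ) • p + (50 * s) • ex)
  have h2 := Measure.integral_comp_smul (volume : Measure E) (fun p => g (p + (50 * s) • ex))
    (8 / 15 : ℝ)
  rw [h1, h2, integral_add_right_eq_self g, finrank_euclideanSpace_fin, smul_eq_mul,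
    abs_of_pos (by positivity)]
  field_simp

/-- No differentiability is needed (`ContinuousLinearEquiv.comp_right_fderiv`,
`fderiv_comp_add_right`). -/
theorem inner_grad_SS (s : ℝ) (f g : E → ℝ) (p : E) :
    ⟪∇ (fun y => f (SS s y)) p, ∇ (fun y => g (SS s y)) p⟫ =
      (8 / 15) ^ 2 * ⟪∇ f (SS s p), ∇ g (SS s p)⟫ := by
  rw [sim_grad_SS, sim_grad_SS, inner_smul_left, inner_smul_right, sim_sw.inner_map_map]
  simp only [conj_trivial]
  ring

theorem ez_grad_SS (s : ℝ) (f : E → ℝ) (p : E) :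
    ⟪ez, ∇ (fun y => f (SS s y)) p⟫ = 8 / 15 * ⟪ez, ∇ f (SS s p)⟫ := by
  rw [sim_grad_SS, inner3, inner3]
  simp [sim_sw2]

theorem transport (s : ℝ) (γ W f : E → ℝ) :
    ∫ p, γ p * ⟪∇ (fun y => W (SI s y)) p, ∇ f p⟫ =
      8 / 15 * ∫ p, γ (SS s p) * ⟪∇ W p, ∇ (fun y => f (SS s y)) p⟫ := by
  rw [integral_SS s]
  have : ∀ p, γ (SS s p) * ⟪∇ W p, ∇ (fun y => f (SS s y)) p⟫ =
      (8 / 15) ^ 2 * (γ (SS s p) * ⟪∇ (fun y => W (SI s y)) (SS s p), ∇ f (SS s p)⟫) := by
    intro p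
    have h := inner_grad_SS s (fun y => W (SI s y)) f p
    simp only [SI_SS] at h
    rw [h]; ring
  simp only [this, integral_const_mul]
  ring

theorem setIntegral_ez (s : ℝ) (f : E → ℝ) :
    ∫ p in CC s, ⟪ez, ∇ f p⟫ = 64 / 225 * ∫ p in PP, ⟪ez, ∇ (fun y => f (SS s y)) p⟫ := by
  rw [← integral_indicator (isClosed_CC s).measurableSet,
    ← integral_indicator isClosed_PP.measurableSet, integral_SS s]
  have : ∀ p, PP.indicator (fun p => ⟪ez, ∇ (fun y => f (SS s y)) p⟫) p =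
      8 / 15 * (CC s).indicator (fun p => ⟪ez, ∇ f p⟫) (SS s p) := by
    intro p
    by_cases hp : p ∈ PP
    · rw [indicator_of_mem hp, indicator_of_mem ((SS_mem s p).2 hp), ez_grad_SS]
    · rw [indicator_of_notMem hp, indicator_of_notMem (fun h => hp ((SS_mem s p).1 h)), mul_zero]
  simp only [this, integral_const_mul]
  ring

end Crest.Agent.R083
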