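import Crest.Agent.R083.GlueLip
import Crest.Agent.R083.Sim

/-! Row 83: elementary facts on the geometry of the cell. -/

set_option autoImplicit false

namespace Crest.Agent.R083

open MeasureTheory Filter Topology Set
open scoped Gradient RealInnerProductSpace

theorem ll_xp : LocallyLipschitz xp := LL.abs (LL.coord 0)
theorem ll_vv : LocallyLipschitz vv := LL.add (LL.abs (LL.coord 1)) (LL.abs (LL.coord 2))
theorem ll_ze : LocallyLipschitz ze :=
  LL.max (LL.abs (LL.coord 2)) (LL.max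
    (LL.sub (LL.sub ll_vv (LL.const _)) (LL.abs (LL.sub ll_xp (LL.const _))))
    (LL.sub (LL.mul (LL.const _) (LL.sub ll_vv (LL.const _))) ll_xp))
theorem ll_hh : LocallyLipschitz hh :=
  LL.clp _ _ (LL.min (LL.add (LL.add (LL.const _) (LL.abs (LL.sub ll_xp (LL.const _)))) ll_ze)
    (LL.add (LL.const _) (LL.div_const (LL.add ll_xp ll_ze) _)))
theorem hh_ge (p : E) : 80 ≤ hh p := le_clp _ _ _
theorem hh_le (p : E) : hh p ≤ 90 := clp_le (by norm_num) _
theorem ll_YY : LocallyLipschitz YY :=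
  LL.div (LL.coord 1) ll_hh fun p => (lt_of_lt_of_le (by norm_num) (hh_ge p)).ne'
theorem ll_rho : LocallyLipschitz rho := LL.add (LL.abs (LL.sub ll_xp (LL.const _))) ll_ze
theorem ll_pl : LocallyLipschitz pl := LL.max (LL.sub ll_xp (LL.const _)) (LL.const _)
theorem ll_sx : LocallyLipschitz sx := LL.clp _ _ (LL.coord 0)
theorem xp_nonneg (p : E) : 0 ≤ xp p := abs_nonneg _
theorem abs_le_ze (p : E) : |p 2| ≤ ze p := le_max_left _ _
theorem ze_nonneg (p : E) : 0 ≤ ze p := (abs_nonneg _).trans (abs_le_ze p)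
theorem pl_nonneg (p : E) : 0 ≤ pl p := le_max_right _ _
theorem ze_add_pl_le (p : E) : ze p + pl p ≤ rho p := by
  have : pl p ≤ |xp p - 50| := max_le (le_abs_self _) (abs_nonneg _)
  unfold rho; linarith
theorem ll_xiA : LocallyLipschitz xiA :=
  LL.div (LL.neg (LL.sub ll_xp (LL.const _))) (LL.clp _ _ ll_rho) fun _ =>
    (lt_of_lt_of_le (by norm_num) (le_clp _ _ _)).ne'
theorem ll_tauA : LocallyLipschitz tauA :=
  LL.mul (LL.const _) (LL.sub (LL.const _) (LL.clp _ _ ll_rho))
theorem ll_fA : LocallyLipschitz fA :=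
  LL.mul (LL.mul (LL.const _) ll_xiA) (LL.sub (LL.const _) (LL.abs ll_xiA))
theorem ll_FA : LocallyLipschitz FA :=
  LL.add (LL.sub (LL.const _) (LL.mul (LL.const _) (LL.pow ll_xiA _))) (LL.pow (LL.abs ll_xiA) _)
theorem ll_wA : LocallyLipschitz wA :=
  ll_xiA.prodMk (ll_YY.prodMk (ll_tauA.prodMk (ll_fA.prodMk ll_FA)))
theorem ll_vB : LocallyLipschitz vB := LL.div_const ll_ze _
theorem ll_sB : LocallyLipschitz sB :=
  LL.div (LL.coord 0) (LL.add (LL.const _) ll_ze) fun p => by have := ze_nonneg p; positivity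
theorem ll_PhB : LocallyLipschitz PhB :=
  LL.sub (LL.add (LL.const _) (LL.mul (LL.const _) (LL.pow ll_vB _)))
    (LL.mul (LL.mul (LL.const _) (LL.add (LL.const _) (LL.pow ll_vB _))) (LL.pow ll_sB _))
theorem ll_XB : LocallyLipschitz XB :=
  LL.mul (LL.add (LL.mul (LL.const _) ll_vB) (LL.pow ll_vB _)) ll_sB
theorem ll_zt : LocallyLipschitz zt := LL.min ll_ze (LL.sub (LL.const _) ll_xp)
theorem ll_sC : LocallyLipschitz sC := LL.clp _ _ (LL.div_const (LL.coord 0) _)
theorem ll_rC : LocallyLipschitz rC :=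
  LL.div ll_zt (LL.max (LL.add ll_pl ll_zt) (LL.const _)) fun _ =>
    (lt_of_lt_of_le (by norm_num) (le_max_right _ _)).ne'
theorem ll_t1 : LocallyLipschitz t1 :=
  LL.div_const (LL.neg (LL.add (LL.const _) (LL.mul (LL.pow ll_sC _) (LL.pow ll_rC _)))) _
theorem t1_le (p : E) : t1 p ≤ -1 / 8 := by
  have : 0 ≤ sC p ^ 2 * rC p ^ 2 := by positivity
  unfold t1; linarith
theorem ll_thC : LocallyLipschitz thC :=
  LL.clp _ _ (LL.div (LL.sub (LL.add ll_ze ll_pl) (LL.const _))
    (LL.sub (LL.const _) (LL.min ll_xp (LL.const _))) fun p =>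
      (show (0 : ℝ) < 101 - min (xp p) 50 by linarith [min_le_right (xp p) 50]).ne')
theorem ll_tauC : LocallyLipschitz tauC := LL.add ll_t1 (LL.mul ll_thC (LL.sub (LL.const _) ll_t1))
theorem ll_XC : LocallyLipschitz XC :=
  LL.mul ll_sC (LL.sub (LL.sub (LL.const _) (LL.mul (LL.const _) ll_rC))
    (LL.mul (LL.sub (LL.const _) (LL.clp _ _ (LL.sub ll_tauC (LL.const _))))
      (LL.sub ll_rC (LL.pow ll_rC _))))
theorem ll_xiC : LocallyLipschitz xiC := LL.div_const ll_XC _
theorem ll_fC : LocallyLipschitz fC :=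
  LL.div ll_sC (LL.pow (LL.sub (LL.const _) ll_t1) _) fun p =>
    pow_ne_zero _ (by linarith [t1_le p])
theorem ll_FC : LocallyLipschitz FC :=
  LL.div (LL.mul (LL.const _) ll_rC) (LL.mul (LL.const _) (LL.pow (LL.sub (LL.const _) ll_t1) _))
    fun p => mul_ne_zero (by norm_num) (pow_ne_zero _ (by linarith [t1_le p]))
theorem ll_wC : LocallyLipschitz wC :=
  ll_xiC.prodMk (ll_YY.prodMk (ll_tauC.prodMk (ll_fC.prodMk ll_FC)))

theorem mem_PP_iff (p : E) : p ∈ PP ↔ xp p + ze p ≤ 150 := by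
  have h1 := neg_abs_le (xp p - 50)
  have h2 := xp_nonneg p
  have h3 := le_abs_self (xp p - 50)
  simp only [PP, mem_setOf_eq, ← le_sub_iff_add_le', ze, max_le_iff]
  simp only [xp, vv] at *
  constructor
  · rintro ⟨a, b⟩
    exact ⟨a, by linarith, by linarith⟩
  · rintro ⟨a, -, b⟩
    exact ⟨a, by linarith⟩

theorem rho_le_iff (p : E) : rho p ≤ 48 ↔ p ∈ CC 1 ∨ p ∈ CC (-1) := by
  have h0 := abs_nonneg (p 2)
  have key : rho p ≤ 48 ↔ |xp p - 50| + |p 2| ≤ 48 ∧ |p 1| + |p 2| ≤ 80 := by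
    have h1 := neg_abs_le (xp p - 50)
    simp only [rho, ← le_sub_iff_add_le', ze, max_le_iff, vv]
    constructor
    · rintro ⟨a, b, -⟩
      exact ⟨a, by linarith⟩
    · rintro ⟨a, b⟩
      exact ⟨a, by linarith, by linarith⟩
  rw [key]
  simp only [CC, mem_setOf_eq, xp, mul_one, mul_neg, sub_neg_eq_add]
  rcases le_total 0 (p 0) with h | h
  · rw [abs_of_nonneg h]
    refine ⟨Or.inl, fun h' => h'.elim id fun h' => ?_⟩
    linarith [le_abs_self (p 0 + 50), h'.1]
  · rw [abs_of_nonpos h, show -p 0 - 50 = -(p 0 + 50) by ring, abs_neg]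
    refine ⟨Or.inr, fun h' => h'.elim (fun h' => ?_) id⟩
    linarith [neg_abs_le (p 0 - 50), h'.1]

theorem isOpen_RR : IsOpen RR :=
  (isOpen_lt (ll_xp.continuous.add ll_ze.continuous) continuous_const).inter
    (isOpen_lt continuous_const ll_rho.continuous)

theorem RR_sub : RR ⊆ PP := fun p hp => (mem_PP_iff p).2 hp.1.le

theorem RR_not_CC {p : E} (hp : p ∈ RR) {s : ℝ} (hs : s = 1 ∨ s = -1) : p ∉ CC s := fun h => by
  refine hp.2.not_ge ((rho_le_iff p).2 ?_)
  rcases hs with rfl | rfl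
  exacts [Or.inl h, Or.inr h]

theorem bdd_PP : Bornology.IsBounded PP :=
  (Metric.isBounded_closedBall (x := (0 : E)) (r := 175)).subset fun p hp => by
    simpa using PP_norm hp

theorem bdd_RR : Bornology.IsBounded RR := bdd_PP.subset RR_sub

/-- In `RR` the clamp in `hh` is inactive. -/
theorem hh_mem {p : E} (hp : p ∈ RR) (h0 : 0 < ze p) :
    80 < min (32 + |xp p - 50| + ze p) (80 + (xp p + ze p) / 15) ∧
      min (32 + |xp p - 50| + ze p) (80 + (xp p + ze p) / 15) < 90 := by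
  obtain ⟨h1, h2⟩ := hp
  have := xp_nonneg p
  unfold rho at h2
  exact ⟨lt_min (by linarith) (by linarith), (min_le_right _ _).trans_lt (by linarith)⟩

theorem thC_eq_zero {p : E} (h : ze p + pl p ≤ 49) : thC p = 0 :=
  clp_of_le (div_nonpos_of_nonpos_of_nonneg (by linarith) (by linarith [min_le_right (xp p) 50]))

theorem tauC_nonpos {p : E} (h : ze p + pl p ≤ 49) : tauC p ≤ 0 := by
  rw [tauC, thC_eq_zero h]
  linarith [t1_le p]

theorem tauA_eq_zero {p : E} (h : 49 ≤ rho p) : tauA p = 0 := by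
  rw [tauA, clp_of_ge (by norm_num) h, sub_self, mul_zero]

theorem ll_glue3 {a b c : E → ℝ} (ha : LocallyLipschitz a) (hb : LocallyLipschitz b)
    (hc : LocallyLipschitz c) (hab : ∀ p, rho p = 49 → ze p + pl p ≤ 49 → a p = b p)
    (hac : ∀ p, rho p = 49 → 49 ≤ ze p + pl p → a p = c p)
    (hbc : ∀ p, 49 < rho p → ze p + pl p = 49 → b p = c p) : LocallyLipschitz (glue3 a b c) := by
  have c1 := ll_rho.continuous
  have c2 := ll_ze.continuous.add ll_pl.continuous
  refine ll_of_cover (ι := Fin 3) (K := ![{p | rho p ≤ 49}, {p | 49 ≤ rho p ∧ ze p + pl p ≤ 49},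
    {p | 49 ≤ rho p ∧ 49 ≤ ze p + pl p}]) (g := ![a, b, c]) (fun i => ?_) (fun p => ?_)
    (fun i => ?_) fun i p hp => ?_
  · fin_cases i
    exacts [isClosed_le c1 continuous_const,
      (isClosed_le continuous_const c1).inter (isClosed_le c2 continuous_const),
      (isClosed_le continuous_const c1).inter (isClosed_le continuous_const c2)]
  · rcases le_total (rho p) 49 with h | h
    · exact ⟨0, h⟩
    · rcases le_total (ze p + pl p) 49 with h' | h'
      exacts [⟨1, h, h'⟩, ⟨2, h, h'⟩]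
  · fin_cases i
    exacts [ha, hb, hc]
  · fin_cases i
    · exact if_pos hp
    · show glue3 a b c p = b p
      unfold glue3
      split_ifs with h1 h2
      exacts [hab p (le_antisymm h1 hp.1) hp.2, rfl, absurd hp.2 h2]
    · show glue3 a b c p = c p
      unfold glue3
      split_ifs with h1 h2
      exacts [hac p (le_antisymm h1 hp.1) hp.2, hbc p (not_le.1 h1) (le_antisymm h2 hp.2), rfl]

theorem glue3_A {a b c : E → ℝ} {p : E} (h : rho p < 49) : glue3 a b c =ᶠ[𝓝 p] a :=
  (ll_rho.continuous.continuousAt.eventually_lt continuousAt_const h).mono fun _ hy => if_pos hy.le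

theorem glue3_B {a b c : E → ℝ} {p : E} (h : 49 < rho p) (h' : ze p + pl p < 49) :
    glue3 a b c =ᶠ[𝓝 p] b := by
  filter_upwards [continuousAt_const.eventually_lt ll_rho.continuous.continuousAt h,
    (ll_ze.continuous.add ll_pl.continuous).continuousAt.eventually_lt continuousAt_const h']
    with y h1 h2
  rw [glue3, if_neg h1.not_ge, if_pos (show ze y + pl y < 49 from h2).le]

theorem glue3_C {a b c : E → ℝ} {p : E} (h : 49 < ze p + pl p) : glue3 a b c =ᶠ[𝓝 p] c := by
  filter_upwards [continuousAt_const.eventually_lt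
    (ll_ze.continuous.add ll_pl.continuous).continuousAt h] with y h1
  have h2 : 49 < ze y + pl y := h1
  rw [glue3, if_neg (h2.trans_le (ze_add_pl_le y)).not_ge, if_neg h2.not_ge]

/-- Almost every point avoids the ports. -/
theorem ae_ne_port : ∀ᵐ p : E, xp p + ze p ≠ 150 ∧ rho p ≠ 48 := by
  filter_upwards [ae_int] with p hp
  have key : ∀ a d : ℤ, (a : ℝ) * xp p + ze p ≠ d := fun a d e => by
    unfold ze vv at e
    rcases max_choice |p 2| (max (|p 1| + |p 2| - 32 - |xp p - 50|)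
      (15 * (|p 1| + |p 2| - 80) - xp p)) with h | h
    · exact hp a 0 1 d (by simp) (by rw [h] at e; unfold xp at e; push_cast; linarith)
    · rcases max_choice (|p 1| + |p 2| - 32 - |xp p - 50|) (15 * (|p 1| + |p 2| - 80) - xp p)
        with h' | h'
      · rw [h, h'] at e
        rcases abs_choice (xp p - 50) with h'' | h'' <;> rw [h''] at e <;> unfold xp at e
        · exact hp (a - 1) 1 1 (d - 18) (by simp) (by push_cast; linarith)
        · exact hp (a + 1) 1 1 (d + 82) (by simp) (by push_cast; linarith)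
      · rw [h, h'] at e
        unfold xp at e
        exact hp (a - 1) 15 15 (d + 1200) (by simp) (by push_cast; linarith)
  refine ⟨fun e => key 1 150 (by push_cast; linarith), fun e => ?_⟩
  unfold rho at e
  rcases abs_choice (xp p - 50) with h | h <;> rw [h] at e
  · exact key 1 98 (by push_cast; linarith)
  · exact key (-1) (-2) (by push_cast; linarith)

theorem ae_PP : ∀ᵐ p : E, p ∈ PP ↔ p ∈ RR ∨ p ∈ CC 1 ∨ p ∈ CC (-1) := by
  filter_upwards [ae_ne_port] with p hp
  refine ⟨fun h => ?_, fun h => h.elim (fun h => RR_sub h) fun h =>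
    h.elim (fun h => CC_sub (Or.inl rfl) h) fun h => CC_sub (Or.inr rfl) h⟩
  by_cases h' : rho p ≤ 48
  · exact Or.inr ((rho_le_iff p).1 h')
  · exact Or.inl ⟨lt_of_le_of_ne ((mem_PP_iff p).1 h) hp.1, not_le.1 h'⟩

end Crest.Agent.R083
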