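import Crest.Agent.R083.NL
import Crest.Agent.R083.Geo

/-! Row 83: the weak formulation on the cell. -/

set_option autoImplicit false

namespace Crest.Agent.R083

open MeasureTheory Filter Topology Set
open scoped Gradient RealInnerProductSpace

theorem weak_integrableOn {V : E → E} (hV : Measurable V) {K : ℝ} (hK : ∀ p : E, ‖p‖ ≤ 200 → ‖V p‖ ≤ K)
    {F : E → ℝ} (hF : LocallyLipschitz F) {s : Set E} (hm : MeasurableSet s)
    (hs : s ⊆ Metric.closedBall 0 200) : IntegrableOn (fun p => ⟪V p, ∇ F p⟫) s := by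
  obtain ⟨K', hK', h'⟩ := LL.grad_bdd hF 200
  refine integrableOn_of_bdd (Metric.isBounded_closedBall.subset hs) hm
    (hV.inner (measurable_grad F)) (K := K * K') (.of_forall fun p hp => ?_)
  have hp' : ‖p‖ ≤ 200 := by simpa using hs hp
  exact (abs_real_inner_le_norm _ _).trans
    (mul_le_mul (hK p hp') (h' p hp') (norm_nonneg _) ((norm_nonneg _).trans (hK p hp')))

theorem weak_integrable {V : E → E} (hV : Measurable V) {K : ℝ} (hK : ∀ p : E, ‖p‖ ≤ 200 → ‖V p‖ ≤ K)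
    {F : E → ℝ} (hF : LocallyLipschitz F) (h0 : ∀ p : E, 199 < ‖p‖ → F p = 0) :
    Integrable (fun p => ⟪V p, ∇ F p⟫) := by
  refine (weak_integrableOn hV hK hF Metric.isClosed_closedBall.measurableSet subset_rfl).integrable_of_forall_notMem_eq_zero ?_
  intro p hp
  have hp' : 200 < ‖p‖ := by simpa using hp
  have : ∇ F p = 0 := grad_of_eventually_const (c := 0) (by
    filter_upwards [continuousAt_const.eventually_lt continuous_norm.continuousAt
      (show (199 : ℝ) < ‖p‖ by linarith)] with y hy using h0 y hy)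
  simp [this]

theorem weak_PP_sub : PP ⊆ Metric.closedBall (0 : E) 200 := fun p hp => by
  have := PP_norm hp
  simp only [Metric.mem_closedBall, dist_zero_right]
  linarith

/-- The weak identity for a general test function. -/
theorem weak_id {L : CL} (hL : CLLL L) {k₀ k₁ k₂ : ℝ}
    (h0 : ∀ᵐ p : E, p ∉ PP → cl L p = k₀ • ez) (h1 : ∀ᵐ p : E, p ∈ CC 1 → cl L p = k₁ • ez)
    (h2 : ∀ᵐ p : E, p ∈ CC (-1) → cl L p = k₂ • ez) {F : E → ℝ} (hF : LocallyLipschitz F) :
    ∫ p in RR, ⟪cl L p, ∇ F p⟫ = k₀ * (∫ p in PP, ⟪ez, ∇ F p⟫) -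
      (k₁ * (∫ p in CC 1, ⟪ez, ∇ F p⟫) + k₂ * ∫ p in CC (-1), ⟪ez, ∇ F p⟫) := by
  obtain ⟨K, hK, hb⟩ := hL.bdd 200
  set G : E → ℝ := fun y => F y * clp 0 1 (199 - ‖y‖) with hG
  have hGl : LocallyLipschitz G :=
    LL.mul hF (LL.clp _ _ (LL.sub (LL.const _) (lipschitzWith_one_norm (E := E)).locallyLipschitz))
  have hG0 : ∀ p : E, 199 < ‖p‖ → G p = 0 := fun p hp => by
    simp only [hG]; rw [clp_of_le (by linarith), mul_zero]
  have hGc : HasCompactSupport G := by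
    refine HasCompactSupport.intro (isCompact_closedBall (0 : E) 199) fun p hp => hG0 p ?_
    simpa using hp
  have hGF : ∀ p ∈ PP, ∇ G p = ∇ F p := fun p hp => by
    refine EventuallyEq.gradient_eq ?_
    have := PP_norm hp
    filter_upwards [continuous_norm.continuousAt.eventually_lt continuousAt_const
      (show ‖p‖ < 198 by linarith)] with y hy
    simp only [hG]; rw [clp_of_ge zero_le_one (by linarith), mul_one]
  have mP : MeasurableSet PP := isClosed_PP.measurableSet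
  have mR : MeasurableSet RR := isOpen_RR.measurableSet
  have mC : ∀ s, MeasurableSet (CC s) := fun s => (isClosed_CC s).measurableSet
  have i1 := weak_integrable (measurable_cl L) hb hGl hG0
  have i2 := weak_integrable (V := fun _ => ez) measurable_const (K := 1)
    (fun _ _ => norm_ez.le) hGl hG0
  have e1 := integral_add_compl mP i1
  have e2 := integral_add_compl mP i2
  rw [nl_cl hL hGl hGc] at e1
  rw [int_dir ez hGl hGc] at e2
  have e3 : ∫ p in PPᶜ, ⟪cl L p, ∇ G p⟫ = k₀ * ∫ p in PPᶜ, ⟪ez, ∇ G p⟫ := by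
    rw [← integral_const_mul]
    refine setIntegral_congr_ae mP.compl ?_
    filter_upwards [h0] with p hp hp'
    rw [hp hp', real_inner_smul_left]
  have e4 : ∫ p in PP, ⟪cl L p, ∇ G p⟫ = ∫ p in PP, ⟪cl L p, ∇ F p⟫ :=
    setIntegral_congr_fun mP fun p hp => by simp only [hGF p hp]
  have e5 : ∫ p in PP, ⟪ez, ∇ G p⟫ = ∫ p in PP, ⟪ez, ∇ F p⟫ :=
    setIntegral_congr_fun mP fun p hp => by simp only [hGF p hp]
  have iF : ∀ s : Set E, MeasurableSet s → s ⊆ PP → IntegrableOn (fun p => ⟪cl L p, ∇ F p⟫) s :=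
    fun s hm hs => weak_integrableOn (measurable_cl L) hb hF hm (hs.trans weak_PP_sub)
  have e6 : ∫ p in PP, ⟪cl L p, ∇ F p⟫ = (∫ p in RR, ⟪cl L p, ∇ F p⟫) +
      ((∫ p in CC 1, ⟪cl L p, ∇ F p⟫) + ∫ p in CC (-1), ⟪cl L p, ∇ F p⟫) := by
    have hae : PP =ᵐ[volume] (RR ∪ (CC 1 ∪ CC (-1)) : Set E) := by
      filter_upwards [ae_PP] with p hp
      exact propext hp
    rw [setIntegral_congr_set hae, setIntegral_union _ ((mC 1).union (mC (-1))) (iF _ mR RR_sub)
      (iF _ ((mC 1).union (mC (-1))) (union_subset (CC_sub (Or.inl rfl)) (CC_sub (Or.inr rfl)))),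
      setIntegral_union CC_disj (mC _) (iF _ (mC _) (CC_sub (Or.inl rfl)))
        (iF _ (mC _) (CC_sub (Or.inr rfl)))]
    refine disjoint_left.2 fun p hp hp' => hp'.elim (RR_not_CC hp (Or.inl rfl))
      (RR_not_CC hp (Or.inr rfl))
  have e7 : ∫ p in CC 1, ⟪cl L p, ∇ F p⟫ = k₁ * ∫ p in CC 1, ⟪ez, ∇ F p⟫ := by
    rw [← integral_const_mul]
    refine setIntegral_congr_ae (mC _) ?_
    filter_upwards [h1] with p hp hp'
    rw [hp hp', real_inner_smul_left]
  have e8 : ∫ p in CC (-1), ⟪cl L p, ∇ F p⟫ = k₂ * ∫ p in CC (-1), ⟪ez, ∇ F p⟫ := by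
    rw [← integral_const_mul]
    refine setIntegral_congr_ae (mC _) ?_
    filter_upwards [h2] with p hp hp'
    rw [hp hp', real_inner_smul_left]
  rw [e3, e4, e6, e7, e8] at e1
  rw [e5] at e2
  have : ∫ p in PPᶜ, ⟪ez, ∇ G p⟫ = -∫ p in PP, ⟪ez, ∇ F p⟫ := by linarith
  rw [this] at e1
  linarith

theorem weak_ll {f : E → ℝ} (hf : LocallyLipschitz f) (c : ℝ) :
    LocallyLipschitz fun y : E => f y * clp (-1) 1 (c * y 2) :=
  LL.mul hf (LL.clp _ _ (LL.mul (LL.const _) (LL.coord 2)))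

theorem weak_grad_mid {f : E → ℝ} {p : E} (hf : DifferentiableAt ℝ f p) {c : ℝ}
    (h : |c * p 2| < 1) : ∇ (fun y : E => f y * clp (-1) 1 (c * y 2)) p =
      (f p * c) • ez + clp (-1) 1 (c * p 2) • ∇ f p := by
  have hj := (Jet.const_mul c (Jet.c2 p)).clp_mid (a := -1) (b := 1) (abs_lt.1 h).1 (abs_lt.1 h).2
  rw [grad_mul hf hj.diff, hj.2, smul_smul]

theorem weak_grad_out {f : E → ℝ} {p : E} (hf : DifferentiableAt ℝ f p) {c : ℝ}
    (h : 1 < |c * p 2|) : ∇ (fun y : E => f y * clp (-1) 1 (c * y 2)) p =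
      clp (-1) 1 (c * p 2) • ∇ f p := by
  have hc := (Jet.const_mul c (Jet.c2 p)).cont
  have hj : Jet (fun y : E => clp (-1) 1 (c * y 2)) p 0 := by
    rcases lt_abs.1 h with h | h
    · exact Jet.clp_high (by norm_num) hc h
    · exact Jet.clp_low hc (by linarith)
  rw [grad_mul hf hj.diff, hj.2, smul_zero, zero_add]

theorem weak_lim {L : CL} (hL : CLLL L) {Cw : ℝ}
    (hw : ∀ᵐ p : E, p ∈ RR → |⟪cl L p, ez⟫| ≤ Cw * |p 2|) {f : E → ℝ} (hf : LocallyLipschitz f) :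
    Tendsto (fun n : ℕ => ∫ p in RR, ⟪cl L p, ∇ (fun y : E => f y * clp (-1) 1 (n * y 2)) p⟫) atTop
      (𝓝 (∫ p in RR, ⟪sg (p 2) • cl L p, ∇ f p⟫)) := by
  obtain ⟨K, hK, hb⟩ := hL.bdd 200
  obtain ⟨K₁, hK₁, hb₁⟩ := LL.grad_bdd hf 200
  obtain ⟨K₂, hK₂, hb₂⟩ := LL.bdd hf 200
  have mR : MeasurableSet RR := isOpen_RR.measurableSet
  haveI : IsFiniteMeasure (volume.restrict RR) := ⟨by simpa using bdd_RR.measure_lt_top⟩
  refine tendsto_integral_filter_of_norm_le_const (.of_forall fun n => ?_)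
    ⟨K₂ * |Cw| + K * K₁, .of_forall fun n => ?_⟩ ?_
  · exact ((measurable_cl L).inner (measurable_grad _)).aestronglyMeasurable
  · rw [ae_restrict_iff' mR]
    filter_upwards [hw, LL.ae_diff hf, ae_int] with p h1 h2 h3 hp
    have hp' : ‖p‖ ≤ 200 := by simpa using weak_PP_sub (RR_sub hp)
    have hc : |clp (-1) 1 ((n : ℝ) * p 2)| ≤ 1 := abs_le.2 ⟨le_clp _ _ _, clp_le (by norm_num) _⟩
    have hA : |⟪cl L p, clp (-1) 1 ((n : ℝ) * p 2) • ∇ f p⟫| ≤ K * K₁ := by
      rw [real_inner_smul_right, abs_mul]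
      refine (mul_le_of_le_one_left (abs_nonneg _) hc).trans ((abs_real_inner_le_norm _ _).trans
        (mul_le_mul (hb p hp') (hb₁ p hp') (norm_nonneg _) hK))
    have hne : |(n : ℝ) * p 2| ≠ 1 := by
      rcases Nat.eq_zero_or_pos n with rfl | hn
      · simp
      · have := h3 0 0 n 1 (Or.inr (Or.inr (by exact_mod_cast hn.ne')))
        rw [abs_mul, Nat.abs_cast]
        intro e; apply this; push_cast; linarith
    rw [Real.norm_eq_abs]
    rcases hne.lt_or_gt with h | h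
    · rw [weak_grad_mid h2 h, inner_add_right]
      refine (abs_add_le _ _).trans (add_le_add ?_ hA)
      rw [real_inner_smul_right, abs_mul, abs_mul]
      rw [abs_mul] at h
      calc |f p| * |(n : ℝ)| * |⟪cl L p, ez⟫| ≤ K₂ * |(n : ℝ)| * (|Cw| * |p 2|) := by
            gcongr
            · exact hb₂ p hp'
            · exact (h1 hp).trans (by gcongr; exact le_abs_self _)
        _ = K₂ * |Cw| * (|(n : ℝ)| * |p 2|) := by ring
        _ ≤ K₂ * |Cw| := mul_le_of_le_one_right (by positivity) h.le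
    · rw [weak_grad_out h2 h]
      exact hA.trans (le_add_of_nonneg_left (by positivity))
  · rw [ae_restrict_iff' mR]
    filter_upwards [LL.ae_diff hf, ae_int] with p h2 h3 hp
    have hz : p 2 ≠ 0 := by
      have := h3 0 0 1 0 (Or.inr (Or.inr one_ne_zero))
      intro e; apply this; simp [e]
    have hz' : 0 < |p 2| := abs_pos.2 hz
    refine tendsto_const_nhds.congr' ?_
    filter_upwards [(tendsto_natCast_atTop_atTop (R := ℝ)).atTop_mul_const hz' |>.eventually_gt_atTop 1]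
      with n hn
    have h : 1 < |(n : ℝ) * p 2| := by rwa [abs_mul, Nat.abs_cast]
    rw [weak_grad_out h2 h, real_inner_smul_left, real_inner_smul_right]
    congr 1
    have hn0 : (0 : ℝ) ≤ n := n.cast_nonneg
    unfold sg
    split_ifs with hs
    · rw [abs_of_pos hs] at hn
      exact (clp_of_ge (by norm_num) hn.le).symm
    · rw [abs_of_nonpos (not_lt.1 hs)] at hn
      exact (clp_of_le (by linarith)).symm

/-- Multiply `f` by a compactly supported Lipschitz cutoff equal to `1` near `PP`.  With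
`F_n = f * clp (-1) 1 (c n z)`: `0 = ∫ ⟪cl L, ∇ F_n⟫` (`nl_cl`) `= ∫_RR + ∫_{CC 1} + ∫_{CC (-1)} +
∫_{PPᶜ}`, `∫_{PPᶜ} ⟪ez, ∇ F_n⟫ = -∫_PP ⟪ez, ∇ F_n⟫` (`int_dir`), `setIntegral_ez`.  On `RR` the
integrand is `clp(…) ⟪cl L, ∇ f⟫ + f n 1_{n |z| < 1} ⟪cl L, ez⟫`, bounded by `hw` and convergent to
`sg z ⟪cl L, ∇ f⟫` for `z ≠ 0`.  Note `F_n ∘ SS s` has the factor `clp (-1) 1 ((8/15) n z)`: first
extend `hσ.lim` to this situation, e.g. use `n = 15 m` (so `(8/15) n = 8 m`) and subsequences. -/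
theorem weak {σ : Measure E} (hσ : IsPort σ) {L : CL} (hL : CLLL L) {k₀ k₁ k₂ Cw : ℝ}
    (h0 : ∀ᵐ p : E, p ∉ PP → cl L p = k₀ • ez) (h1 : ∀ᵐ p : E, p ∈ CC 1 → cl L p = k₁ • ez)
    (h2 : ∀ᵐ p : E, p ∈ CC (-1) → cl L p = k₂ • ez)
    (hw : ∀ᵐ p : E, p ∈ RR → |⟪cl L p, ez⟫| ≤ Cw * |p 2|) {f : E → ℝ} (hf : LocallyLipschitz f) :
    ∫ p in RR, ⟪sg (p 2) • cl L p, ∇ f p⟫ = k₀ * ∫ p, f p ∂σ -
      64 / 225 * (k₁ * ∫ p, f (SS 1 p) ∂σ + k₂ * ∫ p, f (SS (-1) p) ∂σ) := by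
  have hm : ∀ k : ℕ, 0 < k → Tendsto (fun m : ℕ => k * m) atTop atTop := fun k hk =>
    tendsto_id.const_mul_atTop' hk
  have hC : ∀ s : ℝ, Tendsto (fun m : ℕ => ∫ p in CC s,
      ⟪ez, ∇ (fun y : E => f y * clp (-1) 1 (((15 * m : ℕ) : ℝ) * y 2)) p⟫) atTop
      (𝓝 (64 / 225 * ∫ p, f (SS s p) ∂σ)) := fun s => by
    refine (((hσ.lim _ (hf.comp (ll_SS s))).comp (hm 8 (by norm_num))).const_mul _).congr
      fun m => ?_
    rw [setIntegral_ez]
    simp only [Function.comp_apply, SS2]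
    congr 2
    funext p
    congr 3
    funext y
    congr 2
    push_cast
    ring
  have hA := (weak_lim hL hw hf).comp (hm 15 (by norm_num))
  have hB := (((hσ.lim f hf).comp (hm 15 (by norm_num))).const_mul k₀).sub
    (((hC 1).const_mul k₁).add ((hC (-1)).const_mul k₂))
  have := tendsto_nhds_unique hA (hB.congr fun m => (weak_id hL h0 h1 h2 (weak_ll hf _)).symm)
  rw [this]
  ring

end Crest.Agent.R083
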