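import Crest.Agent.R083.Geo

/-! Row 83: the unfolding map. -/

set_option autoImplicit false

namespace Crest.Agent.R083

open MeasureTheory Filter Topology Set
open scoped Gradient RealInnerProductSpace

theorem zip_norm_sg (t : ℝ) (u : E) : ‖sg t • u‖ = ‖u‖ := by
  rcases sg_cases t with h | h <;> simp [h]

theorem zip_abs_sg (t u : ℝ) : |sg t * u| = |u| := by
  rcases sg_cases t with h | h <;> simp [h]

theorem zip_coord_le (J : E) (i : Fin 3) : |J i| ≤ ‖J‖ := PiLp.norm_apply_le J i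

theorem zip_nb {p g : E} (hg : ‖g‖ ≤ 2) (hy : |p 1| < hh p) :
    ‖(hh p)⁻¹ • ey - (p 1 / hh p ^ 2) • g‖ ≤ 100 := by
  have h1 := hh_ge p
  have h0 : 0 < hh p := by linarith
  refine (norm_sub_le _ _).trans ?_
  rw [norm_smul, norm_smul, norm_ey, Real.norm_eq_abs, Real.norm_eq_abs, abs_div, abs_inv,
    abs_of_pos h0, abs_of_pos (pow_pos h0 2)]
  have h2 : (hh p)⁻¹ ≤ 1 := inv_le_one_of_one_le₀ (by linarith)
  have h3 : |p 1| / hh p ^ 2 ≤ 1 := (div_le_one (pow_pos h0 2)).2 (by nlinarith)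
  have h4 : |p 1| / hh p ^ 2 * ‖g‖ ≤ 1 * 2 := mul_le_mul h3 hg (norm_nonneg _) zero_le_one
  linarith

theorem zip_ylt {p : E} (hy : |p 1| < hh p) : |YY p| < 1 := by
  have h0 : 0 < hh p := by linarith [hh_ge p]
  rw [YY, abs_div, abs_of_pos h0]
  exact (div_lt_one h0).2 hy

theorem zip_inv (p : E) : 1 / 90 ≤ (hh p)⁻¹ := by
  rw [one_div]
  exact inv_anti₀ (by linarith [hh_ge p]) (hh_le p)

/-- Case I -/
theorem zip_one {p g : E} (jz : Jet ze p (sg (p 2) • ez)) (hz : ze p = |p 2|) (jh : Jet hh p g)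
    (g1 : g 1 = 0) (hg : ‖g‖ ≤ 2) (hy : |p 1| < hh p) (x0 : p 0 ≠ 0) (z0 : p 2 ≠ 0)
    (gen : ∀ a b d : ℤ, (a ≠ 0 ∨ b ≠ 0) → (a : ℝ) * xp p + b * ze p ≠ d) :
    ∃ z b : E, Zip p z b := by
  have h0 : 0 < hh p := by linarith [hh_ge p]
  refine ⟨_, _, jz, (Jet.c1 p).div jh h0.ne', ?_, zip_nb hg hy, ?_, ?_, zip_ylt hy, x0, z0, gen, ?_⟩
  · rw [zip_norm_sg, norm_ez]; norm_num
  · have e : sg (p 2) * ⟪cr ex ((hh p)⁻¹ • ey - (p 1 / hh p ^ 2) • g), sg (p 2) • ez⟫ =
        (sg (p 2) * sg (p 2)) * ((hh p)⁻¹ - p 1 / hh p ^ 2 * g 1) := by sc3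
    rw [e, sg_sq, g1, mul_zero, sub_zero, one_mul]
    exact zip_inv p
  · rw [hz]; exact abs_pos.2 z0
  · intro J K hJ h1 _
    rw [real_inner_smul_right, zip_abs_sg, hz] at h1
    have : 0 ≤ K * |p 2| := mul_nonneg ((norm_nonneg _).trans hJ) (abs_nonneg _)
    linarith

/-- Case II -/
theorem zip_two {p z : E} {k : ℝ} (hk : 1 ≤ k) (jz : Jet ze p z) (nz : ‖z‖ ≤ 100)
    (z1 : z 1 = k * sg (p 1)) (z2 : z 2 = k * sg (p 2))
    (jh : Jet hh p (sg (p 1) • ey + sg (p 2) • ez)) (hv : hh p = vv p) (x0 : p 0 ≠ 0) (z0 : p 2 ≠ 0)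
    (gen : ∀ a b d : ℤ, (a ≠ 0 ∨ b ≠ 0) → (a : ℝ) * xp p + b * ze p ≠ d) :
    ∃ z b : E, Zip p z b := by
  have h80 := hh_ge p
  have h90 := hh_le p
  have h0 : 0 < hh p := by linarith
  have hZ : 0 < |p 2| := abs_pos.2 z0
  have hy : |p 1| < hh p := by rw [hv, vv]; linarith
  have hg : ‖sg (p 1) • ey + sg (p 2) • ez‖ ≤ 2 := by
    refine (norm_add_le _ _).trans ?_
    rw [zip_norm_sg, zip_norm_sg, norm_ey, norm_ez]; norm_num
  have hs1 := sg_mul_self (p 1)
  have hvv : hh p = |p 1| + |p 2| := hv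
  refine ⟨_, _, jz, (Jet.c1 p).div jh h0.ne', nz, zip_nb hg hy, ?_, hZ.trans_le (abs_le_ze p),
    zip_ylt hy, x0, z0, gen, ?_⟩
  · have e : sg (p 2) * ⟪cr ex ((hh p)⁻¹ • ey - (p 1 / hh p ^ 2) • (sg (p 1) • ey + sg (p 2) • ez)), z⟫ =
        sg (p 2) * (p 1 / hh p ^ 2 * sg (p 2) * z 1 +
          ((hh p)⁻¹ - p 1 / hh p ^ 2 * sg (p 1)) * z 2) := by sc3
    have e' : sg (p 2) * (p 1 / hh p ^ 2 * sg (p 2) * (k * sg (p 1)) +
          ((hh p)⁻¹ - p 1 / hh p ^ 2 * sg (p 1)) * (k * sg (p 2))) =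
          (sg (p 2) * sg (p 2)) * (k * (hh p)⁻¹) := by ring
    rw [e, z1, z2, e', sg_sq, one_mul]
    have := zip_inv p
    nlinarith
  · intro J K hJ _ h2
    have hK : 0 ≤ K := (norm_nonneg _).trans hJ
    have hJ1 := (zip_coord_le J 1).trans hJ
    have hJ2 := (zip_coord_le J 2).trans hJ
    have e0 : ⟪J, ez⟫ = J 2 := by sc3
    have e1 : ⟪J, (hh p)⁻¹ • ey - (p 1 / hh p ^ 2) • (sg (p 1) • ey + sg (p 2) • ez)⟫ =
        J 1 * ((hh p)⁻¹ - sg (p 1) * p 1 / hh p ^ 2) - sg (p 2) * (J 2 * p 1) / hh p ^ 2 := by sc3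
    have e2 : (hh p)⁻¹ - |p 1| / hh p ^ 2 = |p 2| / hh p ^ 2 := by
      field_simp
      linarith
    have e3 : 1 - |YY p| = |p 2| / hh p := by
      rw [YY, abs_div, abs_of_pos h0]
      field_simp
      linarith
    rw [e1, hs1, e2, e3, show J 1 * (|p 2| / hh p ^ 2) - sg (p 2) * (J 2 * p 1) / hh p ^ 2 =
      (J 1 * |p 2| - sg (p 2) * (J 2 * p 1)) / hh p ^ 2 by ring, abs_div, abs_of_pos (pow_pos h0 2),
      div_le_iff₀ (pow_pos h0 2), show K * (|p 2| / hh p) * hh p ^ 2 = K * |p 2| * hh p by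
        field_simp] at h2
    have h3 : |sg (p 2) * (J 2 * p 1)| ≤ |J 1 * (|p 2|)| + |J 1 * (|p 2|) - sg (p 2) * (J 2 * p 1)| := by
      have := abs_sub (J 1 * |p 2|) (J 1 * |p 2| - sg (p 2) * (J 2 * p 1))
      rwa [sub_sub_cancel] at this
    rw [zip_abs_sg, abs_mul, abs_mul, abs_abs] at h3
    rw [e0]
    have h4 : |J 1| * |p 2| ≤ K * |p 2| := by gcongr
    have h5 : |J 2| * |p 2| ≤ K * |p 2| := by gcongr
    have h6 : K * |p 2| * hh p ≤ K * |p 2| * 90 := by gcongr
    have h7 : |J 2| * 80 ≤ |J 2| * hh p := by gcongr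
    have h8 : 0 ≤ K * |p 2| := by positivity
    rw [hvv, mul_add] at h7
    linarith

/-- At a point as in `ae_int` all comparisons between the affine pieces are strict.  Case I:
`ze = |z|` near `p`, `hh = min (…) (…)` depends on `|x|, |z|` only; `⟪cr ex b, z⟫ = ± 1/hh`.
Case II: `ze = vv - 32 - |xp - 50|` or `15 (vv - 80) - xp` near `p`; then `hh = vv`, `YY = y / vv`,
`⟪cr ex b, z⟫ = ± k / vv` (`k = 1` or `15`) and `|z| = vv (1 - |YY|)`.  In `RR` the clamp in `hh` is
inactive (`hh_mem`), and `vv ≤ hh` with equality exactly in case II. -/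
theorem zip : ∀ᵐ p : E, p ∈ RR → ∃ z b : E, Zip p z b := by
  filter_upwards [ae_int] with p hp hR
  have x0 : p 0 ≠ 0 := fun e => hp 1 0 0 0 (by simp) (by simp [e])
  have y0 : p 1 ≠ 0 := fun e => hp 0 1 0 0 (by simp) (by simp [e])
  have z0 : p 2 ≠ 0 := fun e => hp 0 0 1 0 (by simp) (by simp [e])
  have a0 : xp p - 50 ≠ 0 := fun e => hp 1 0 0 50 (by simp) (by unfold xp at e; push_cast; linarith)
  have hpos : 0 < ze p := (abs_pos.2 z0).trans_le (abs_le_ze p)
  have hm := hh_mem hR hpos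
  have hhv : hh p = min (32 + |xp p - 50| + ze p) (80 + (xp p + ze p) / 15) :=
    clp_of_mem hm.1.le hm.2.le
  have jX : Jet xp p (sg (p 0) • ex) := (Jet.c0 p).abs x0
  have jY : Jet (fun y : E => |y 1|) p (sg (p 1) • ey) := (Jet.c1 p).abs y0
  have jZ : Jet (fun y : E => |y 2|) p (sg (p 2) • ez) := (Jet.c2 p).abs z0
  have jv : Jet vv p (sg (p 1) • ey + sg (p 2) • ez) := jY.add jZ
  have jA : Jet (fun y => |xp y - 50|) p (sg (xp p - 50) • sg (p 0) • ex) :=
    (jX.sub_const 50).abs a0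
  have j2 := (jv.sub_const 32).sub jA
  have j3 := (Jet.const_mul 15 (jv.sub_const 80)).sub jX
  have nv : ‖sg (p 1) • ey + sg (p 2) • ez‖ ≤ 2 := by
    refine (norm_add_le _ _).trans ?_
    rw [zip_norm_sg, zip_norm_sg, norm_ey, norm_ez]; norm_num
  have hA := abs_choice (xp p - 50)
  -- jets of `hh` from jets of `ze`
  have hL : ∀ z : E, Jet ze p z → 32 + |xp p - 50| + ze p < 80 + (xp p + ze p) / 15 →
      Jet hh p (sg (xp p - 50) • sg (p 0) • ex + z) := fun z jz hlt =>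
    Jet.clp_mid (Jet.min_left ((Jet.const_add 32 jA).add jz)
      (Jet.const_add 80 ((jX.add jz).div_const 15)).cont hlt) hm.1 hm.2
  have hRt : ∀ z : E, Jet ze p z → 80 + (xp p + ze p) / 15 < 32 + |xp p - 50| + ze p →
      Jet hh p ((15 : ℝ)⁻¹ • (sg (p 0) • ex + z)) := fun z jz hlt =>
    Jet.clp_mid (Jet.min_right ((Jet.const_add 32 jA).add jz).cont
      (Jet.const_add 80 ((jX.add jz).div_const 15)) hlt) hm.1 hm.2
  have n12 : |p 2| ≠ vv p - 32 - |xp p - 50| := fun e => by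
    unfold vv at e
    rcases hA with h | h <;> rw [h] at e <;> unfold xp at e
    · exact hp (-1) 1 0 (-18) (by simp) (by push_cast; linarith)
    · exact hp 1 1 0 82 (by simp) (by push_cast; linarith)
  have n13 : |p 2| ≠ 15 * (vv p - 80) - xp p := fun e => by
    unfold vv xp at e
    exact hp (-1) 15 14 1200 (by simp) (by push_cast; linarith)
  have n23 : vv p - 32 - |xp p - 50| ≠ 15 * (vv p - 80) - xp p := fun e => by
    unfold vv at e
    rcases hA with h | h <;> rw [h] at e <;> unfold xp at e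
    · exact hp 0 14 14 1218 (by simp) (by push_cast; linarith)
    · exact hp (-2) 14 14 1118 (by simp) (by push_cast; linarith)
  have cmax : ContinuousAt (fun y => max (vv y - 32 - |xp y - 50|) (15 * (vv y - 80) - xp y)) p :=
    j2.cont.max j3.cont
  rcases lt_or_gt_of_ne (show max (vv p - 32 - |xp p - 50|) (15 * (vv p - 80) - xp p) ≠ |p 2| from
    fun e => by
      rcases max_choice (vv p - 32 - |xp p - 50|) (15 * (vv p - 80) - xp p) with h | h
      exacts [n12 (e.symm.trans h), n13 (e.symm.trans h)]) with h1 | h1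
  · -- case I
    have jz : Jet ze p (sg (p 2) • ez) := Jet.max_left jZ cmax h1
    have hz : ze p = |p 2| := max_eq_left h1.le
    obtain ⟨h2, h3⟩ := max_lt_iff.1 h1
    have hy : |p 1| < hh p := by
      have := abs_nonneg (p 2)
      rw [hhv, hz]
      unfold vv at h2 h3
      exact lt_min (by linarith) (by linarith)
    have gen : ∀ a b d : ℤ, (a ≠ 0 ∨ b ≠ 0) → (a : ℝ) * xp p + b * ze p ≠ d := fun a b d hab e =>
      hp a 0 b d (by tauto) (by rw [hz] at e; unfold xp at e; push_cast; linarith)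
    rcases lt_or_gt_of_ne (show 32 + |xp p - 50| + ze p ≠ 80 + (xp p + ze p) / 15 from fun e => by
      rcases hA with h | h <;> rw [h] at e
      · exact gen 14 14 1470 (by simp) (by push_cast; linarith)
      · exact gen (-16) 14 (-30) (by simp) (by push_cast; linarith)) with h4 | h4
    · refine zip_one jz hz (hL _ jz h4) (by simp) ?_ hy x0 z0 gen
      refine (norm_add_le _ _).trans ?_
      rw [zip_norm_sg, zip_norm_sg, zip_norm_sg, norm_ex, norm_ez]; norm_num
    · refine zip_one jz hz (hRt _ jz h4) (by simp) ?_ hy x0 z0 gen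
      have : ‖sg (p 0) • ex + sg (p 2) • ez‖ ≤ 2 := by
        refine (norm_add_le _ _).trans ?_
        rw [zip_norm_sg, zip_norm_sg, norm_ex, norm_ez]; norm_num
      rw [norm_smul, norm_inv, Real.norm_ofNat]
      linarith
  · rcases lt_or_gt_of_ne n23 with h2 | h2
    · -- case II b
      have hz : ze p = 15 * (vv p - 80) - xp p := (max_eq_right h1.le).trans (max_eq_right h2.le)
      have jz : Jet ze p ((15 : ℝ) • (sg (p 1) • ey + sg (p 2) • ez) - sg (p 0) • ex) :=
        Jet.max_right jZ.cont (Jet.max_right j2.cont j3 h2) h1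
      have h4 : 80 + (xp p + ze p) / 15 < 32 + |xp p - 50| + ze p := by linarith
      refine zip_two (k := 15) (by norm_num) jz ?_ (by simp) (by simp)
        ((hRt _ jz h4).of_eq (by vec3)) (by rw [hhv, min_eq_right h4.le, hz]; ring) x0 z0 ?_
      · refine (norm_sub_le _ _).trans ?_
        rw [norm_smul, zip_norm_sg, norm_ex, Real.norm_ofNat]
        linarith
      · intro a b d hab e
        rw [hz] at e
        unfold vv xp at e
        exact hp (a - b) (15 * b) (15 * b) (d + 1200 * b) (by omega) (by push_cast; linarith)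
    · -- case II a
      have hz : ze p = vv p - 32 - |xp p - 50| := (max_eq_right h1.le).trans (max_eq_left h2.le)
      have jz : Jet ze p (sg (p 1) • ey + sg (p 2) • ez - sg (xp p - 50) • sg (p 0) • ex) :=
        Jet.max_right jZ.cont (Jet.max_left j2 j3.cont h2) h1
      have h4 : 32 + |xp p - 50| + ze p < 80 + (xp p + ze p) / 15 := by linarith
      refine zip_two (k := 1) le_rfl jz ?_ (by simp) (by simp)
        ((hL _ jz h4).of_eq (by vec3)) (by rw [hhv, min_eq_left h4.le, hz]; ring) x0 z0 ?_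
      · refine (norm_sub_le _ _).trans ?_
        rw [zip_norm_sg, zip_norm_sg, norm_ex]
        linarith
      · intro a b d hab e
        rw [hz] at e
        unfold vv at e
        rcases hA with h | h <;> rw [h] at e <;> unfold xp at e
        · exact hp (a - b) b b (d - 18 * b) (by omega) (by push_cast; linarith)
        · exact hp (a + b) b b (d + 82 * b) (by omega) (by push_cast; linarith)

end Crest.Agent.R083
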