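import Crest.Agent.R083.Iso
import Crest.Agent.R083.Casc
import Crest.Agent.R083.Zip
import Crest.Agent.R083.RegA
import Crest.Agent.R083.RegB
import Crest.Agent.R083.RegC
import Crest.Agent.R083.Assemble
import Crest.Agent.R083.GlueG
import Crest.Agent.R083.Port
import Crest.Agent.R083.Weak

/-! Row 83: the isotropic cell. -/

set_option autoImplicit false

namespace Crest.Agent.R083

open MeasureTheory Filter Topology Set
open scoped Gradient RealInnerProductSpace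

theorem gadget_loc (C : Casc 1000) : ∀ᵐ p : E, p ∈ RR → ∃ z b : E, Zip p z b ∧
    LocForm C.κ C.K' (gPh C) (gD C) (gL1 C) (gL2 C) p z b := by
  filter_upwards [zip, ae_gen C.hN ll_xiA.continuous, ae_gen C.hN ll_tauA.continuous,
    ae_gen C.hN ll_xiC.continuous, ae_gen C.hN ll_tauC.continuous, ae_gen C.hN ll_YY.continuous]
    with p hz g1 g2 g3 g4 g5 hp
  obtain ⟨z, b, hZ⟩ := hz hp
  refine ⟨z, b, hZ, ?_⟩
  have h1 : rho p ≠ 49 := fun e => by
    unfold rho at e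
    rcases abs_choice (xp p - 50) with h | h <;> rw [h] at e
    · exact hZ.gen 1 1 99 (by simp) (by push_cast; linarith)
    · exact hZ.gen (-1) 1 (-1) (by simp) (by push_cast; linarith)
  have h2 : ze p + pl p ≠ 49 := fun e => by
    unfold pl at e
    rcases max_choice (xp p - 50) 0 with h | h <;> rw [h] at e
    · exact hZ.gen 1 1 99 (by simp) (by push_cast; linarith)
    · exact hZ.gen 0 1 49 (by simp) (by push_cast; linarith)
  rcases h1.lt_or_gt with h1 | h1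
  · exact regA C hZ hp h1 g1 g2 g5
  · rcases h2.lt_or_gt with h2 | h2
    · exact regB C hZ h1 h2
    · exact regC C hZ hp h2 g3 g4 g5

theorem gadget_int {J J' : E → E} (hJ : Measurable J) (hJ' : Measurable J') {K s : ℝ}
    (hb : ∀ p ∈ RR, ‖J p‖ ≤ K) (hc : ∀ᵐ p : E, p ∈ RR → ‖J' p - J p‖ ≤ s) {f : E → ℝ}
    (hf : LocallyLipschitz f) (h0 : ∫ x in RR, ⟪J' x - J x, ∇ f x⟫ = 0) :
    ∫ x in RR, ⟪J' x, ∇ f x⟫ = ∫ x in RR, ⟪J x, ∇ f x⟫ := by
  obtain ⟨M, hM, hM'⟩ := LL.grad_bdd hf 175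
  have i1 : IntegrableOn (fun x => ⟪J' x - J x, ∇ f x⟫) RR :=
    integrableOn_of_bdd bdd_RR isOpen_RR.measurableSet ((hJ'.sub hJ).inner (measurable_grad f))
      (K := s * M) (hc.mono fun p hp hR => (abs_real_inner_le_norm _ _).trans
        (mul_le_mul (hp hR) (hM' p (PP_norm (RR_sub hR))) (norm_nonneg _)
          ((norm_nonneg _).trans (hp hR))))
  have i2 : IntegrableOn (fun x => ⟪J x, ∇ f x⟫) RR :=
    integrableOn_of_bdd bdd_RR isOpen_RR.measurableSet (hJ.inner (measurable_grad f))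
      (K := K * M) (.of_forall fun p hR => (abs_real_inner_le_norm _ _).trans
        (mul_le_mul (hb p hR) (hM' p (PP_norm (RR_sub hR))) (norm_nonneg _)
          ((norm_nonneg _).trans (hb p hR))))
  have e : (fun x => ⟪J' x, ∇ f x⟫) = fun x => ⟪J' x - J x, ∇ f x⟫ + ⟪J x, ∇ f x⟫ := by
    funext x
    rw [inner_sub_left, sub_add_cancel]
  rw [e, integral_add i1 i2, h0, zero_add]

theorem gadget_meas (L : CL) : Measurable fun p : E => sg (p 2) • cl L p :=
  (measurable_sg.comp (LL.coord 2).continuous.measurable).smul (measurable_cl L)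

theorem gadget_bdd {L : CL} (h : CLLL L) : ∃ K : ℝ, ∀ p ∈ RR, ‖sg (p 2) • cl L p‖ ≤ K := by
  obtain ⟨K, -, hK⟩ := h.bdd 175
  exact ⟨K, fun p hp => by rw [zip_norm_sg]; exact hK p (PP_norm (RR_sub hp))⟩

theorem gadget_ne {D : E → ℝ} (hD : Continuous D) (h : ∀ p ∈ CC 1, D p = 7) :
    ∃ p ∈ RR, D p ≠ 0 := by
  have hc : Continuous fun t : ℝ => D ((50 : ℝ) • ex + (48 + t) • ez) := by fun_prop
  have h0 : D ((50 : ℝ) • ex + (48 + (0 : ℝ)) • ez) ≠ 0 := by
    rw [h _ (by constructor <;> simp <;> norm_num)]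
    norm_num
  have h1 := ((hc.continuousAt (x := 0)).eventually_ne h0).filter_mono
    (nhdsWithin_le_nhds (s := Ioi (0 : ℝ)))
  obtain ⟨t, ht, ht0, ht1⟩ := (h1.and (Ioo_mem_nhdsGT (zero_lt_one (α := ℝ)))).exists
  refine ⟨_, ?_, ht⟩
  have e0 : xp ((50 : ℝ) • ex + (48 + t) • ez) = 50 := by simp [xp]
  have e1 : vv ((50 : ℝ) • ex + (48 + t) • ez) = 48 + t := by
    simp [vv, abs_of_pos (show 0 < 48 + t by linarith)]
  have e2 : ze ((50 : ℝ) • ex + (48 + t) • ez) = 48 + t := by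
    have e3 : |((50 : ℝ) • ex + (48 + t) • ez) 2| = 48 + t := by
      simp [abs_of_pos (show 0 < 48 + t by linarith)]
    rw [ze, e0, e1, e3, sub_self, abs_zero]
    exact max_eq_left (max_le (by linarith) (by linarith))
  refine ⟨by rw [e0, e2]; linarith, ?_⟩
  rw [rho, e0, e2, sub_self, abs_zero]
  linarith

/-- Take `C` from `exists_casc 1000`.  For a.e. `p ∈ RR`: `zip`, `ae_gen C.hN` (for `xiA, tauA, xiC,
tauC, YY`), `Zip.gen` (gives `rho p ≠ 49` and `ze p + pl p ≠ 49`, by cases on `xp p ≤ 50`), then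
`regA/regB/regC` and `assemble` (with `κ = C.κ`, `K = C.K'`); apply `iso` on `Ω = RR` to
`F = gF C` (`gLL`, `measurable_cl`, `measurable_sg`).  `weak` for `gL1 C` (`k₀ = 1/1125`,
`k₁ = k₂ = 1/640`) and `gL2 C` (`k₀ = 0`, `k₁ = -1/3840`, `k₂ = 1/3840`) by `g_out`, `g_inn`,
`ae_ne_port`, `mem_PP_iff`, `rho_le_iff`.  Put `Φ = 48 - G.u₁`, `D = G.u₂`; normalise the port
measure (mass `m`): `κ = m/1125`, `κ' = m/13500`, `c = min α 1`, `C = max β 1`.  `Φ = 0` on
`closure PPᶜ` by continuity.  `D ≠ 0` somewhere in `RR`: the point `(50, 0, 48) ∈ CC 1` (where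
`D = 7`) is the limit of the points `(50, 0, 48 + t) ∈ RR`.  Off `RR`, a.e. point lies in one of the
open sets `150 < xp + ze`, `rho < 48`, where `Φ, D` are locally constant (on `rho < 48` the sign of
`p 0` is locally constant). -/
theorem exists_gadget : Nonempty Gadget := by
  obtain ⟨C⟩ := exists_casc 1000 (by norm_num)
  obtain ⟨σ, hσ⟩ := exists_port
  obtain ⟨κ', K', Cw, hκ', hA⟩ := assemble (K := C.K') C.hκ
  obtain ⟨l1, l2, l3, l4⟩ := gLL C
  have hall : ∀ᵐ p : E, p ∈ RR → (gF C).Loc p ∧ Sym ((gF C).st p) ∧ Rk ((gF C).st p) ∧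
      Ell κ' K' ((gF C).st p) ∧ |⟪cl (gL1 C) p, ez⟫| ≤ Cw * |p 2| ∧
        |⟪cl (gL2 C) p, ez⟫| ≤ Cw * |p 2| := by
    filter_upwards [gadget_loc C] with p hp hR
    obtain ⟨z, b, hZ, hL⟩ := hp hR
    exact hA _ _ _ _ p z b hZ hL _ rfl
  obtain ⟨G, γ, s, α, β, hα, hN, hγ, hb, hJ⟩ := iso isOpen_RR bdd_RR hκ' (K := K') (F := gF C)
    ⟨l1, l2, gadget_meas _, gadget_meas _⟩
    (hall.mono fun p hp hR => ⟨(hp hR).1, (hp hR).2.1, (hp hR).2.2.1, (hp hR).2.2.2.1⟩)
  have hout : ∀ p, p ∉ PP → 150 < xp p + ze p := fun p hp => not_le.1 fun h => hp ((mem_PP_iff p).2 h)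
  have hinn : ∀ s : ℝ, s = 1 ∨ s = -1 → ∀ p ∈ CC s, rho p ≤ 48 := fun s hs p hp =>
    (rho_le_iff p).2 (by rcases hs with rfl | rfl; exacts [Or.inl hp, Or.inr hp])
  have w0 : ∀ᵐ p : E, p ∉ PP →
      cl (gL1 C) p = (1 / 1125 : ℝ) • ez ∧ cl (gL2 C) p = (0 : ℝ) • ez :=
    .of_forall fun p hp => (g_out C (hout p hp).le).2.2 (hout p hp)
  have w1 : ∀ s : ℝ, s = 1 ∨ s = -1 → ∀ᵐ p : E, p ∈ CC s →
      cl (gL1 C) p = (1 / 640 : ℝ) • ez ∧ cl (gL2 C) p = (-s / 3840) • ez := fun s hs =>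
    ae_ne_port.mono fun p hp h => (g_inn C hs h).2.2 (lt_of_le_of_ne (hinn s hs p h) hp.2)
  have o1 : ∀ p, p ∉ PP → 48 - G.u₁ p = 0 ∧ G.u₂ p = 0 := fun p hp => by
    obtain ⟨e1, e2⟩ := hN.out p fun h => hp (RR_sub h)
    obtain ⟨e3, e4, -⟩ := g_out C (hout p hp).le
    rw [e1, e2]
    exact ⟨by rw [show (gF C).u₁ p = 48 from e3, sub_self], e4⟩
  have o2 : ∀ s : ℝ, s = 1 ∨ s = -1 → ∀ p ∈ CC s, 48 - G.u₁ p = 90 ∧ G.u₂ p = 7 * s :=
    fun s hs p hp => by
    obtain ⟨e1, e2⟩ := hN.out p fun h => RR_not_CC h hs hp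
    obtain ⟨e3, e4, -⟩ := g_inn C hs hp
    rw [e1, e2]
    exact ⟨by rw [show (gF C).u₁ p = -42 from e3]; norm_num, e4⟩
  have := hσ.fin
  have : NeZero σ := ⟨hσ.ne⟩
  have hm : 0 < (σ univ).toReal :=
    ENNReal.toReal_pos (Measure.measure_univ_ne_zero.2 hσ.ne) (measure_ne_top _ _)
  have hint : ∀ g : E → ℝ, ∫ p, g p ∂σ = (σ univ).toReal * ∫ p, g p ∂((σ univ)⁻¹ • σ) := fun g => by
    rw [integral_smul_measure, ENNReal.toReal_inv, smul_eq_mul, mul_inv_cancel_left₀ hm.ne']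
  have lΦ : LocallyLipschitz fun p => 48 - G.u₁ p := LL.sub (LL.const _) hN.reg.1
  have gΦ : ∀ p, ∇ (fun p => 48 - G.u₁ p) p = -∇ G.u₁ p := fun p => by
    rw [show (fun p => 48 - G.u₁ p) = fun p => -1 * G.u₁ p + 48 from funext fun p => by ring,
      grad_add_const, grad_const_mul, neg_one_smul]
  refine ⟨{
    γ := γ
    Φ := fun p => 48 - G.u₁ p
    D := G.u₂
    σ := (σ univ)⁻¹ • σ
    c := min α 1
    C := max β 1
    κ := (σ univ).toReal / 1125
    κ' := (σ univ).toReal / 13500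
    hc := lt_min hα one_pos
    hc1 := min_le_right _ _
    hC1 := le_max_right _ _
    hκ := by positivity
    hκ' := by positivity
    meas := hγ
    bd := fun p => ⟨(min_le_left _ _).trans (hb p).1, (hb p).2.trans (le_max_left _ _)⟩
    llΦ := lΦ
    llD := hN.reg.2.1
    prob := inferInstance
    supp := ?_
    out := o1
    inn := o2
    ne := gadget_ne hN.reg.2.1.continuous fun p hp => by
      rw [(o2 1 (Or.inl rfl) p hp).2, mul_one]
    grad := ?_
    wk := fun f hf => ?_ }⟩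
  · refine Measure.ae_smul_measure (hσ.supp.mono fun p hp => ⟨hp.1, ?_⟩) _
    exact (isClosed_eq lΦ.continuous continuous_const).closure_subset_iff.2
      (fun q hq => (o1 q hq).1) hp.2
  · filter_upwards [ae_ne_port] with p hp hR
    by_cases h : p ∈ PP
    · have h1 : rho p < 48 := lt_of_le_of_ne (not_lt.1 fun h' =>
        hR ⟨lt_of_le_of_ne ((mem_PP_iff p).1 h) hp.1, h'⟩) hp.2
      have h2 : ∀ᶠ y in 𝓝 p, y ∈ CC 1 ∨ y ∈ CC (-1) :=
        (ll_rho.continuous.continuousAt.eventually_lt continuousAt_const h1).mono fun y hy =>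
          (rho_le_iff y).1 hy.le
      have h3 : ∃ s : ℝ, (s = 1 ∨ s = -1) ∧ ∀ᶠ y in 𝓝 p, y ∈ CC s := by
        rcases (rho_le_iff p).1 h1.le with h4 | h4
        · refine ⟨1, Or.inl rfl, ?_⟩
          filter_upwards [h2, (isClosed_CC (-1)).isOpen_compl.mem_nhds
            (Set.disjoint_left.1 CC_disj h4)] with y hy hy'
          exact hy.resolve_right hy'
        · refine ⟨-1, Or.inr rfl, ?_⟩
          filter_upwards [h2, (isClosed_CC 1).isOpen_compl.mem_nhds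
            (Set.disjoint_right.1 CC_disj h4)] with y hy hy'
          exact hy.resolve_left hy'
      obtain ⟨s, hs, h3⟩ := h3
      exact ⟨grad_of_eventually_const (h3.mono fun y hy => (o2 s hs y hy).1),
        grad_of_eventually_const (h3.mono fun y hy => (o2 s hs y hy).2)⟩
    · have h3 : ∀ᶠ y in 𝓝 p, y ∉ PP := isClosed_PP.isOpen_compl.mem_nhds h
      exact ⟨grad_of_eventually_const (h3.mono fun y hy => (o1 y hy).1),
        grad_of_eventually_const (h3.mono fun y hy => (o1 y hy).2)⟩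
  · obtain ⟨K₁, hK₁⟩ := gadget_bdd l3
    obtain ⟨K₂, hK₂⟩ := gadget_bdd l4
    have a1 := weak hσ l3 (w0.mono fun p hp h => (hp h).1)
      ((w1 1 (Or.inl rfl)).mono fun p hp h => (hp h).1)
      ((w1 (-1) (Or.inr rfl)).mono fun p hp h => (hp h).1)
      (hall.mono fun p hp h => (hp h).2.2.2.2.1) hf
    have a2 := weak hσ l4 (w0.mono fun p hp h => (hp h).2)
      ((w1 1 (Or.inl rfl)).mono fun p hp h => (hp h).2)
      ((w1 (-1) (Or.inr rfl)).mono fun p hp h => (hp h).2)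
      (hall.mono fun p hp h => (hp h).2.2.2.2.2) hf
    have b1 := gadget_int (gadget_meas (gL1 C)) hN.reg.2.2.1 hK₁
      (hN.cur.mono fun p hp h => (hp h).1) hf (hN.wk f hf).1
    have b2 := gadget_int (gadget_meas (gL2 C)) hN.reg.2.2.2 hK₂
      (hN.cur.mono fun p hp h => (hp h).2) hf (hN.wk f hf).2
    have c1 : ∫ p in RR, γ p * ⟪∇ (fun p => 48 - G.u₁ p) p, ∇ f p⟫ =
        -∫ p in RR, ⟪G.J₁ p, ∇ f p⟫ := by
      rw [← integral_neg]
      refine setIntegral_congr_ae isOpen_RR.measurableSet (hJ.mono fun p hp h => ?_)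
      rw [gΦ, (hp h).1, inner_neg_left, real_inner_smul_left, mul_neg]
    have c2 : ∫ p in RR, γ p * ⟪∇ G.u₂ p, ∇ f p⟫ = ∫ p in RR, ⟪G.J₂ p, ∇ f p⟫ := by
      refine setIntegral_congr_ae isOpen_RR.measurableSet (hJ.mono fun p hp h => ?_)
      rw [(hp h).2, real_inner_smul_left]
    rw [c1, c2, b1, b2, a1, a2, hint f, hint fun p => f (SS 1 p), hint fun p => f (SS (-1) p)]
    constructor <;> ring

end Crest.Agent.R083
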