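import Crest.Agent.R083.Geo

/-! Row 83: the self-similar conductivity. -/

set_option autoImplicit false

namespace Crest.Agent.R083

open MeasureTheory Filter Topology Set
open scoped Gradient RealInnerProductSpace

open Classical in
/-- The approximating conductivities. -/
noncomputable def gamSeq (g : E → ℝ) : ℕ → E → ℝ
  | 0 => fun _ => 1
  | n + 1 => fun p => if p ∈ RR then g p else if p ∈ CC 1 then gamSeq g n (SI 1 p)
      else if p ∈ CC (-1) then gamSeq g n (SI (-1) p) else 1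

theorem gam_meas {g : E → ℝ} (hg : Measurable g) (n : ℕ) : Measurable (gamSeq g n) := by
  induction n with
  | zero => exact measurable_const
  | succ n ih =>
    exact Measurable.ite isOpen_RR.measurableSet hg
      (Measurable.ite (isClosed_CC 1).measurableSet (ih.comp (ll_SI 1).continuous.measurable)
        (Measurable.ite (isClosed_CC (-1)).measurableSet
          (ih.comp (ll_SI (-1)).continuous.measurable) measurable_const))

theorem gam_bd (G : Gadget) (n : ℕ) (p : E) : G.c ≤ gamSeq G.γ n p ∧ gamSeq G.γ n p ≤ G.C := by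
  induction n generalizing p with
  | zero => exact ⟨G.hc1, G.hC1⟩
  | succ n ih =>
    simp only [gamSeq]
    split_ifs
    exacts [G.bd p, ih _, ih _, ⟨G.hc1, G.hC1⟩]

theorem gam_SS (g : E → ℝ) (n : ℕ) {s : ℝ} (hs : s = 1 ∨ s = -1) {p : E} (hp : p ∈ PP) :
    gamSeq g (n + 1) (SS s p) = gamSeq g n p := by
  have h1 := (SS_mem s p).2 hp
  have h2 : SS s p ∉ RR := fun h => RR_not_CC h hs h1
  simp only [gamSeq]
  rw [if_neg h2]
  rcases hs with rfl | rfl
  · rw [if_pos h1, SI_SS]
  · rw [if_neg fun h => Set.disjoint_left.1 CC_disj h h1, if_pos h1, SI_SS]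

/-- `γ 0 = 1`, `γ (n+1) p = G.γ p` on `RR`, `γ n (SI s p)` on `CC s`, `1` elsewhere; take
`limsup` (`Measurable.limsup`, `Filter.limsup_nat_add`). -/
theorem exists_gam (G : Gadget) : ∃ γ : E → ℝ, Measurable γ ∧ (∀ p, G.c ≤ γ p ∧ γ p ≤ G.C) ∧
    (∀ p ∈ RR, γ p = G.γ p) ∧ (∀ s, s = 1 ∨ s = -1 → ∀ p ∈ PP, γ (SS s p) = γ p) ∧
    ∀ p, p ∉ PP → γ p = 1 := by
  have hb : ∀ p, IsBoundedUnder (· ≤ ·) atTop (fun n => gamSeq G.γ n p) := fun p =>
    isBoundedUnder_of ⟨G.C, fun n => (gam_bd G n p).2⟩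
  have hb' : ∀ p, IsBoundedUnder (· ≥ ·) atTop (fun n => gamSeq G.γ n p) := fun p =>
    isBoundedUnder_of ⟨G.c, fun n => (gam_bd G n p).1⟩
  refine ⟨fun p => limsup (fun n => gamSeq G.γ n p) atTop, Measurable.limsup (gam_meas G.meas),
    fun p => ⟨?_, ?_⟩, fun p hp => ?_, fun s hs p hp => ?_, fun p hp => ?_⟩
  · refine le_limsup_of_le (hb p) fun b h => ?_
    obtain ⟨n, hn⟩ := h.exists
    exact (gam_bd G n p).1.trans hn
  · exact limsup_le_of_le (hb' p).isCoboundedUnder_le (.of_forall fun n => (gam_bd G n p).2)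
  · dsimp only
    rw [← limsup_nat_add _ 1]
    simp only [gamSeq, if_pos hp, limsup_const]
  · dsimp only
    rw [← limsup_nat_add _ 1]
    simp only [gam_SS G.γ _ hs hp]
  · dsimp only
    rw [← limsup_nat_add _ 1]
    have h1 : p ∉ RR := fun h => hp (RR_sub h)
    have h2 : p ∉ CC 1 := fun h => hp (CC_sub (Or.inl rfl) h)
    have h3 : p ∉ CC (-1) := fun h => hp (CC_sub (Or.inr rfl) h)
    simp only [gamSeq, if_neg h1, if_neg h2, if_neg h3, limsup_const]

end Crest.Agent.R083
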