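import Crest.Agent.R083.Basic

/-! Row 83: passing to the limit in the convex integration. -/

set_option autoImplicit false

namespace Crest.Agent.R083

open MeasureTheory Filter Topology Set
open scoped Gradient RealInnerProductSpace

theorem isolim_int {Ω : Set E} (hm : MeasurableSet Ω) (hb : Bornology.IsBounded Ω) {J : E → E}
    (hJ : Measurable J) {f : E → ℝ} (hf : LocallyLipschitz f) {s : ℝ}
    (h : ∀ᵐ x : E, x ∈ Ω → ‖J x‖ ≤ s) : IntegrableOn (fun x => ⟪J x, ∇ f x⟫) Ω := by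
  obtain ⟨R, hR⟩ := hb.exists_norm_le
  obtain ⟨K, hK0, hK⟩ := LL.grad_bdd hf R
  refine integrableOn_of_bdd hb hm (hJ.inner (measurable_grad f)) (K := s * K) ?_
  filter_upwards [h] with x hx hxΩ
  exact (abs_real_inner_le_norm _ _).trans
    (mul_le_mul (hx hxΩ) (hK x (hR x hxΩ)) (norm_nonneg _) ((norm_nonneg _).trans (hx hxΩ)))

theorem isolim_add {Ω : Set E} (hm : MeasurableSet Ω) (hb : Bornology.IsBounded Ω) {A B C : E → E}
    (hA : Measurable A) (hB : Measurable B) (hC : Measurable C) {s t : ℝ}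
    (h1 : ∀ᵐ x : E, x ∈ Ω → ‖B x - A x‖ ≤ s) (h2 : ∀ᵐ x : E, x ∈ Ω → ‖C x - B x‖ ≤ t)
    {f : E → ℝ} (hf : LocallyLipschitz f) : ∫ x in Ω, ⟪C x - A x, ∇ f x⟫ =
      (∫ x in Ω, ⟪C x - B x, ∇ f x⟫) + ∫ x in Ω, ⟪B x - A x, ∇ f x⟫ := by
  have i1 := isolim_int hm hb (J := fun x => B x - A x) (hB.sub hA) hf h1
  have i2 := isolim_int hm hb (J := fun x => C x - B x) (hC.sub hB) hf h2
  rw [← integral_add i2 i1]
  refine integral_congr_ae (.of_forall fun x => ?_)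
  simp only [← inner_add_left, sub_add_sub_cancel]

theorem isolim_tri {a b c a' b' c' s t d : ℝ} (h1 : |(b - a) - (b' - a')| ≤ s * d)
    (h2 : |(c - b) - (c' - b')| ≤ t * d) : |(c - a) - (c' - a')| ≤ (s + t) * d := by
  rw [abs_le] at *
  constructor <;> linarith [h1.1, h1.2, h2.1, h2.2]

theorem Next.trans {Ω : Set E} (hm : MeasurableSet Ω) (hb : Bornology.IsBounded Ω) {s t : ℝ}
    {F G H : Fld} (hF : F.Reg) (h1 : Next Ω s F G) (h2 : Next Ω t G H) : Next Ω (s + t) F H := by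
  refine ⟨h2.reg, fun x y => isolim_tri (h1.lip₁ x y) (h2.lip₁ x y),
    fun x y => isolim_tri (h1.lip₂ x y) (h2.lip₂ x y), fun x hx =>
      ⟨(h2.out x hx).1.trans (h1.out x hx).1, (h2.out x hx).2.trans (h1.out x hx).2⟩, ?_,
    fun f hf => ⟨?_, ?_⟩⟩
  · filter_upwards [h1.cur, h2.cur] with x a b hx
    exact ⟨(norm_sub_le_norm_sub_add_norm_sub _ (G.J₁ x) _).trans
        (by linarith [(a hx).1, (b hx).1]),
      (norm_sub_le_norm_sub_add_norm_sub _ (G.J₂ x) _).trans (by linarith [(a hx).2, (b hx).2])⟩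
  · rw [isolim_add hm hb hF.2.2.1 h1.reg.2.2.1 h2.reg.2.2.1 (h1.cur.mono fun x h hx => (h hx).1)
      (h2.cur.mono fun x h hx => (h hx).1) hf, (h1.wk f hf).1, (h2.wk f hf).1, add_zero]
  · rw [isolim_add hm hb hF.2.2.2 h1.reg.2.2.2 h2.reg.2.2.2 (h1.cur.mono fun x h hx => (h hx).2)
      (h2.cur.mono fun x h hx => (h hx).2) hf, (h1.wk f hf).2, (h2.wk f hf).2, add_zero]

theorem isolim_seq {V : Type*} [NormedAddCommGroup V] [CompleteSpace V] {a : ℕ → V} {s : ℕ → ℝ}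
    (hs : Summable s) (h : ∀ n, ‖a (n + 1) - a n‖ ≤ s n) :
    Tendsto a atTop (𝓝 (limUnder atTop a)) :=
  (cauchySeq_of_dist_le_of_summable s (fun n => by rw [dist_comm, dist_eq_norm]; exact h n)
    hs).tendsto_limUnder

theorem isolim_tail {V : Type*} [NormedAddCommGroup V] {a : ℕ → V} {s : ℕ → ℝ} {l : V}
    (hs : Summable s) (h : ∀ n, ‖a (n + 1) - a n‖ ≤ s n) (hl : Tendsto a atTop (𝓝 l)) (n : ℕ) :
    ‖l - a n‖ ≤ ∑' m, s (n + m) := by
  have := dist_le_tsum_of_dist_le_of_tendsto s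
    (fun n => by rw [dist_comm, dist_eq_norm]; exact h n) hs hl n
  rwa [dist_comm, dist_eq_norm] at this

theorem isolim_tail_zero (s : ℕ → ℝ) : Tendsto (fun n => ∑' m, s (n + m)) atTop (𝓝 0) := by
  simpa only [add_comm] using tendsto_sum_nat_add s

/-- the limit of the potentials -/
theorem isolim_pot {Ω : Set E} (hb : Bornology.IsBounded Ω) {u : ℕ → E → ℝ} {s : ℕ → ℝ}
    (hs0 : ∀ n, 0 ≤ s n) (hs : Summable s) (hu : ∀ n, LocallyLipschitz (u n))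
    (lip : ∀ n x y, |(u (n + 1) x - u n x) - (u (n + 1) y - u n y)| ≤ s n * dist x y)
    (out : ∀ n x, x ∉ Ω → u (n + 1) x = u n x) : ∃ U : E → ℝ, LocallyLipschitz U ∧
      (∀ x y, |(U x - u 0 x) - (U y - u 0 y)| ≤ (∑' n, s n) * dist x y) ∧
      (∀ x, x ∉ Ω → U x = u 0 x) ∧ ∀ᵐ x : E, Tendsto (fun n => ∇ (u n) x) atTop (𝓝 (∇ U x)) := by
  obtain ⟨x₀, hx₀⟩ : ∃ x₀, x₀ ∉ Ω := by
    by_contra h
    push Not at h
    exact NormedSpace.unbounded_univ ℝ E (hb.subset fun x _ => h x)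
  have hlim : ∀ x, Tendsto (fun n => u n x) atTop (𝓝 (limUnder atTop fun n => u n x)) := by
    intro x
    refine isolim_seq (hs.mul_right (dist x x₀)) fun n => ?_
    have := lip n x x₀
    rwa [out n x₀ hx₀, sub_self, sub_zero] at this
  set U : E → ℝ := fun x => limUnder atTop fun n => u n x
  have key : ∀ n x y, |(U x - u n x) - (U y - u n y)| ≤ (∑' m, s (n + m)) * dist x y := by
    intro n x y
    have := isolim_tail (a := fun n => u n x - u n y) (hs.mul_right (dist x y)) (fun n => by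
      have := lip n x y
      rwa [sub_sub_sub_comm] at this) ((hlim x).sub (hlim y)) n
    rwa [tsum_mul_right, sub_sub_sub_comm] at this
  have t0 : ∀ n, 0 ≤ ∑' m, s (n + m) := fun n => tsum_nonneg fun m => hs0 _
  have hl : LipschitzWith (∑' m, s (0 + m)).toNNReal fun x => U x - u 0 x :=
    LipschitzWith.of_dist_le' (key 0)
  have hU : LocallyLipschitz U := by
    simpa only [sub_add_cancel] using LL.add hl.locallyLipschitz (hu 0)
  refine ⟨U, hU, by simpa only [zero_add] using key 0, fun x hx => ?_, ?_⟩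
  · have h1 : ∀ n, u n x = u 0 x := fun n => by
      induction n with
      | zero => rfl
      | succ n ih => rw [out n x hx, ih]
    refine tendsto_nhds_unique (hlim x) ?_
    simp only [h1]
    exact tendsto_const_nhds
  · filter_upwards [LL.ae_diff hU, ae_all_iff.2 fun n => LL.ae_diff (hu n)] with x h1 h2
    rw [tendsto_iff_norm_sub_tendsto_zero]
    refine squeeze_zero (fun _ => norm_nonneg _) (fun n => ?_) (isolim_tail_zero s)
    rw [norm_sub_rev, ← grad_sub h1 (h2 n), norm_grad]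
    refine norm_fderiv_le_of_lip' ℝ (t0 n) (.of_forall fun y => ?_)
    rw [← dist_eq_norm y x]
    exact key n y x

/-- the limit of the currents -/
theorem isolim_cur {Ω : Set E} (hm : MeasurableSet Ω) (hb : Bornology.IsBounded Ω) {J : ℕ → E → E}
    {s : ℕ → ℝ} (hs : Summable s) (hJ : ∀ n, Measurable (J n))
    (cur : ∀ n, ∀ᵐ x : E, x ∈ Ω → ‖J (n + 1) x - J n x‖ ≤ s n)
    (wk : ∀ n (f : E → ℝ), LocallyLipschitz f → ∫ x in Ω, ⟪J (n + 1) x - J n x, ∇ f x⟫ = 0) :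
    ∃ G : E → E, Measurable G ∧ (∀ᵐ x : E, x ∈ Ω → ‖G x - J 0 x‖ ≤ ∑' n, s n) ∧
      (∀ f : E → ℝ, LocallyLipschitz f → ∫ x in Ω, ⟪G x - J 0 x, ∇ f x⟫ = 0) ∧
      ∀ᵐ x : E, x ∈ Ω → Tendsto (fun n => J n x) atTop (𝓝 (G x)) := by
  set G : E → E := fun x => limUnder atTop fun n => J n x
  have hG : Measurable G :=
    (StronglyMeasurable.limUnder fun n => (hJ n).stronglyMeasurable).measurable
  have hlim : ∀ᵐ x : E, x ∈ Ω → Tendsto (fun n => J n x) atTop (𝓝 (G x)) := by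
    filter_upwards [ae_all_iff.2 cur] with x h hx
    exact isolim_seq hs fun n => h n hx
  have key : ∀ n, ∀ᵐ x : E, x ∈ Ω → ‖G x - J n x‖ ≤ ∑' m, s (n + m) := by
    intro n
    filter_upwards [ae_all_iff.2 cur, hlim] with x h h' hx
    exact isolim_tail hs (fun n => h n hx) (h' hx) n
  refine ⟨G, hG, by simpa only [zero_add] using key 0, fun f hf => ?_, hlim⟩
  have h1 : ∀ n, ∫ x in Ω, ⟪G x - J n x, ∇ f x⟫ = ∫ x in Ω, ⟪G x - J 0 x, ∇ f x⟫ := by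
    intro n
    induction n with
    | zero => rfl
    | succ n ih =>
      rw [← ih, isolim_add hm hb (hJ n) (hJ (n + 1)) hG (cur n) (key (n + 1)) hf, wk n f hf,
        add_zero]
  obtain ⟨R, hR⟩ := hb.exists_norm_le
  obtain ⟨K, hK0, hK⟩ := LL.grad_bdd hf R
  have h2 : ∀ n, ‖∫ x in Ω, ⟪G x - J 0 x, ∇ f x⟫‖ ≤ (∑' m, s (n + m)) * K * volume.real Ω := by
    intro n
    rw [← h1 n]
    refine norm_setIntegral_le_of_norm_le_const_ae' hb.measure_lt_top ?_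
    filter_upwards [key n] with x hx hxΩ
    exact (abs_real_inner_le_norm _ _).trans
      (mul_le_mul (hx hxΩ) (hK x (hR x hxΩ)) (norm_nonneg _) ((norm_nonneg _).trans (hx hxΩ)))
  have h3 := ((isolim_tail_zero s).mul_const K).mul_const (volume.real Ω)
  rw [zero_mul, zero_mul] at h3
  exact norm_le_zero_iff.1 (ge_of_tendsto' h3 h2)

theorem isolim_closed {α β : ℝ} {j₁ j₂ e₁ e₂ : ℕ → E} {J₁ J₂ E₁ E₂ : E} {d : ℕ → ℝ}
    (hd : Tendsto d atTop (𝓝 0)) (h1 : Tendsto j₁ atTop (𝓝 J₁)) (h2 : Tendsto j₂ atTop (𝓝 J₂))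
    (h3 : Tendsto e₁ atTop (𝓝 E₁)) (h4 : Tendsto e₂ atTop (𝓝 E₂))
    (h : ∀ n, ∃ γ : ℝ, α ≤ γ ∧ γ ≤ β ∧ ‖j₁ n - γ • e₁ n‖ ≤ d n ∧ ‖j₂ n - γ • e₂ n‖ ≤ d n) :
    J₁ = clp α β ((⟪J₁, E₁⟫ + ⟪J₂, E₂⟫) / (‖E₁‖ ^ 2 + ‖E₂‖ ^ 2)) • E₁ ∧
      J₂ = clp α β ((⟪J₁, E₁⟫ + ⟪J₂, E₂⟫) / (‖E₁‖ ^ 2 + ‖E₂‖ ^ 2)) • E₂ := by
  choose γ g1 g2 g3 g4 using h
  obtain ⟨c, hc, φ, hφ, hl⟩ := isCompact_Icc.tendsto_subseq (x := γ) fun n => ⟨g1 n, g2 n⟩
  have key : ∀ {j e : ℕ → E} {J' E' : E}, Tendsto j atTop (𝓝 J') → Tendsto e atTop (𝓝 E') →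
      (∀ n, ‖j n - γ n • e n‖ ≤ d n) → J' = c • E' := by
    intro j e J' E' a b g
    have := le_of_tendsto_of_tendsto' ((a.comp hφ.tendsto_atTop).sub
      (hl.smul (b.comp hφ.tendsto_atTop))).norm (hd.comp hφ.tendsto_atTop) fun n => g (φ n)
    exact sub_eq_zero.1 (norm_le_zero_iff.1 this)
  obtain rfl := key h1 h3 g3
  obtain rfl := key h2 h4 g4
  by_cases h0 : ‖E₁‖ ^ 2 + ‖E₂‖ ^ 2 = 0
  · have a1 : E₁ = 0 := by
      rw [← norm_eq_zero, ← pow_eq_zero_iff two_ne_zero]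
      linarith [sq_nonneg ‖E₁‖, sq_nonneg ‖E₂‖]
    have a2 : E₂ = 0 := by
      rw [← norm_eq_zero, ← pow_eq_zero_iff two_ne_zero]
      linarith [sq_nonneg ‖E₁‖, sq_nonneg ‖E₂‖]
    simp [a1, a2]
  · have : (⟪c • E₁, E₁⟫ + ⟪c • E₂, E₂⟫) / (‖E₁‖ ^ 2 + ‖E₂‖ ^ 2) = c := by
      rw [real_inner_smul_left, real_inner_smul_left, real_inner_self_eq_norm_sq,
        real_inner_self_eq_norm_sq, ← mul_add, mul_div_cancel_right₀ _ h0]
    rw [this, clp_of_mem hc.1 hc.2]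
    exact ⟨rfl, rfl⟩

/-- `G.u_a = (F 0).u_a + ∑' n, ((F (n+1)).u_a - (F n).u_a)`, `G.J_a` likewise (or
`limUnder`; measurability by `Measurable.tsum`-type lemmas or `measurable_of_tendsto_metrizable` after
truncation on a null set).  At a point where all `(F n).u_a` and `G.u_a` are differentiable,
`‖∇ G.u_a - ∇ (F n).u_a‖ ≤ ∑_{k ≥ n} s k` since the difference is Lipschitz.  The set of
`(E₁, E₂, J₁, J₂)` with `J_a = γ E_a` for some `γ ∈ [α, β]` is closed; put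
`γ x = clp α β ((⟪J₁, E₁⟫ + ⟪J₂, E₂⟫) / (‖E₁‖² + ‖E₂‖²))`. -/
theorem iso_lim {Ω : Set E} (hm : MeasurableSet Ω) (hb : Bornology.IsBounded Ω) (F : ℕ → Fld)
    {s : ℕ → ℝ} (hs0 : ∀ n, 0 ≤ s n) (hs : Summable s) (h0 : (F 0).Reg)
    (hn : ∀ n, Next Ω (s n) (F n) (F (n + 1))) {α β : ℝ} (hαβ : α ≤ β) {d : ℕ → ℝ}
    (hd : Tendsto d atTop (𝓝 0))
    (hT : ∀ n, ∀ᵐ x : E, x ∈ Ω → ∃ γ : ℝ, α ≤ γ ∧ γ ≤ β ∧
      ‖(F (n + 1)).J₁ x - γ • ∇ (F (n + 1)).u₁ x‖ ≤ d n ∧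
      ‖(F (n + 1)).J₂ x - γ • ∇ (F (n + 1)).u₂ x‖ ≤ d n) :
    ∃ (G : Fld) (γ : E → ℝ), Next Ω (∑' n, s n) (F 0) G ∧ Measurable γ ∧
      (∀ x, α ≤ γ x ∧ γ x ≤ β) ∧
      ∀ᵐ x : E, x ∈ Ω → G.J₁ x = γ x • ∇ G.u₁ x ∧ G.J₂ x = γ x • ∇ G.u₂ x := by
  have hreg : ∀ n, (F n).Reg := fun n => by
    cases n with
    | zero => exact h0
    | succ n => exact (hn n).reg
  obtain ⟨U₁, a1, a2, a3, a4⟩ := isolim_pot hb (u := fun n => (F n).u₁) hs0 hs
    (fun n => (hreg n).1) (fun n => (hn n).lip₁) fun n x hx => ((hn n).out x hx).1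
  obtain ⟨U₂, b1, b2, b3, b4⟩ := isolim_pot hb (u := fun n => (F n).u₂) hs0 hs
    (fun n => (hreg n).2.1) (fun n => (hn n).lip₂) fun n x hx => ((hn n).out x hx).2
  obtain ⟨G₁, c1, c2, c3, c4⟩ := isolim_cur hm hb (J := fun n => (F n).J₁) hs
    (fun n => (hreg n).2.2.1) (fun n => (hn n).cur.mono fun x h hx => (h hx).1)
    fun n f hf => ((hn n).wk f hf).1
  obtain ⟨G₂, d1, d2, d3, d4⟩ := isolim_cur hm hb (J := fun n => (F n).J₂) hs
    (fun n => (hreg n).2.2.2) (fun n => (hn n).cur.mono fun x h hx => (h hx).2)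
    fun n f hf => ((hn n).wk f hf).2
  refine ⟨⟨U₁, U₂, G₁, G₂⟩, fun x => clp α β ((⟪G₁ x, ∇ U₁ x⟫ + ⟪G₂ x, ∇ U₂ x⟫) /
    (‖∇ U₁ x‖ ^ 2 + ‖∇ U₂ x‖ ^ 2)), ⟨⟨a1, b1, c1, d1⟩, a2, b2, fun x hx => ⟨a3 x hx, b3 x hx⟩, ?_,
      fun f hf => ⟨c3 f hf, d3 f hf⟩⟩, ?_, fun x => ⟨le_clp _ _ _, clp_le hαβ _⟩, ?_⟩
  · filter_upwards [c2, d2] with x h1 h2 hx using ⟨h1 hx, h2 hx⟩
  · have m1 := measurable_grad U₁
    have m2 := measurable_grad U₂
    exact (lipschitz_clp α β).continuous.measurable.comp (((c1.inner m1).add (d1.inner m2)).div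
      ((m1.norm.pow_const 2).add (m2.norm.pow_const 2)))
  · filter_upwards [a4, b4, c4, d4, ae_all_iff.2 hT] with x h1 h2 h3 h4 h5 hx
    have t := tendsto_add_atTop_nat 1
    exact isolim_closed hd ((h3 hx).comp t) ((h4 hx).comp t) (h1.comp t) (h2.comp t)
      fun n => h5 n hx

end Crest.Agent.R083
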