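import Crest.Agent.R083.Basic

/-! Row 83: existence of the conductivity matrix. -/

set_option autoImplicit false

namespace Crest.Agent.R083

open MeasureTheory Filter Topology Set
open scoped Gradient RealInnerProductSpace

theorem sigma_abs {E₁ E₂ J₁ J₂ N F₁ F₂ F₃ : E} (hs : ⟪J₁, E₂⟫ = ⟪J₂, E₁⟫) (τ : ℝ)
    (hdec : ∀ v, v = ⟪F₁, v⟫ • E₁ + ⟪F₂, v⟫ • E₂ + ⟪F₃, v⟫ • N)
    (h11 : ⟪F₁, E₁⟫ = 1) (h12 : ⟪F₁, E₂⟫ = 0) (h13 : ⟪F₁, N⟫ = 0)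
    (h21 : ⟪F₂, E₁⟫ = 0) (h22 : ⟪F₂, E₂⟫ = 1) (h23 : ⟪F₂, N⟫ = 0)
    (h31 : ⟪F₃, E₁⟫ = 0) (h32 : ⟪F₃, E₂⟫ = 0) (hN1 : ⟪N, E₁⟫ = 0) (hN2 : ⟪N, E₂⟫ = 0) :
    ∃ (b : OrthonormalBasis (Fin 3) ℝ E) (μ : Fin 3 → ℝ),
      J₁ = ∑ i, (μ i * ⟪b i, E₁⟫) • b i ∧ J₂ = ∑ i, (μ i * ⟪b i, E₂⟫) • b i ∧
      ∀ i, ∃ (a c : ℝ) (w : E), ‖a • E₁ + c • E₂‖ ^ 2 + ‖w‖ ^ 2 = 1 ∧
        μ i = ⟪a • J₁ + c • J₂, a • E₁ + c • E₂⟫ + 2 * ⟪a • J₁ + c • J₂, w⟫ + τ * ‖w‖ ^ 2 := by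
  obtain ⟨G, hG1, hG2, hG3⟩ : ∃ G : E, ⟪G, E₁⟫ = ⟪J₁, N⟫ ∧ ⟪G, E₂⟫ = ⟪J₂, N⟫ ∧
      ⟪G, N⟫ = τ * ⟪N, N⟫ := by
    refine ⟨⟪J₁, N⟫ • F₁ + ⟪J₂, N⟫ • F₂ + τ • N, ?_, ?_, ?_⟩ <;>
      simp only [inner_add_left, real_inner_smul_left, h11, h12, h13, h21, h22, h23, hN1, hN2] <;>
      ring
  let σ : E →ₗ[ℝ] E :=
    { toFun := fun v => ⟪F₁, v⟫ • J₁ + ⟪F₂, v⟫ • J₂ + ⟪F₃, v⟫ • G
      map_add' := fun v w => by simp only [inner_add_right, add_smul]; abel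
      map_smul' := fun t v => by
        simp only [real_inner_smul_right, RingHom.id_apply, smul_add, smul_smul] }
  have hσ : ∀ v, σ v = ⟪F₁, v⟫ • J₁ + ⟪F₂, v⟫ • J₂ + ⟪F₃, v⟫ • G := fun _ => rfl
  have hq : ∀ v w, ⟪σ v, w⟫ = ⟪⟪F₁, v⟫ • J₁ + ⟪F₂, v⟫ • J₂ + ⟪F₃, v⟫ • G,
      ⟪F₁, w⟫ • E₁ + ⟪F₂, w⟫ • E₂ + ⟪F₃, w⟫ • N⟫ := fun v w => by rw [← hdec w, hσ]
  have hsym : σ.IsSymmetric := fun v w => by
    rw [real_inner_comm (σ w) v, hq, hq]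
    simp only [inner_add_left, inner_add_right, real_inner_smul_left, real_inner_smul_right,
      hG1, hG2, hG3, hs]
    ring
  have hn : Module.finrank ℝ E = 3 := by simp
  have key : ∀ v, σ v = ∑ i, (hsym.eigenvalues hn i * ⟪hsym.eigenvectorBasis hn i, v⟫) •
      hsym.eigenvectorBasis hn i := fun v => by
    conv_lhs => rw [← (hsym.eigenvectorBasis hn).sum_repr' v, map_sum]
    refine Finset.sum_congr rfl fun i _ => ?_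
    rw [map_smul, hsym.apply_eigenvectorBasis, smul_smul, mul_comm]
    rfl
  refine ⟨hsym.eigenvectorBasis hn, hsym.eigenvalues hn, ?_, ?_, fun i => ?_⟩
  · rw [← key, hσ, h11, h21, h31]; simp
  · rw [← key, hσ, h12, h22, h32]; simp
  · set v := hsym.eigenvectorBasis hn i with hv
    have h1 : ‖v‖ = 1 := (hsym.eigenvectorBasis hn).orthonormal.1 i
    refine ⟨⟪F₁, v⟫, ⟪F₂, v⟫, ⟪F₃, v⟫ • N, ?_, ?_⟩
    · have h2 : ⟪⟪F₁, v⟫ • E₁ + ⟪F₂, v⟫ • E₂, ⟪F₃, v⟫ • N⟫ = 0 := by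
        simp only [inner_add_left, real_inner_smul_left, real_inner_smul_right,
          real_inner_comm N, hN1, hN2]
        ring
      have h3 := norm_add_sq_real (⟪F₁, v⟫ • E₁ + ⟪F₂, v⟫ • E₂) (⟪F₃, v⟫ • N)
      rw [← hdec v, h1, h2] at h3
      linarith
    · have h2 : ⟪σ v, v⟫ = hsym.eigenvalues hn i := by
        rw [hv, hsym.apply_eigenvectorBasis, real_inner_smul_left, real_inner_self_eq_norm_sq,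
          ← hv, h1]
        simp
      rw [← h2, hq, ← real_inner_self_eq_norm_sq]
      simp only [inner_add_left, inner_add_right, real_inner_smul_left, real_inner_smul_right,
        hG1, hG2, hG3]
      ring

theorem sigma_core {E₁ E₂ J₁ J₂ : E} (hs : ⟪J₁, E₂⟫ = ⟪J₂, E₁⟫) (hr : cr E₁ E₂ ≠ 0) (τ : ℝ) :
    ∃ (b : OrthonormalBasis (Fin 3) ℝ E) (μ : Fin 3 → ℝ),
      J₁ = ∑ i, (μ i * ⟪b i, E₁⟫) • b i ∧ J₂ = ∑ i, (μ i * ⟪b i, E₂⟫) • b i ∧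
      ∀ i, ∃ (a c : ℝ) (w : E), ‖a • E₁ + c • E₂‖ ^ 2 + ‖w‖ ^ 2 = 1 ∧
        μ i = ⟪a • J₁ + c • J₂, a • E₁ + c • E₂⟫ + 2 * ⟪a • J₁ + c • J₂, w⟫ + τ * ‖w‖ ^ 2 := by
  obtain ⟨D, hD⟩ : ∃ D : ℝ, D = ⟪cr E₁ E₂, cr E₁ E₂⟫ := ⟨_, rfl⟩
  have hD0 : D ≠ 0 := by rw [hD]; exact inner_self_ne_zero.2 hr
  refine sigma_abs (N := cr E₁ E₂) (F₁ := D⁻¹ • cr E₂ (cr E₁ E₂)) (F₂ := D⁻¹ • cr (cr E₁ E₂) E₁)
    (F₃ := D⁻¹ • cr E₁ E₂) hs τ (fun v => ?_) ?_ ?_ ?_ ?_ ?_ ?_ ?_ ?_ ?_ ?_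
  · have h : D • v = ⟪cr E₂ (cr E₁ E₂), v⟫ • E₁ + ⟪cr (cr E₁ E₂) E₁, v⟫ • E₂ +
        ⟪cr E₁ E₂, v⟫ • cr E₁ E₂ := by rw [hD]; vec3
    simp only [real_inner_smul_left, mul_smul, ← smul_add]
    rw [← h, smul_smul, inv_mul_cancel₀ hD0, one_smul]
  · rw [real_inner_smul_left, inv_mul_eq_one₀ hD0, hD]; sc3
  · sc3
  · sc3
  · sc3
  · rw [real_inner_smul_left, inv_mul_eq_one₀ hD0, hD]; sc3
  · sc3
  · sc3
  · sc3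
  · sc3
  · sc3

theorem sigma_nonneg {E₁ E₂ J : E} {K : ℝ} (hr : cr E₁ E₂ ≠ 0) (h : ‖J‖ ≤ K * ‖E₁‖) : 0 ≤ K := by
  have h1 : E₁ ≠ 0 := by rintro rfl; exact hr (cr_zero_left _)
  exact nonneg_of_mul_nonneg_left ((norm_nonneg _).trans h) (norm_pos_iff.2 h1)

/-- Put `N = cr E₁ E₂`, `F₁ = cr E₂ N / ‖N‖²`, `F₂ = cr N E₁ / ‖N‖²` (dual basis),
`π v = ⟪F₁, v⟫ E₁ + ⟪F₂, v⟫ E₂ = v - ⟪N, v⟫ N / ‖N‖²`, `B v = ⟪F₁, v⟫ J₁ + ⟪F₂, v⟫ J₂`,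
`σ v = B v + ⟪J₁, v - π v⟫ F₁ + ⟪J₂, v - π v⟫ F₂ + τ (v - π v)`.  This linear map is symmetric (by
`Sym`), `σ E_a = J_a`, `⟪σ v, v⟫ = ⟪B v, π v⟫ + 2 ⟪B v, v - π v⟫ + τ ‖v - π v‖²`.  Take
`τ = κ/2 + 2 K²/κ` and `LinearMap.IsSymmetric.eigenvectorBasis`. -/
theorem sigma_ell {κ K : ℝ} (hκ : 0 < κ) {X : St} (hs : Sym X) (hr : Rk X) (he : Ell κ K X) :
    ∃ (b : OrthonormalBasis (Fin 3) ℝ E) (μ : Fin 3 → ℝ), Diag b μ X ∧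
      ∀ i, κ / 2 ≤ μ i ∧ μ i ≤ 2 * K + κ / 2 + 2 * K ^ 2 / κ := by
  obtain ⟨b, μ, h1, h2, h3⟩ := sigma_core hs hr (κ / 2 + 2 * K ^ 2 / κ)
  refine ⟨b, μ, ⟨h1, h2⟩, fun i => ?_⟩
  obtain ⟨a, c, w, hn, hμ⟩ := h3 i
  have hK : 0 ≤ K := sigma_nonneg (J := X.2.1) hr (by simpa using (he 1 0).2)
  obtain ⟨e1, e2⟩ := he a c
  have e3 := abs_real_inner_le_norm (a • X.2.1 + c • X.2.2) (a • X.1.1 + c • X.1.2)
  have e4 := abs_real_inner_le_norm (a • X.2.1 + c • X.2.2) w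
  have hp := norm_nonneg (a • X.1.1 + c • X.1.2)
  have hq := norm_nonneg w
  generalize ‖a • X.1.1 + c • X.1.2‖ = p at *
  generalize ‖w‖ = q at *
  have e5 := (abs_le.1 (e3.trans (mul_le_mul_of_nonneg_right e2 hp))).2
  have e6 := abs_le.1 (e4.trans (mul_le_mul_of_nonneg_right e2 hq))
  have hτ : 0 ≤ 2 * K ^ 2 / κ := by positivity
  constructor
  · have e7 : κ / 2 * p ^ 2 - 2 * (K * p * q) + 2 * K ^ 2 / κ * q ^ 2 =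
        (κ * p - 2 * K * q) ^ 2 / (2 * κ) := by
      field_simp
      ring
    have e8 : 0 ≤ (κ * p - 2 * K * q) ^ 2 / (2 * κ) := by positivity
    have e9 : κ / 2 = κ / 2 * p ^ 2 + κ / 2 * q ^ 2 := by rw [← mul_add, hn, mul_one]
    rw [hμ]
    linarith [e6.1]
  · have e7 : (κ / 2 + 2 * K ^ 2 / κ) * q ^ 2 ≤ κ / 2 + 2 * K ^ 2 / κ :=
      mul_le_of_le_one_right (by positivity) (by nlinarith)
    have e8 : K * (p * p + 2 * (p * q)) ≤ K * 2 :=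
      mul_le_mul_of_nonneg_left (by nlinarith [sq_nonneg (p - q)]) hK
    rw [hμ]
    linarith [e6.2]

/-- The same construction for `J_a - γ E_a` with `τ = 0`. -/
theorem sigma_iso {γ d : ℝ} {X : St} (hs : Sym X) (hr : Rk X)
    (h : ∀ a b : ℝ, ‖a • (X.2.1 - γ • X.1.1) + b • (X.2.2 - γ • X.1.2)‖ ≤
      d * ‖a • X.1.1 + b • X.1.2‖) :
    ∃ (b : OrthonormalBasis (Fin 3) ℝ E) (μ : Fin 3 → ℝ), Diag b μ X ∧ ∀ i, |μ i - γ| ≤ 2 * d := by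
  have hs' : ⟪X.2.1 - γ • X.1.1, X.1.2⟫ = ⟪X.2.2 - γ • X.1.2, X.1.1⟫ := by
    rw [inner_sub_left, inner_sub_left, real_inner_smul_left, real_inner_smul_left,
      show ⟪X.2.1, X.1.2⟫ = ⟪X.2.2, X.1.1⟫ from hs, real_inner_comm X.1.2]
  obtain ⟨b, μ, h1, h2, h3⟩ := sigma_core hs' hr 0
  have key : ∀ J v : E, J - γ • v = ∑ i, (μ i * ⟪b i, v⟫) • b i →
      J = ∑ i, ((μ i + γ) * ⟪b i, v⟫) • b i := fun J v hJ => by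
    simp only [add_mul, add_smul, Finset.sum_add_distrib, ← hJ]
    simp only [mul_smul, ← Finset.smul_sum, b.sum_repr' v, sub_add_cancel]
  refine ⟨b, fun i => μ i + γ, ⟨key _ _ h1, key _ _ h2⟩, fun i => ?_⟩
  obtain ⟨a, c, w, hn, hμ⟩ := h3 i
  have hd : 0 ≤ d := sigma_nonneg (J := X.2.1 - γ • X.1.1) hr (by simpa using h 1 0)
  have e2 := h a c
  have e3 := abs_real_inner_le_norm (a • (X.2.1 - γ • X.1.1) + c • (X.2.2 - γ • X.1.2))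
    (a • X.1.1 + c • X.1.2)
  have e4 := abs_real_inner_le_norm (a • (X.2.1 - γ • X.1.1) + c • (X.2.2 - γ • X.1.2)) w
  have hp := norm_nonneg (a • X.1.1 + c • X.1.2)
  have hq := norm_nonneg w
  generalize ‖a • X.1.1 + c • X.1.2‖ = p at *
  generalize ‖w‖ = q at *
  have e5 := abs_le.1 (e3.trans (mul_le_mul_of_nonneg_right e2 hp))
  have e6 := abs_le.1 (e4.trans (mul_le_mul_of_nonneg_right e2 hq))
  have e8 : d * (p * p + 2 * (p * q)) ≤ d * 2 :=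
    mul_le_mul_of_nonneg_left (by nlinarith [sq_nonneg (p - q)]) hd
  rw [add_sub_cancel_right, hμ, abs_le]
  constructor <;> linarith [e5.1, e5.2, e6.1, e6.2]

end Crest.Agent.R083
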