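import Crest.Agent.R083.StepGlue
import Crest.Agent.R083.IsoLim
import Crest.Agent.R083.Sigma

/-! Row 83: isotropisation of two fields. -/

set_option autoImplicit false

namespace Crest.Agent.R083

open MeasureTheory Filter Topology Set
open scoped Gradient RealInnerProductSpace

theorem iso_round {Ω : Set E} (hΩ : IsOpen Ω) (hb : Bornology.IsBounded Ω) {s : ℝ} (hs : 0 < s)
    {T : Set St} (hT : IsOpen T) {F : Fld} (hF : F.Reg)
    (h : Inv Ω F (Pre s (Pre s (Pre s T)))) : ∃ F' : Fld, Next Ω (12 * s) F F' ∧ Inv Ω F' T := by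
  obtain ⟨F₁, n₁, i₁⟩ := step_glue hΩ hb hs (isOpen_Pre s (isOpen_Pre s hT)) hF h
  obtain ⟨F₂, n₂, i₂⟩ := step_glue hΩ hb hs (isOpen_Pre s hT) n₁.reg i₁
  obtain ⟨F₃, n₃, i₃⟩ := step_glue hΩ hb hs hT n₂.reg i₂
  refine ⟨F₃, ?_, i₃⟩
  have := Next.trans hΩ.measurableSet hb hF (Next.trans hΩ.measurableSet hb hF n₁ n₂) n₃
  rwa [show 4 * s + 4 * s + 4 * s = 12 * s by ring] at this

theorem iso_indep {E₁ E₂ : E} (h : cr E₁ E₂ ≠ 0) {a b : ℝ} (hab : a ≠ 0 ∨ b ≠ 0) :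
    a • E₁ + b • E₂ ≠ 0 := by
  intro h0
  have c0 : ∀ v : E, cr v v = 0 := fun v => by vec3
  have z1 : ∀ v : E, cr 0 v = 0 := fun v => by vec3
  have z2 : ∀ v : E, cr v 0 = 0 := fun v => by vec3
  rcases hab with ha | hb
  · have := congrArg (fun v => cr v E₂) h0
    simp only [cr_add_left, cr_smul_left, c0, z1, smul_zero, add_zero] at this
    exact h ((smul_eq_zero.1 this).resolve_left ha)
  · have := congrArg (fun v => cr E₁ v) h0
    simp only [cr_add_right, cr_smul_right, c0, z2, smul_zero, zero_add] at this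
    exact h ((smul_eq_zero.1 this).resolve_left hb)

theorem iso_mem {L α β d γ : ℝ} (hd : 0 < d) {E₁ E₂ : E} (h : cr E₁ E₂ ≠ 0) (h1 : ‖E₁‖ < L)
    (h2 : ‖E₂‖ < L) (h3 : α < γ) (h4 : γ < β) :
    ((E₁, E₂), (γ • E₁, γ • E₂)) ∈ Tset L α β d := by
  refine ⟨h, h1, h2, γ, h3, h4, fun a b hab => ?_⟩
  simp only [sub_self, smul_zero, add_zero, norm_zero]
  exact mul_pos hd (norm_pos_iff.2 (iso_indep h hab))

theorem iso_next {L α β q : ℝ} (hL : 0 < L) (hα : 0 < α) (hαβ : α ≤ β) (hq : 0 < q) (hq1 : q ≤ 1)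
    {X : St} (hs : Sym X)
    (h : X ∈ Tset (L * (2 - q)) (α * (1 + q)) (β * (2 - q)) (α * (q / 32) ^ 2 / 4)) :
    X ∈ Pre (q * ((1 + 3 * β) * L + 1)) (Pre (q * ((1 + 3 * β) * L + 1))
      (Pre (q * ((1 + 3 * β) * L + 1)) (Tset (L * (2 - q / 2)) (α * (1 + q / 2)) (β * (2 - q / 2))
        (α * (q / 2 / 32) ^ 2 / 4)))) := by
  obtain ⟨hr, h1, h2, γ, g1, g2, hd⟩ := h
  have hβ : 0 < β := hα.trans_le hαβ
  set d := α * (q / 32) ^ 2 / 4 with hddef
  have hd0 : 0 < d := by positivity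
  obtain ⟨b, μ, hD, hμ⟩ := sigma_iso (γ := γ) (d := d) hs hr fun a b => by
    by_cases hab : a ≠ 0 ∨ b ≠ 0
    · exact (hd a b hab).le
    · push Not at hab
      simp [hab.1, hab.2]
  have hαq : α ≤ α * (1 + q) := le_mul_of_one_le_right hα.le (by linarith)
  have hγ : α < γ := hαq.trans_lt g1
  have hd1 : 2 * d ≤ β * (q / 2048) := by
    rw [hddef]
    have : α * q ^ 2 ≤ β * q := by
      calc α * q ^ 2 = α * q * q := by ring
        _ ≤ β * q * 1 := by gcongr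
        _ = β * q := by ring
    nlinarith
  have hp1 : (1 + q / 32) ^ 3 ≤ 1 + q / 8 := by nlinarith [sq_nonneg q, mul_pos hq hq]
  have hp2 : 1 - 3 * q / 32 ≤ (1 - q / 32) ^ 3 := by nlinarith [sq_nonneg q, mul_pos hq hq]
  refine tree b μ (m := γ + 2 * d) (ρ := q / 32) (L := L * (2 - q)) (by linarith) (by positivity)
    (by linarith) (fun i => ?_) hr hD h1.le h2.le (isOpen_Tset _ _ _ _) ?_ ?_
  · have := abs_le.1 (hμ i)
    refine ⟨?_, by linarith⟩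
    have h4 : 4 * d ≤ (γ + 2 * d) * (q / 32) ^ 2 := by
      rw [show 4 * d = α * (q / 32) ^ 2 by rw [hddef]; ring]
      gcongr
      linarith
    linarith
  · intro E₁ E₂ γ' hc e1 e2 e3 e4
    have hE : (1 + q / 32) ^ 3 * (L * (2 - q)) < L * (2 - q / 2) := by
      calc (1 + q / 32) ^ 3 * (L * (2 - q)) ≤ (1 + q / 8) * (L * (2 - q)) := by
            gcongr; nlinarith
        _ = L * ((1 + q / 8) * (2 - q)) := by ring
        _ < L * (2 - q / 2) := by gcongr; nlinarith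
    refine iso_mem (by positivity) hc (e1.trans_lt hE) (e2.trans_lt hE) (lt_of_lt_of_le ?_ e3)
      (e4.trans_lt ?_)
    · calc α * (1 + q / 2) < α * ((1 + q) * (1 - 3 * q / 32)) := by gcongr; nlinarith
        _ = α * (1 + q) * (1 - 3 * q / 32) := by ring
        _ ≤ (γ + 2 * d) * (1 - q / 32) ^ 3 := by
          gcongr
          · linarith
          · linarith
          · linarith
    · calc (γ + 2 * d) * (1 + q / 32) ^ 3 ≤ (β * (2 - q) + β * (q / 2048)) * (1 + q / 8) := by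
            gcongr
            nlinarith
        _ = β * ((2 - q + q / 2048) * (1 + q / 8)) := by ring
        _ < β * (2 - q / 2) := by gcongr; nlinarith
  · have hm : γ + 2 * d ≤ 3 * β := by nlinarith
    calc 16 * (q / 32) * (1 + (γ + 2 * d)) * (L * (2 - q)) ≤ 16 * (q / 32) * (1 + 3 * β) * (L * 2) := by
          gcongr
          · nlinarith
          · linarith
      _ = q * ((1 + 3 * β) * L) := by ring
      _ < _ := by gcongr; linarith

theorem iso_first {κ K L₀ : ℝ} (hκ : 0 < κ) (hK : κ ≤ K) (hL : 0 ≤ L₀) :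
    ∃ L α β s : ℝ, 0 < L ∧ 0 < α ∧ α ≤ β ∧ 0 < s ∧ ∀ X : St, Sym X → Rk X → Ell κ K X →
      ‖X.1.1‖ ≤ L₀ → ‖X.1.2‖ ≤ L₀ → ∀ d, 0 < d → X ∈ Pre s (Pre s (Pre s (Tset L (α * 2) β d))) := by
  have hK0 : 0 < K := hκ.trans_le hK
  set m := 2 * K + κ / 2 + 2 * K ^ 2 / κ with hm
  have hm1 : κ / 2 < m := by
    have : 0 < 2 * K ^ 2 / κ := by positivity
    linarith
  have hm0 : 0 < m := by linarith
  have hx : 0 < 1 - κ / (2 * m) := by
    rw [sub_pos, div_lt_one (by positivity)]; linarith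
  have hx1 : 1 - κ / (2 * m) < 1 := by
    have : 0 < κ / (2 * m) := by positivity
    linarith
  set ρ := Real.sqrt (1 - κ / (2 * m)) with hρ
  have hρ0 : 0 ≤ ρ := Real.sqrt_nonneg _
  have hρ1 : ρ < 1 := (Real.sqrt_lt' one_pos).2 (by simpa using hx1)
  have hρ2 : m * (1 - ρ ^ 2) = κ / 2 := by
    rw [hρ, Real.sq_sqrt hx.le]; field_simp; ring
  have hp : (1 + ρ) ^ 3 ≤ 8 := by
    calc (1 + ρ) ^ 3 ≤ 2 ^ 3 := by gcongr; linarith
      _ = 8 := by norm_num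
  have hp0 : 0 < (1 - ρ) ^ 3 := pow_pos (by linarith) 3
  have hp1 : (1 - ρ) ^ 3 ≤ 1 := pow_le_one₀ (by linarith) (by linarith)
  refine ⟨8 * L₀ + 1, m * (1 - ρ) ^ 3 / 4, 8 * m + 1, 16 * ρ * (1 + m) * L₀ + 1, by positivity,
    by positivity, by nlinarith, by positivity, fun X hs hr he h1 h2 d hd => ?_⟩
  obtain ⟨b, μ, hD, hμ⟩ := sigma_ell hκ hs hr he
  refine tree b μ hm0 hρ0 hρ1 (fun i => ⟨hρ2 ▸ (hμ i).1, (hμ i).2⟩) hr hD h1 h2
    (isOpen_Tset _ _ _ _) (fun E₁ E₂ γ hc e1 e2 e3 e4 => ?_) (by linarith)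
  have hE : (1 + ρ) ^ 3 * L₀ < 8 * L₀ + 1 := by nlinarith
  refine iso_mem hd hc (e1.trans_lt hE) (e2.trans_lt hE) (lt_of_lt_of_le ?_ e3) (e4.trans_lt ?_)
  · nlinarith [mul_pos hm0 hp0]
  · nlinarith

/-- A round: three applications of `step_glue` (`isOpen_Pre`, `Next.trans`) turn
`Inv Ω F (Pre s (Pre s (Pre s T)))` into `Inv Ω F' T`.  First round: `sigma_ell`, `tree` with
`m₀ = 2 K + κ/2 + 2 K²/κ`, `ρ₀ = √(1 - κ/(2 m₀))`, `L₀` from `LL.grad_bdd`.  Later rounds go from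
`T i = Tset (L (2 - q)) (α (1 + q)) (β (2 - q)) (d i)`, `q = 2^(-i)`, to `T (i+1)` by `sigma_iso`
and `tree` with `m = γ + 2 d i`, `ρ = q/32`, `d i = α ρ² / 4` or smaller.  Then `iso_lim`. -/
theorem iso {Ω : Set E} (hΩ : IsOpen Ω) (hb : Bornology.IsBounded Ω) {κ K : ℝ} (hκ : 0 < κ)
    {F : Fld} (hF : F.Reg)
    (h : ∀ᵐ x : E, x ∈ Ω → F.Loc x ∧ Sym (F.st x) ∧ Rk (F.st x) ∧ Ell κ K (F.st x)) :
    ∃ (G : Fld) (γ : E → ℝ) (s α β : ℝ), 0 < α ∧ Next Ω s F G ∧ Measurable γ ∧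
      (∀ x, α ≤ γ x ∧ γ x ≤ β) ∧
      ∀ᵐ x : E, x ∈ Ω → G.J₁ x = γ x • ∇ G.u₁ x ∧ G.J₂ x = γ x • ∇ G.u₂ x := by
  obtain ⟨R, hR⟩ := hb.exists_norm_le
  obtain ⟨K₁, hK₁, b₁⟩ := LL.grad_bdd hF.1 R
  obtain ⟨K₂, hK₂, b₂⟩ := LL.grad_bdd hF.2.1 R
  obtain ⟨L, α, β, s₀, hL, hα, hαβ, hs₀, h0⟩ :=
    iso_first (K := max K κ) (L₀ := K₁ + K₂) hκ (le_max_right _ _) (by positivity)
  have hβ : 0 < β := hα.trans_le hαβ
  let q : ℕ → ℝ := fun i => (1 / 2) ^ i
  have hq : ∀ i, 0 < q i := fun i => by positivity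
  have hq1 : ∀ i, q i ≤ 1 := fun i => pow_le_one₀ (by norm_num) (by norm_num)
  have hqs : ∀ i, q (i + 1) = q i / 2 := fun i => by simp only [q, pow_succ]; ring
  let T : ℕ → Set St := fun i =>
    Tset (L * (2 - q i)) (α * (1 + q i)) (β * (2 - q i)) (α * (q i / 32) ^ 2 / 4)
  let s : ℕ → ℝ := fun i => q i * ((1 + 3 * β) * L + 1)
  have hs : ∀ i, 0 < s i := fun i => mul_pos (hq i) (by positivity)
  obtain ⟨G₀, n₀, i₀⟩ : ∃ G₀ : Fld, Next Ω (12 * s₀) F G₀ ∧ Inv Ω G₀ (T 0) := by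
    refine iso_round hΩ hb hs₀ (isOpen_Tset _ _ _ _) hF ?_
    filter_upwards [h] with x hx hxΩ
    obtain ⟨a1, a2, a3, a4⟩ := hx hxΩ
    refine ⟨a1, a2, ?_⟩
    have := h0 (F.st x) a2 a3 (fun a b => ⟨(a4 a b).1, (a4 a b).2.trans
      (mul_le_mul_of_nonneg_right (le_max_left _ _) (norm_nonneg _))⟩)
      ((b₁ x (hR x hxΩ)).trans (by linarith)) ((b₂ x (hR x hxΩ)).trans (by linarith))
      (α * (q 0 / 32) ^ 2 / 4) (by have := hq 0; positivity)
    convert this using 5 <;> simp only [q] <;> ring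
  have hstep : ∀ (i : ℕ) (G : {G : Fld // G.Reg ∧ Inv Ω G (T i)}),
      ∃ G' : {G : Fld // G.Reg ∧ Inv Ω G (T (i + 1))}, Next Ω (12 * s i) G.1 G'.1 := by
    intro i G
    obtain ⟨G', n', i'⟩ : ∃ G' : Fld, Next Ω (12 * s i) G.1 G' ∧ Inv Ω G' (T (i + 1)) := by
      refine iso_round hΩ hb (hs i) (isOpen_Tset _ _ _ _) G.2.1 ?_
      filter_upwards [G.2.2] with x hx hxΩ
      obtain ⟨a1, a2, a3⟩ := hx hxΩ
      refine ⟨a1, a2, ?_⟩
      rw [hqs]
      exact iso_next hL hα hαβ (hq i) (hq1 i) a2 a3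
    exact ⟨⟨G', n'.reg, i'⟩, n'⟩
  choose f hf using hstep
  let sq : ∀ i : ℕ, {G : Fld // G.Reg ∧ Inv Ω G (T i)} := fun i => Nat.rec ⟨G₀, n₀.reg, i₀⟩ f i
  have hsum : Summable fun i => 12 * s i :=
    (summable_geometric_two.mul_right _).mul_left _
  have hq0 : Tendsto q atTop (𝓝 0) := tendsto_pow_atTop_nhds_zero_of_lt_one (by norm_num) (by norm_num)
  have hd : Tendsto (fun n => α * (q (n + 1) / 32) ^ 2 / 4 * (L * 2)) atTop (𝓝 0) := by
    have := (((((hq0.comp (tendsto_add_atTop_nat 1)).div_const 32).pow 2).const_mul α).div_const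
      4).mul_const (L * 2)
    simpa using this
  obtain ⟨G, γ, nG, hγ, hγb, hG⟩ := iso_lim hΩ.measurableSet hb (fun i => (sq i).1)
    (s := fun i => 12 * s i) (fun i => by have := hs i; positivity) hsum n₀.reg
    (fun i => hf i (sq i)) (α := α) (β := β * 2) (by linarith) hd (fun n => by
      filter_upwards [(sq (n + 1)).2.2] with x hx hxΩ
      obtain ⟨-, -, -, c1, c2, γ, c3, c4, c5⟩ := hx hxΩ
      have p1 := hq (n + 1)
      have p2 : L * (2 - q (n + 1)) ≤ L * 2 := by nlinarith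
      have p3 : 0 ≤ α * (q (n + 1) / 32) ^ 2 / 4 := by positivity
      have d1 := c5 1 0 (Or.inl one_ne_zero)
      have d2 := c5 0 1 (Or.inr one_ne_zero)
      simp only [one_smul, zero_smul, add_zero, zero_add] at d1 d2
      exact ⟨γ, by nlinarith, by nlinarith,
        d1.le.trans (mul_le_mul_of_nonneg_left (c1.le.trans p2) p3),
        d2.le.trans (mul_le_mul_of_nonneg_left (c2.le.trans p2) p3)⟩)
  exact ⟨G, γ, _, α, β * 2, hα, Next.trans hΩ.measurableSet hb hF n₀ nG, hγ, hγb, hG⟩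

end Crest.Agent.R083
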