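import Crest.Agent.R083.Basic

/-! Row 83: mollification of Lipschitz functions. -/

set_option autoImplicit false

namespace Crest.Agent.R083

open MeasureTheory Filter Topology Set
open scoped Gradient RealInnerProductSpace

open scoped Convolution in
theorem moll_fderiv {K : NNReal} {W : E → ℝ} (hW : LipschitzWith K W) (φ : ContDiffBump (0 : E))
    (x : E) : fderiv ℝ (φ.normed volume ⋆[ContinuousLinearMap.lsmul ℝ ℝ, volume] W) x =
      (φ.normed volume ⋆[ContinuousLinearMap.lsmul ℝ ℝ, volume] fderiv ℝ W) x := by
  have hc : ∀ y : E, Continuous fun a => φ.normed volume a • W (y - a) := fun y =>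
    φ.continuous_normed.smul (hW.continuous.comp (continuous_const.sub continuous_id))
  have hd : ∀ᵐ a : E, DifferentiableAt ℝ W (x - a) :=
    (Measure.measurePreserving_sub_left volume x).quasiMeasurePreserving.ae
      hW.ae_differentiableAt
  refine (hasFDerivAt_integral_of_dominated_loc_of_lip' (μ := volume) (s := univ)
    (F := fun y a => φ.normed volume a • W (y - a))
    (F' := fun a => φ.normed volume a • fderiv ℝ W (x - a))
    (bound := fun a => φ.normed volume a * K) univ_mem
    (fun y _ => (hc y).aestronglyMeasurable)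
    ((hc x).integrable_of_hasCompactSupport φ.hasCompactSupport_normed.smul_right) ?_
    (.of_forall fun a y _ => ?_) (φ.integrable_normed.mul_const _) ?_).2.fderiv
  · exact φ.continuous_normed.aestronglyMeasurable.smul
      ((measurable_fderiv ℝ W).comp (measurable_const.sub measurable_id)).aestronglyMeasurable
  · rw [← smul_sub, norm_smul, Real.norm_of_nonneg (φ.nonneg_normed a), mul_assoc]
    refine mul_le_mul_of_nonneg_left ?_ (φ.nonneg_normed a)
    simpa using hW.norm_sub_le (y - a) (x - a)
  · filter_upwards [hd] with a ha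
    have := (ha.hasFDerivAt.comp x ((hasFDerivAt_id x).sub_const a)).const_smul (φ.normed volume a)
    rw [ContinuousLinearMap.comp_id] at this
    exact this

open scoped Convolution in
/-- Mollification.  Take `V n = φ n ⋆ W` for normed bumps `φ n` (`ContDiffBump.normed`) with
`rOut = 1/(n+1)`, `rIn = rOut/2`.  `fderiv (φ ⋆ W) x = ∫ φ a • fderiv W (x - a)` by
`hasFDerivAt_integral_of_dominated_loc_of_lip` and Rademacher
(`LipschitzWith.ae_differentiableAt`); a.e. convergence by
`ContDiffBump.ae_convolution_tendsto_right_of_locallyIntegrable` applied to `fderiv ℝ W`. -/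
theorem moll {K : NNReal} {W : E → ℝ} (hW : LipschitzWith K W) :
    ∃ V : ℕ → E → ℝ, (∀ n, ContDiff ℝ 2 (V n)) ∧ (∀ n x, ‖∇ (V n) x‖ ≤ K) ∧
      (∀ᵐ x : E, Tendsto (fun n => ∇ (V n) x) atTop (𝓝 (∇ W x))) ∧
      ∀ (n : ℕ) (x : E), (∀ y, dist y x ≤ 1 / ((n : ℝ) + 1) → W y = 0) → V n x = 0 := by
  let φ : ℕ → ContDiffBump (0 : E) := fun n =>
    ⟨1 / ((n : ℝ) + 1) / 2, 1 / ((n : ℝ) + 1), by positivity, half_lt_self (by positivity)⟩
  have hb : ∀ y, ‖fderiv ℝ W y‖ ≤ K := fun y => norm_fderiv_le_of_lipschitz ℝ hW
  refine ⟨fun n => (φ n).normed volume ⋆[ContinuousLinearMap.lsmul ℝ ℝ, volume] W, fun n => ?_,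
    fun n x => ?_, ?_, fun n x h => ?_⟩
  · exact (φ n).hasCompactSupport_normed.contDiff_convolution_left _
      ((φ n).contDiff_normed (n := 2)) hW.continuous.locallyIntegrable
  · rw [norm_grad, moll_fderiv hW, convolution_def]
    refine (norm_integral_le_of_norm_le (((φ n).integrable_normed (μ := volume)).mul_const (K : ℝ))
      (.of_forall fun a => ?_)).trans ?_
    · rw [ContinuousLinearMap.lsmul_apply, norm_smul, Real.norm_of_nonneg ((φ n).nonneg_normed a)]
      exact mul_le_mul_of_nonneg_left (hb _) ((φ n).nonneg_normed a)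
    · rw [integral_mul_const, (φ n).integral_normed, one_mul]
  · have hl : LocallyIntegrable (fderiv ℝ W) volume :=
      ((memLp_top_of_bound (measurable_fderiv ℝ W).aestronglyMeasurable K
        (.of_forall hb)).locallyIntegrable le_top)
    filter_upwards [ContDiffBump.ae_convolution_tendsto_right_of_locallyIntegrable (φ := φ)
      (l := atTop) (K := 2) tendsto_one_div_add_atTop_nhds_zero_nat
      (.of_forall fun n => by simp only [φ]; linarith) hl] with x hx
    simp only [gradient, moll_fderiv hW]
    exact ((InnerProductSpace.toDual ℝ E).symm.continuous.tendsto _).comp hx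
  · have h0 : W x = 0 := h x (by rw [dist_self]; positivity)
    refine ((φ n).normed_convolution_eq_right fun y hy => ?_).trans h0
    rw [h y (Metric.ball_subset_closedBall hy), h0]

end Crest.Agent.R083
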