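import Crest.Agent.R083.Moll

/-! Row 83: the Jacobian determinant is a null Lagrangian. -/

set_option autoImplicit false

namespace Crest.Agent.R083

open MeasureTheory Filter Topology Set
open scoped Gradient RealInnerProductSpace

theorem nl_supp {F : E → ℝ} (hc : HasCompactSupport F) :
    ∃ R : ℝ, 0 < R ∧ ∀ x, R ≤ ‖x‖ → x ∉ tsupport F := by
  obtain ⟨R, hR, h⟩ := hc.isCompact.isBounded.subset_ball_lt 0 (0 : E)
  exact ⟨R, hR, fun x hx hm => by
    have := h hm
    simp only [Metric.mem_ball, dist_zero_right] at this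
    linarith⟩

theorem nl_lip {F : E → ℝ} (hF : LocallyLipschitz F) (hc : HasCompactSupport F) :
    ∃ K, LipschitzWith K F := by
  obtain ⟨R, hR, hs⟩ := nl_supp hc
  obtain ⟨K, g, hg, e⟩ := LL.ext hF (R + 1)
  obtain ⟨M, hM, hb⟩ := LL.bdd hF R
  have h0 : ∀ x, R ≤ ‖x‖ → F x = 0 := fun x hx => image_eq_zero_of_notMem_tsupport (hs x hx)
  have key : ∀ x y : E, R + 1 < ‖x‖ → dist (F x) (F y) ≤ M * dist x y := by
    intro x y hx
    rw [h0 x (by linarith)]
    by_cases hy : R ≤ ‖y‖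
    · rw [h0 y hy, dist_self]; positivity
    · push Not at hy
      have h1 : 1 ≤ dist x y := by
        have := norm_sub_norm_le x y
        rw [dist_eq_norm]; linarith
      have h2 := hb y hy.le
      rw [dist_comm, Real.dist_eq, sub_zero]
      nlinarith
  refine ⟨K + ⟨M, hM⟩, LipschitzWith.of_dist_le_mul fun x y => ?_⟩
  have hd : 0 ≤ dist x y := dist_nonneg
  have hK : (0 : ℝ) ≤ K := K.2
  have hc : ((K + ⟨M, hM⟩ : NNReal) : ℝ) = K + M := rfl
  rw [hc]
  by_cases hx : R + 1 < ‖x‖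
  · have := key x y hx
    nlinarith
  by_cases hy : R + 1 < ‖y‖
  · have := key y x hy
    rw [dist_comm (F y), dist_comm y] at this
    nlinarith
  push Not at hx hy
  rw [← e x (by simpa using hx), ← e y (by simpa using hy)]
  have := hg.dist_le_mul x y
  nlinarith

theorem nl_grad_zero {F : E → ℝ} {x : E} (hx : x ∉ tsupport F) : ∇ F x = 0 :=
  grad_of_eventually_const (c := 0) (notMem_tsupport_iff_eventuallyEq.1 hx)

theorem nl_integrable {F : E → ℝ} (hF : LocallyLipschitz F) (hc : HasCompactSupport F)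
    {G : E → E} (hG : Measurable G) (hb : ∀ R : ℝ, ∃ K : ℝ, 0 ≤ K ∧ ∀ x, ‖x‖ ≤ R → ‖G x‖ ≤ K) :
    Integrable fun x => ⟪G x, ∇ F x⟫ := by
  obtain ⟨R, hR, hs⟩ := nl_supp hc
  obtain ⟨K, hK, h1⟩ := hb R
  obtain ⟨K', hK', h2⟩ := LL.grad_bdd hF R
  have hi : IntegrableOn (fun x => ⟪G x, ∇ F x⟫) (Metric.closedBall (0 : E) R) := by
    refine integrableOn_of_bdd Metric.isBounded_closedBall measurableSet_closedBall
      (hG.inner (measurable_grad F)) (K := K * K') (.of_forall fun x hx => ?_)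
    have hx' : ‖x‖ ≤ R := by simpa using hx
    exact (abs_real_inner_le_norm _ _).trans
      (mul_le_mul (h1 x hx') (h2 x hx') (norm_nonneg _) hK)
  refine (integrableOn_iff_integrable_of_support_subset fun x hx => ?_).1 hi
  by_contra h
  have hx' : R ≤ ‖x‖ := by
    simp only [Metric.mem_closedBall, dist_zero_right, not_le] at h
    exact h.le
  exact hx (by simp [nl_grad_zero (hs x hx')])

/-- `∫ ⟪v, ∇ F⟫ = 0` (`LipschitzWith.integral_lineDeriv_mul_eq`, or difference quotients). -/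
theorem int_dir (v : E) {F : E → ℝ} (hF : LocallyLipschitz F) (hc : HasCompactSupport F) :
    ∫ x, ⟪v, ∇ F x⟫ = 0 := by
  obtain ⟨K, hK⟩ := nl_lip hF hc
  have h := LipschitzWith.integral_lineDeriv_mul_eq (μ := (volume : Measure E))
    (LipschitzWith.const (1 : ℝ)) hK hc (-v)
  have h0 : ∀ x : E, lineDeriv ℝ (fun _ : E => (1 : ℝ)) x (-v) = 0 := fun x => by
    simp [lineDeriv]
  simp only [h0, zero_mul, integral_zero, neg_neg, mul_one] at h
  rw [h]
  refine integral_congr_ae ?_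
  filter_upwards [LL.ae_diff hF] with x hx
  rw [hx.lineDeriv_eq_fderiv, real_inner_comm, inner_gradient_left]

theorem nl_part {g : E → ℝ} (hg : ContDiff ℝ 2 g) (v : E) :
    ContDiff ℝ 1 fun x => ⟪∇ g x, v⟫ := by
  simp only [inner_gradient_left]
  exact (hg.fderiv_right (m := 1) (by norm_num)).clm_apply contDiff_const

theorem nl_symm {g : E → ℝ} (hg : ContDiff ℝ 2 g) (v w x : E) :
    ⟪∇ (fun y => ⟪∇ g y, v⟫) x, w⟫ = ⟪∇ (fun y => ⟪∇ g y, w⟫) x, v⟫ := by
  simp only [inner_gradient_left]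
  have hd : DifferentiableAt ℝ (fderiv ℝ g) x :=
    ((hg.fderiv_right (m := 1) (by norm_num)).differentiable one_ne_zero) x
  rw [fderiv_clm_apply hd (differentiableAt_const _), fderiv_clm_apply hd (differentiableAt_const _)]
  have := (hg.contDiffAt (x := x)).isSymmSndFDerivAt (by simp)
  simpa using this.eq w v

theorem nl_smooth {p q f : E → ℝ} (hp : LocallyLipschitz p) (hq : ContDiff ℝ 2 q)
    (hf : ContDiff ℝ 2 f) (hc : HasCompactSupport p) :
    ∫ x, ⟪cr (∇ p x) (∇ q x), ∇ f x⟫ = 0 := by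
  -- the field `V`
  let V : E → E → E → ℝ := fun u w y => ⟪∇ q y, u⟫ * ⟪∇ f y, w⟫ - ⟪∇ q y, w⟫ * ⟪∇ f y, u⟫
  have hV : ∀ u w, ContDiff ℝ 1 (V u w) := fun u w =>
    ((nl_part hq u).mul (nl_part hf w)).sub ((nl_part hq w).mul (nl_part hf u))
  have hL : ∀ u w, LocallyLipschitz fun y => p y * V u w y := fun u w =>
    LL.mul hp (hV u w).locallyLipschitz
  have hC : ∀ u w, HasCompactSupport fun y => p y * V u w y := fun u w => hc.mul_right
  have hI : ∀ v u w, Integrable fun x => ⟪v, ∇ (fun y => p y * V u w y) x⟫ := fun v u w =>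
    nl_integrable (hL u w) (hC u w) measurable_const fun _ => ⟨‖v‖, norm_nonneg _, fun _ _ => le_rfl⟩
  have h1 := int_dir ex (hL ey ez) (hC ey ez)
  have h2 := int_dir ey (hL ez ex) (hC ez ex)
  have h3 := int_dir ez (hL ex ey) (hC ex ey)
  have h : ∫ x, (⟪ex, ∇ (fun y => p y * V ey ez y) x⟫ + ⟪ey, ∇ (fun y => p y * V ez ex y) x⟫ +
      ⟪ez, ∇ (fun y => p y * V ex ey y) x⟫) = 0 := by
    have i12 : Integrable fun x => ⟪ex, ∇ (fun y => p y * V ey ez y) x⟫ +
        ⟪ey, ∇ (fun y => p y * V ez ex y) x⟫ := (hI _ _ _).add (hI _ _ _)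
    rw [integral_add i12 (hI _ _ _), integral_add (hI _ _ _) (hI _ _ _), h1, h2, h3]
    simp
  rw [← h]
  refine integral_congr_ae ?_
  filter_upwards [LL.ae_diff hp] with x hx
  have dq : ∀ u, DifferentiableAt ℝ (fun y => ⟪∇ q y, u⟫) x := fun u =>
    (nl_part hq u).differentiable one_ne_zero x
  have df : ∀ u, DifferentiableAt ℝ (fun y => ⟪∇ f y, u⟫) x := fun u =>
    (nl_part hf u).differentiable one_ne_zero x
  have gV : ∀ u w, ∇ (V u w) x =
      (⟪∇ q x, u⟫ • ∇ (fun y => ⟪∇ f y, w⟫) x + ⟪∇ f x, w⟫ • ∇ (fun y => ⟪∇ q y, u⟫) x) -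
      (⟪∇ q x, w⟫ • ∇ (fun y => ⟪∇ f y, u⟫) x + ⟪∇ f x, u⟫ • ∇ (fun y => ⟪∇ q y, w⟫) x) := by
    intro u w
    rw [← grad_mul (dq u) (df w), ← grad_mul (dq w) (df u)]
    exact grad_sub ((dq u).mul (df w)) ((dq w).mul (df u))
  have gP : ∀ v u w, ⟪v, ∇ (fun y => p y * V u w y) x⟫ =
      p x * ((⟪∇ q x, u⟫ * ⟪∇ (fun y => ⟪∇ f y, w⟫) x, v⟫ +
        ⟪∇ f x, w⟫ * ⟪∇ (fun y => ⟪∇ q y, u⟫) x, v⟫) -
      (⟪∇ q x, w⟫ * ⟪∇ (fun y => ⟪∇ f y, u⟫) x, v⟫ +
        ⟪∇ f x, u⟫ * ⟪∇ (fun y => ⟪∇ q y, w⟫) x, v⟫)) + V u w x * ⟪∇ p x, v⟫ := by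
    intro v u w
    rw [grad_mul hx ((hV u w).differentiable one_ne_zero x), gV, real_inner_comm]
    simp only [inner_add_left, inner_sub_left, real_inner_smul_left]
  rw [gP, gP, gP, nl_symm hq ey ex, nl_symm hq ez ex, nl_symm hq ez ey, nl_symm hf ey ex,
    nl_symm hf ez ex, nl_symm hf ez ey]
  simp only [V]
  generalize ⟪∇ (fun y => ⟪∇ q y, ex⟫) x, ey⟫ = a1
  generalize ⟪∇ (fun y => ⟪∇ q y, ex⟫) x, ez⟫ = a2
  generalize ⟪∇ (fun y => ⟪∇ q y, ey⟫) x, ez⟫ = a3
  generalize ⟪∇ (fun y => ⟪∇ f y, ex⟫) x, ey⟫ = b1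
  generalize ⟪∇ (fun y => ⟪∇ f y, ex⟫) x, ez⟫ = b2
  generalize ⟪∇ (fun y => ⟪∇ f y, ey⟫) x, ez⟫ = b3
  generalize ∇ p x = P
  generalize ∇ q x = Q
  generalize ∇ f x = F
  sc3

/-- Replace `p, q, f` by Lipschitz functions (`LL.ext`; `p` keeps its support, e.g. multiply the
extension by a cutoff or note that a compactly supported locally Lipschitz function is Lipschitz),
mollify `q` and `f` (`moll`, dominated convergence on the support of `p`).  For `C²` functions
`q, f` the field `V = cr (∇ q) (∇ f)` is `C¹` and divergence free (symmetry of second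
derivatives), and `⟪cr (∇ p) (∇ q), ∇ f⟫ = ⟪∇ p, V⟫ = ∑ i, ∂_i (p V_i)`; use `int_dir`. -/
theorem nl {p q f : E → ℝ} (hp : LocallyLipschitz p) (hq : LocallyLipschitz q)
    (hf : LocallyLipschitz f) (hc : HasCompactSupport p) :
    ∫ x, ⟪cr (∇ p x) (∇ q x), ∇ f x⟫ = 0 := by
  obtain ⟨R, hR, hs⟩ := nl_supp hc
  obtain ⟨Kq, q', hq', eq'⟩ := LL.ext hq R
  obtain ⟨Kf, f', hf', ef'⟩ := LL.ext hf R
  obtain ⟨Kp, hKp, bp⟩ := LL.grad_bdd hp R
  have e1 : ∀ x, ⟪cr (∇ p x) (∇ q x), ∇ f x⟫ = ⟪cr (∇ p x) (∇ q' x), ∇ f' x⟫ := by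
    intro x
    by_cases hx : R ≤ ‖x‖
    · simp [nl_grad_zero (hs x hx)]
    · have hm : Metric.ball (0 : E) R ∈ 𝓝 x :=
        Metric.isOpen_ball.mem_nhds (by simpa using hx)
      have h1 : q =ᶠ[𝓝 x] q' := by
        filter_upwards [hm] with y hy using (eq' y (Metric.ball_subset_closedBall hy)).symm
      have h2 : f =ᶠ[𝓝 x] f' := by
        filter_upwards [hm] with y hy using (ef' y (Metric.ball_subset_closedBall hy)).symm
      rw [h1.gradient_eq, h2.gradient_eq]
  simp only [e1]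
  obtain ⟨Q, Q1, Q2, Q3, -⟩ := moll hq'
  obtain ⟨F, F1, F2, F3, -⟩ := moll hf'
  have lim : Tendsto (fun n => ∫ x, ⟪cr (∇ p x) (∇ (Q n) x), ∇ (F n) x⟫) atTop
      (𝓝 (∫ x, ⟪cr (∇ p x) (∇ q' x), ∇ f' x⟫)) := by
    refine tendsto_integral_of_dominated_convergence
      ((Metric.closedBall (0 : E) R).indicator fun _ => Kp * Kq * Kf) (fun n => ?_) ?_
      (fun n => .of_forall fun x => ?_) ?_
    · exact (((continuous_cr continuous_fst continuous_snd).measurable.comp
        ((measurable_grad _).prodMk (measurable_grad _))).inner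
        (measurable_grad _)).aestronglyMeasurable
    · rw [integrable_indicator_iff measurableSet_closedBall]
      exact integrableOn_const Metric.isBounded_closedBall.measure_lt_top.ne
    · by_cases hx : ‖x‖ ≤ R
      · rw [indicator_of_mem (by simpa using hx)]
        refine (norm_inner_le_norm _ _).trans (mul_le_mul ((norm_cr_le _ _).trans
          (mul_le_mul (bp x hx) (Q2 n x) (norm_nonneg _) hKp)) (F2 n x) (norm_nonneg _) ?_)
        positivity
      · rw [indicator_of_notMem (by simpa using hx), nl_grad_zero (hs x (not_le.1 hx).le)]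
        simp
    · filter_upwards [Q3, F3] with x h1 h2
      exact (((continuous_cr continuous_const continuous_id).tendsto _).comp h1).inner h2
  simp only [nl_smooth hp (Q1 _) (F1 _) hc] at lim
  exact tendsto_nhds_unique lim tendsto_const_nhds

theorem nl_cl_int {L : CL} (hL : CLLL L) {F : E → ℝ} (hF : LocallyLipschitz F)
    (hc : HasCompactSupport F) : Integrable fun x => ⟪cl L x, ∇ F x⟫ :=
  nl_integrable hF hc (measurable_cl L) fun R => hL.bdd R

/-- From `nl` by `inner_cr_cyc` and induction on the list. -/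
theorem nl_cl {L : CL} (hL : CLLL L) {F : E → ℝ} (hF : LocallyLipschitz F)
    (hc : HasCompactSupport F) : ∫ x, ⟪cl L x, ∇ F x⟫ = 0 := by
  induction L with
  | nil => simp
  | cons q L ih =>
    have hL' : CLLL L := fun q' hq' => hL q' (by simp [hq'])
    have hq : CLLL [q] := fun q' hq' => hL q' (by simp at hq'; simp [hq'])
    have i1 := nl_cl_int hq hF hc
    simp only [cl_cons, cl_nil, add_zero] at i1
    simp only [cl_cons, inner_add_left]
    rw [integral_add i1 (nl_cl_int hL' hF hc), ih hL', add_zero]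
    have := nl hF (hL q (by simp)).1 (hL q (by simp)).2 hc
    rw [← this]
    refine integral_congr_ae (.of_forall fun x => ?_)
    exact (inner_cr_cyc _ _ _).symm

end Crest.Agent.R083
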