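import Crest.Agent.R083.Basic
import Crest.Prelude.Def_Conductivity

/-! Row 83: scaling the ball of radius `300` to the ball of radius `3`. -/

set_option autoImplicit false

namespace Crest.Agent.R083

open MeasureTheory Filter Topology Set
open scoped Gradient RealInnerProductSpace
open Crest.AnalysisR.PDE.Calderon

theorem grad_scale (t : ℝ) (u : E → ℝ) (x : E) :
    ∇ (fun y => u (t • y)) x = t • ∇ u (t • x) := by
  simp only [gradient]
  rw [show (fun y => u (t • y)) = (u <| t • ·) from rfl, fderiv_comp_smul, map_smul]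

theorem energy_scale (γ u : E → ℝ) :
    ballEnergy (fun x => γ ((100 : ℝ) • x)) (fun x => u ((100 : ℝ) • x)) = En 300 γ u / 100 := by
  have h := Measure.integral_comp_smul (volume : Measure E)
    ((Metric.ball (0 : E) 300).indicator fun x => γ x * ‖∇ u x‖ ^ 2) 100
  rw [integral_indicator measurableSet_ball] at h
  have h2 : ∀ x : E, (Metric.ball (0 : E) 300).indicator (fun x => γ x * ‖∇ u x‖ ^ 2)
      ((100 : ℝ) • x) = (Metric.ball (0 : E) 3).indicator (fun x => (1 / 10000 : ℝ) *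
        (γ ((100 : ℝ) • x) * ‖∇ (fun x => u ((100 : ℝ) • x)) x‖ ^ 2)) x := fun x => by
    have e : (100 : ℝ) • x ∈ Metric.ball (0 : E) 300 ↔ x ∈ Metric.ball (0 : E) 3 := by
      simp only [mem_ball_zero_iff, norm_smul, Real.norm_ofNat]
      constructor <;> intro <;> linarith
    by_cases hx : x ∈ Metric.ball (0 : E) 3
    · rw [indicator_of_mem hx, indicator_of_mem (e.2 hx), grad_scale, norm_smul, Real.norm_ofNat]
      ring
    · rw [indicator_of_notMem hx, indicator_of_notMem fun h => hx (e.1 h)]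
  simp only [h2] at h
  rw [integral_indicator measurableSet_ball, integral_const_mul] at h
  simp only [finrank_euclideanSpace, Fintype.card_fin, smul_eq_mul] at h
  rw [abs_of_pos (by positivity)] at h
  unfold ballEnergy En
  linarith

theorem scale {γ₀ γ₁ : E → ℝ} (h : SBE 300 γ₀ γ₁) :
    SameBoundaryEnergies (fun x => γ₀ ((100 : ℝ) • x)) fun x => γ₁ ((100 : ℝ) • x) := by
  intro φ hφ
  have cd : ∀ (t : ℝ) {u : E → ℝ}, ContDiff ℝ 1 u → ContDiff ℝ 1 fun x => u (t • x) :=
    fun t u hu => hu.comp (contDiff_id.const_smul t)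
  obtain ⟨h1, h2⟩ := h (fun x => φ ((1 / 100 : ℝ) • x)) (cd _ hφ)
  have key : ∀ γ γ' : E → ℝ, (∀ u, Comp 300 (fun x => φ ((1 / 100 : ℝ) • x)) u → ∀ ε : ℝ, 0 < ε →
      ∃ w, Comp 300 (fun x => φ ((1 / 100 : ℝ) • x)) w ∧ En 300 γ' w < En 300 γ u + ε) →
      ∀ u, IsCompetitor φ u → ∀ ε : ℝ, 0 < ε → ∃ w, IsCompetitor φ w ∧
        ballEnergy (fun x => γ' ((100 : ℝ) • x)) w < ballEnergy (fun x => γ ((100 : ℝ) • x)) u + ε := by
    intro γ γ' H u hu ε hε
    obtain ⟨w, hw, hlt⟩ := H (fun x => u ((1 / 100 : ℝ) • x)) ⟨cd _ hu.1, fun x hx => hu.2 _ (by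
      rw [norm_smul, hx]; norm_num)⟩ ε hε
    refine ⟨fun x => w ((100 : ℝ) • x), ⟨cd _ hw.1, fun x hx => ?_⟩, ?_⟩
    · refine (hw.2 ((100 : ℝ) • x) (by rw [norm_smul, hx]; norm_num)).trans ?_
      simp only [smul_smul]
      norm_num
    · have e := energy_scale γ fun x => u ((1 / 100 : ℝ) • x)
      simp only [smul_smul, show (1 / 100 : ℝ) * 100 = 1 by norm_num, one_smul] at e
      rw [energy_scale, e]
      linarith
  exact ⟨key _ _ h1, key _ _ h2⟩

theorem scale_pos {A : Set E} (h : 0 < volume A) : 0 < volume ((fun x : E => (100 : ℝ) • x) ⁻¹' A) := by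
  rw [Measure.addHaar_preimage_smul _ (by norm_num)]
  exact ENNReal.mul_pos (by simp) h.ne'

end Crest.Agent.R083
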