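import Crest.Agent.R083.Basic

/-! Row 83: laminations, algebra. -/

set_option autoImplicit false

namespace Crest.Agent.R083

open MeasureTheory Filter Topology Set
open scoped Gradient RealInnerProductSpace

theorem continuous_step (ξ : E) (p : ℝ × ℝ × ℝ) :
    Continuous fun Y : St × E => step Y.1 ξ p Y.2 := by
  unfold step
  fun_prop

theorem isOpen_Pre (s : ℝ) {T : Set St} (hT : IsOpen T) : IsOpen (Pre s T) := by
  rw [isOpen_iff_mem_nhds]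
  rintro X ⟨ξ, p, g, hg, h1, h2, h3, h4⟩
  have hc : ∀ g : E, Continuous fun Y : St => step Y ξ p g := fun g =>
    (continuous_step ξ p).comp (continuous_id.prodMk continuous_const)
  have e1 := (hT.preimage (hc g)).mem_nhds h1
  have e2 := (hT.preimage (hc (-g))).mem_nhds h2
  have e3 := (isOpen_lt ((hc g).sub continuous_id).norm (continuous_const (y := s))).mem_nhds h3
  have e4 := (isOpen_lt ((hc (-g)).sub continuous_id).norm (continuous_const (y := s))).mem_nhds h4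
  filter_upwards [e1, e2, e3, e4] with Y y1 y2 y3 y4
  exact ⟨ξ, p, g, hg, y1, y2, y3, y4⟩

/-- Use compactness of the circle `a² + b² = 1`
(`IsCompact.eventually_forall_of_forall_eventually`) and homogeneity. -/
theorem isOpen_Tset (L α β d : ℝ) : IsOpen (Tset L α β d) := by
  rw [isOpen_iff_mem_nhds]
  rintro X ⟨h0, h1, h2, γ, g1, g2, h3⟩
  have e0 : ∀ᶠ Y : St in 𝓝 X, Rk Y := by
    have hc : Continuous fun Y : St => cr Y.1.1 Y.1.2 := by fun_prop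
    exact hc.continuousAt.eventually_ne h0
  have e1 : ∀ᶠ Y : St in 𝓝 X, ‖Y.1.1‖ < L :=
    (by fun_prop : Continuous fun Y : St => ‖Y.1.1‖).continuousAt.eventually_lt continuousAt_const h1
  have e2 : ∀ᶠ Y : St in 𝓝 X, ‖Y.1.2‖ < L :=
    (by fun_prop : Continuous fun Y : St => ‖Y.1.2‖).continuousAt.eventually_lt continuousAt_const h2
  have e3 : ∀ᶠ Y : St in 𝓝 X, ∀ q ∈ Metric.sphere (0 : ℝ × ℝ) 1,
      ‖q.1 • (Y.2.1 - γ • Y.1.1) + q.2 • (Y.2.2 - γ • Y.1.2)‖ < d * ‖q.1 • Y.1.1 + q.2 • Y.1.2‖ := by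
    refine (isCompact_sphere (0 : ℝ × ℝ) 1).eventually_forall_of_forall_eventually
      (P := fun (Y : St) (q : ℝ × ℝ) =>
        ‖q.1 • (Y.2.1 - γ • Y.1.1) + q.2 • (Y.2.2 - γ • Y.1.2)‖ < d * ‖q.1 • Y.1.1 + q.2 • Y.1.2‖) ?_
    intro q hq
    have hq' : q.1 ≠ 0 ∨ q.2 ≠ 0 := by
      by_contra hn
      push Not at hn
      have : q = 0 := Prod.ext hn.1 hn.2
      simp [this] at hq
    have c1 : Continuous fun z : St × (ℝ × ℝ) =>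
      ‖z.2.1 • (z.1.2.1 - γ • z.1.1.1) + z.2.2 • (z.1.2.2 - γ • z.1.1.2)‖ := by fun_prop
    have c2 : Continuous fun z : St × (ℝ × ℝ) => d * ‖z.2.1 • z.1.1.1 + z.2.2 • z.1.1.2‖ := by fun_prop
    exact c1.continuousAt.eventually_lt c2.continuousAt (h3 q.1 q.2 hq')
  filter_upwards [e0, e1, e2, e3] with Y y0 y1 y2 y3
  refine ⟨y0, y1, y2, γ, g1, g2, fun a b hab => ?_⟩
  have hne : ((a, b) : ℝ × ℝ) ≠ 0 := by
    intro h
    rcases hab with h' | h'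
    · exact h' (congrArg Prod.fst h)
    · exact h' (congrArg Prod.snd h)
  have hr : 0 < ‖((a, b) : ℝ × ℝ)‖ := norm_pos_iff.2 hne
  set r := ‖((a, b) : ℝ × ℝ)‖ with hrdef
  have hq : r⁻¹ • ((a, b) : ℝ × ℝ) ∈ Metric.sphere (0 : ℝ × ℝ) 1 := by
    rw [mem_sphere_zero_iff_norm, norm_smul, norm_inv, Real.norm_of_nonneg hr.le, ← hrdef,
      inv_mul_cancel₀ hr.ne']
  have h4 := y3 _ hq
  have hh : ∀ u v : E, ‖(r⁻¹ • ((a, b) : ℝ × ℝ)).1 • u + (r⁻¹ • ((a, b) : ℝ × ℝ)).2 • v‖ =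
      r⁻¹ * ‖a • u + b • v‖ := by
    intro u v
    have : (r⁻¹ • ((a, b) : ℝ × ℝ)).1 • u + (r⁻¹ • ((a, b) : ℝ × ℝ)).2 • v = r⁻¹ • (a • u + b • v) := by
      simp only [Prod.smul_mk, smul_eq_mul, mul_smul, smul_add]
    rw [this, norm_smul, norm_inv, Real.norm_of_nonneg hr.le]
  rw [hh, hh, mul_left_comm] at h4
  exact lt_of_mul_lt_mul_left h4 (inv_nonneg.2 hr.le)

theorem Sym.step {X : St} (h : Sym X) (ξ : E) (p : ℝ × ℝ × ℝ) (g : E) : Sym (step X ξ p g) := by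
  obtain ⟨⟨E₁, E₂⟩, J₁, J₂⟩ := X
  unfold Sym at h ⊢
  have key : ⟪(R083.step ((E₁, E₂), J₁, J₂) ξ p g).2.1, (R083.step ((E₁, E₂), J₁, J₂) ξ p g).1.2⟫ -
      ⟪(R083.step ((E₁, E₂), J₁, J₂) ξ p g).2.2, (R083.step ((E₁, E₂), J₁, J₂) ξ p g).1.1⟫ =
      (1 + ⟪ξ, g⟫) * (⟪J₁, E₂⟫ - ⟪J₂, E₁⟫) := by
    simp only [R083.step]
    sc3
  simp only at h
  rw [h, sub_self, mul_zero, sub_eq_zero] at key
  exact key

/-- the diagonal matrix -/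
noncomputable def stepalg_sig (b : OrthonormalBasis (Fin 3) ℝ E) (μ : Fin 3 → ℝ) (v : E) : E :=
  ∑ i, (μ i * ⟪b i, v⟫) • b i

theorem stepalg_inner_sig (b : OrthonormalBasis (Fin 3) ℝ E) (μ : Fin 3 → ℝ) (v : E) (j : Fin 3) :
    ⟪b j, stepalg_sig b μ v⟫ = μ j * ⟪b j, v⟫ :=
  b.orthonormal.inner_right_fintype (fun i => μ i * ⟪b i, v⟫) j

theorem stepalg_ext (b : OrthonormalBasis (Fin 3) ℝ E) {u v : E} (h : ∀ j, ⟪b j, u⟫ = ⟪b j, v⟫) :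
    u = v := by
  rw [← b.sum_repr' u, ← b.sum_repr' v]
  exact Finset.sum_congr rfl fun j _ => by rw [h j]

theorem stepalg_sig_symm (b : OrthonormalBasis (Fin 3) ℝ E) (μ : Fin 3 → ℝ) (u v : E) :
    ⟪stepalg_sig b μ u, v⟫ = ⟪stepalg_sig b μ v, u⟫ := by
  simp only [stepalg_sig, sum_inner, real_inner_smul_left]
  exact Finset.sum_congr rfl fun j _ => by ring

theorem stepalg_sig_cont (b : OrthonormalBasis (Fin 3) ℝ E) (μ : Fin 3 → ℝ) :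
    Continuous (stepalg_sig b μ) := by
  unfold stepalg_sig
  fun_prop

theorem stepalg_sig_norm (b : OrthonormalBasis (Fin 3) ℝ E) {μ : Fin 3 → ℝ} {m : ℝ} (hm : 0 ≤ m)
    (hμ : ∀ i, 0 ≤ μ i ∧ μ i ≤ m) (v : E) : ‖stepalg_sig b μ v‖ ≤ m * ‖v‖ := by
  refine (abs_le_of_sq_le_sq' ?_ (by positivity)).2
  rw [mul_pow, ← b.sum_sq_inner_right (stepalg_sig b μ v), ← b.sum_sq_inner_right v, Finset.mul_sum]
  refine Finset.sum_le_sum fun j _ => ?_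
  rw [stepalg_inner_sig, mul_pow]
  exact mul_le_mul_of_nonneg_right (pow_le_pow_left₀ (hμ j).1 (hμ j).2 2) (sq_nonneg _)

theorem stepalg_bb (b : OrthonormalBasis (Fin 3) ℝ E) (j k : Fin 3) :
    ⟪b j, b k⟫ = if j = k then (1:ℝ) else 0 := orthonormal_iff_ite.1 b.orthonormal j k

/-- unnormalised projection -/
noncomputable def stepalg_P (n v : E) : E := ⟪n, n⟫ • v - ⟪n, v⟫ • n

/-- the realised end points -/
noncomputable def stepalg_Y (σ : E → E) (X : St) (t : ℝ) (n : E) : St :=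
  ((X.1.1 + (t * ⟪n, X.1.1⟫) • n, X.1.2 + (t * ⟪n, X.1.2⟫) • n),
    ((1 + t * ⟪n, n⟫) • X.2.1 - (t * ⟪n, X.2.1⟫) • n -
        (2 * t) • stepalg_P n (σ (stepalg_P n X.1.1)),
      (1 + t * ⟪n, n⟫) • X.2.2 - (t * ⟪n, X.2.2⟫) • n -
        (2 * t) • stepalg_P n (σ (stepalg_P n X.1.2))))

theorem stepalg_cramer {n E₁ E₂ v : E} (hD : ⟪n, cr E₁ E₂⟫ ≠ 0) (hv : ⟪v, n⟫ = 0) :
    v = (-⟪v, E₁⟫ / ⟪n, cr E₁ E₂⟫) • cr n E₂ - (-⟪v, E₂⟫ / ⟪n, cr E₁ E₂⟫) • cr n E₁ := by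
  have h := det_smul n E₁ E₂ v
  have e : ⟪cr n E₁, E₂⟫ = ⟪n, cr E₁ E₂⟫ := by sc3
  rw [e, hv, zero_smul, zero_add, cr_comm E₂ n] at h
  have h2 : v = (⟪n, cr E₁ E₂⟫)⁻¹ • (⟪n, cr E₁ E₂⟫ • v) := by
    rw [smul_smul, inv_mul_cancel₀ hD, one_smul]
  rw [h] at h2
  refine h2.trans ?_
  simp only [div_eq_inv_mul]
  module

theorem stepalg_step_eq {σ : E → E} (hsym : ∀ u v, ⟪σ u, v⟫ = ⟪σ v, u⟫) (X : St) (r : ℝ) {n : E}
    (hD : ⟪n, cr X.1.1 X.1.2⟫ ≠ 0) :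
    ∃ p : ℝ × ℝ × ℝ, ∀ e : ℝ, step X (r • n) p (e • n) = stepalg_Y σ X (e * r) n := by
  obtain ⟨⟨E₁, E₂⟩, J₁, J₂⟩ := X
  simp only at hD
  have hP0 : ∀ w, ⟪stepalg_P n w, n⟫ = 0 := fun w => by unfold stepalg_P; sc3
  have hPs : ∀ w v, ⟪stepalg_P n w, v⟫ = ⟪w, stepalg_P n v⟫ := fun w v => by unfold stepalg_P; sc3
  have c1 := stepalg_cramer hD (hP0 (σ (stepalg_P n E₁)))
  have c2 := stepalg_cramer hD (hP0 (σ (stepalg_P n E₂)))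
  have hs : ⟪stepalg_P n (σ (stepalg_P n E₂)), E₁⟫ = ⟪stepalg_P n (σ (stepalg_P n E₁)), E₂⟫ := by
    rw [hPs, hPs, hsym]
  rw [hs] at c2
  obtain ⟨q₁, q₂, q₃, d1, d2⟩ : ∃ q₁ q₂ q₃ : ℝ,
      stepalg_P n (σ (stepalg_P n E₁)) = q₁ • cr n E₂ - q₂ • cr n E₁ ∧
      stepalg_P n (σ (stepalg_P n E₂)) = q₂ • cr n E₂ - q₃ • cr n E₁ := ⟨_, _, _, c1, c2⟩
  refine ⟨(-2 * r * q₁, -2 * r * q₂, -2 * r * q₃), fun e => ?_⟩
  simp only [step, stepalg_Y]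
  rw [d1, d2]
  refine Prod.ext (Prod.ext ?_ ?_) (Prod.ext ?_ ?_) <;> simp only <;> vec3

theorem stepalg_real {σ : E → E} (hc : Continuous σ) (hsym : ∀ u v, ⟪σ u, v⟫ = ⟪σ v, u⟫) {X : St}
    (hX : Rk X) (r : ℝ) (n : E) {U : Set St} (hU : IsOpen U) {s : ℝ}
    (h1 : stepalg_Y σ X r n ∈ U) (h2 : stepalg_Y σ X (-r) n ∈ U)
    (h3 : ‖stepalg_Y σ X r n - X‖ < s) (h4 : ‖stepalg_Y σ X (-r) n - X‖ < s) : X ∈ Pre s U := by
  set N := cr X.1.1 X.1.2 with hN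
  have hcY : ∀ t : ℝ, Continuous fun ε : ℝ => stepalg_Y σ X t (n + ε • N) := by
    intro t
    unfold stepalg_Y stepalg_P
    fun_prop
  have ev : ∀ t : ℝ, stepalg_Y σ X t n ∈ U → ‖stepalg_Y σ X t n - X‖ < s →
      ∀ᶠ ε in 𝓝[≠] (0:ℝ), stepalg_Y σ X t (n + ε • N) ∈ U ∧ ‖stepalg_Y σ X t (n + ε • N) - X‖ < s := by
    intro t a1 a2
    refine nhdsWithin_le_nhds (Eventually.and ?_ ?_)
    · exact (hU.preimage (hcY t)).mem_nhds (by simpa using a1)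
    · exact ((hcY t).sub continuous_const).norm.continuousAt.eventually_lt continuousAt_const
        (by simpa using a2)
  have evD : ∀ᶠ ε in 𝓝[≠] (0:ℝ), ⟪n + ε • N, N⟫ ≠ 0 := by
    by_cases h0 : ⟪n, N⟫ = 0
    · filter_upwards [self_mem_nhdsWithin] with ε hε
      rw [inner_add_left, h0, zero_add, real_inner_smul_left]
      exact mul_ne_zero hε (inner_self_ne_zero.2 hX)
    · refine nhdsWithin_le_nhds ?_
      have : Continuous fun ε : ℝ => ⟪n + ε • N, N⟫ := by fun_prop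
      exact this.continuousAt.eventually_ne (by simpa using h0)
  obtain ⟨ε, ⟨a1, a2⟩, ⟨a3, a4⟩, a5⟩ := ((ev r h1 h3).and ((ev (-r) h2 h4).and evD)).exists
  obtain ⟨p, hp⟩ := stepalg_step_eq hsym X r a5
  have p1 := hp 1
  have p2 := hp (-1)
  rw [one_smul, one_mul] at p1
  rw [neg_one_smul, neg_one_mul] at p2
  refine ⟨r • (n + ε • N), p, n + ε • N, ?_, p1 ▸ a1, p2 ▸ a3, p1 ▸ a2, p2 ▸ a4⟩
  intro h0
  exact a5 (by rw [h0, inner_zero_left])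

theorem stepalg_J (b : OrthonormalBasis (Fin 3) ℝ E) (μ : Fin 3 → ℝ) (k : Fin 3) (t : ℝ) (v : E)
    (j : Fin 3) :
    ⟪b j, (1 + t * ⟪b k, b k⟫) • stepalg_sig b μ v - (t * ⟪b k, stepalg_sig b μ v⟫) • b k -
      (2 * t) • stepalg_P (b k) (stepalg_sig b μ (stepalg_P (b k) v))⟫ =
      if j = k then μ j * ⟪b j, v⟫ else (1 - t) * (μ j * ⟪b j, v⟫) := by
  simp only [stepalg_P, inner_sub_right, real_inner_smul_right, stepalg_inner_sig, stepalg_bb]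
  by_cases h : j = k
  · subst h; simp; ring
  · simp [h]; ring

theorem stepalg_E (b : OrthonormalBasis (Fin 3) ℝ E) (k : Fin 3) (t : ℝ) (v : E) (j : Fin 3) :
    ⟪b j, v + (t * ⟪b k, v⟫) • b k⟫ = if j = k then (1 + t) * ⟪b j, v⟫ else ⟪b j, v⟫ := by
  simp only [inner_add_right, real_inner_smul_right, stepalg_bb]
  by_cases h : j = k
  · subst h; simp; ring
  · simp [h]

theorem stepalg_norm_le (b : OrthonormalBasis (Fin 3) ℝ E) {u v : E} {c : ℝ} (hc : 0 ≤ c)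
    (h : ∀ j, |⟪b j, u⟫| ≤ c * |⟪b j, v⟫|) : ‖u‖ ≤ c * ‖v‖ := by
  refine (abs_le_of_sq_le_sq' ?_ (by positivity)).2
  rw [mul_pow, ← b.sum_sq_inner_right u, ← b.sum_sq_inner_right v, Finset.mul_sum]
  refine Finset.sum_le_sum fun j _ => ?_
  rw [← sq_abs ⟪b j, u⟫, ← sq_abs ⟪b j, v⟫, ← mul_pow]
  exact pow_le_pow_left₀ (abs_nonneg _) (h j) 2

theorem stepalg_rk {E₁ E₂ n : E} (hn : ⟪n, n⟫ = 1) {t : ℝ} (ht : -1 < t) (h : cr E₁ E₂ ≠ 0) :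
    cr (E₁ + (t * ⟪n, E₁⟫) • n) (E₂ + (t * ⟪n, E₂⟫) • n) ≠ 0 := by
  intro h0
  have e : ⟪cr (E₁ + (t * ⟪n, E₁⟫) • n) (E₂ + (t * ⟪n, E₂⟫) • n), cr E₁ E₂⟫ =
      (1 + t * ⟪n, n⟫) * ⟪cr E₁ E₂, cr E₁ E₂⟫ - t * ⟪n, cr E₁ E₂⟫ ^ 2 := by sc3
  rw [h0, inner_zero_left, hn] at e
  have h1 : 0 < ⟪cr E₁ E₂, cr E₁ E₂⟫ := real_inner_self_pos.2 h
  have h2 := real_inner_mul_inner_self_le n (cr E₁ E₂)
  rw [hn] at h2
  have h3 := sq_nonneg ⟪n, cr E₁ E₂⟫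
  rcases le_total 0 t with h4 | h4 <;> nlinarith

/-- the invariant of the tree -/
structure stepalg_Q (b : OrthonormalBasis (Fin 3) ℝ E) (ρ : ℝ) (μ : Fin 3 → ℝ) (m L : ℝ) (X : St) :
    Prop where
  pos : 0 < m
  rk : Rk X
  diag : Diag b μ X
  n1 : ‖X.1.1‖ ≤ L
  n2 : ‖X.1.2‖ ≤ L
  mu : ∀ i, m * (1 - ρ ^ 2) ≤ μ i ∧ μ i ≤ m

theorem stepalg_ideal (b : OrthonormalBasis (Fin 3) ℝ E) {ρ : ℝ} (hρ : 0 ≤ ρ) (hρ1 : ρ < 1)
    {μ : Fin 3 → ℝ} {m L : ℝ} {X : St} (hQ : stepalg_Q b ρ μ m L X) (k : Fin 3) {t : ℝ} (ht : |t| ≤ ρ)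
    (hk : μ k = m * (1 - t ^ 2)) :
    stepalg_Q b ρ (fun i => if i = k then (1 - t) * m else (1 - t) * μ i) ((1 - t) * m) ((1 + ρ) * L)
      (stepalg_Y (stepalg_sig b μ) X t (b k)) ∧
      ‖stepalg_Y (stepalg_sig b μ) X t (b k) - X‖ ≤ ρ * (1 + m) * L := by
  obtain ⟨⟨E₁, E₂⟩, J₁, J₂⟩ := X
  obtain ⟨hm, hrk, ⟨d1, d2⟩, n1, n2, hμ⟩ := hQ
  simp only at d1 d2 n1 n2
  change J₁ = stepalg_sig b μ E₁ at d1
  change J₂ = stepalg_sig b μ E₂ at d2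
  subst d1 d2
  have ht' := abs_le.1 ht
  have h1t : 0 < 1 - t := by linarith
  have hρ2 : 0 ≤ 1 - ρ ^ 2 := by nlinarith
  have hμ0 : ∀ i, 0 ≤ μ i := fun i => le_trans (by positivity) (hμ i).1
  have hL : 0 ≤ L := (norm_nonneg _).trans n1
  have hkk : ⟪b k, b k⟫ = 1 := by simp
  have hdiag : ∀ v : E, (1 + t * ⟪b k, b k⟫) • stepalg_sig b μ v - (t * ⟪b k, stepalg_sig b μ v⟫) • b k -
      (2 * t) • stepalg_P (b k) (stepalg_sig b μ (stepalg_P (b k) v)) =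
      stepalg_sig b (fun i => if i = k then (1 - t) * m else (1 - t) * μ i)
        (v + (t * ⟪b k, v⟫) • b k) := by
    intro v
    refine stepalg_ext b fun j => ?_
    rw [stepalg_J, stepalg_inner_sig, stepalg_E]
    by_cases h : j = k
    · subst h; simp only [if_true, hk]; ring
    · simp only [if_neg h]; ring
  have hE : ∀ v : E, ‖v‖ ≤ L → ‖v + (t * ⟪b k, v⟫) • b k‖ ≤ (1 + ρ) * L := by
    intro v hv
    refine le_trans (stepalg_norm_le b (v := v) (c := 1 + ρ) (by linarith) fun j => ?_)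
      (mul_le_mul_of_nonneg_left hv (by linarith))
    rw [stepalg_E]
    split_ifs
    · rw [abs_mul]
      exact mul_le_mul_of_nonneg_right (abs_le.2 ⟨by linarith, by linarith⟩) (abs_nonneg _)
    · nlinarith [abs_nonneg ⟪b j, v⟫]
  have hE' : ∀ v : E, ‖v‖ ≤ L → ‖v + (t * ⟪b k, v⟫) • b k - v‖ ≤ ρ * (1 + m) * L := by
    intro v hv
    refine le_trans (stepalg_norm_le b (v := v) (c := ρ * (1 + m)) (by positivity) fun j => ?_)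
      (mul_le_mul_of_nonneg_left hv (by positivity))
    rw [inner_sub_right, stepalg_E]
    split_ifs
    · rw [show (1 + t) * ⟪b j, v⟫ - ⟪b j, v⟫ = t * ⟪b j, v⟫ by ring, abs_mul]
      exact mul_le_mul_of_nonneg_right (by nlinarith) (abs_nonneg _)
    · rw [sub_self, abs_zero]; positivity
  have hJ' : ∀ v : E, ‖v‖ ≤ L → ‖(1 + t * ⟪b k, b k⟫) • stepalg_sig b μ v -
      (t * ⟪b k, stepalg_sig b μ v⟫) • b k -
      (2 * t) • stepalg_P (b k) (stepalg_sig b μ (stepalg_P (b k) v)) - stepalg_sig b μ v‖ ≤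
      ρ * (1 + m) * L := by
    intro v hv
    refine le_trans (stepalg_norm_le b (v := v) (c := ρ * (1 + m)) (by positivity) fun j => ?_)
      (mul_le_mul_of_nonneg_left hv (by positivity))
    rw [inner_sub_right, stepalg_J, stepalg_inner_sig]
    split_ifs
    · rw [sub_self, abs_zero]; positivity
    · rw [show (1 - t) * (μ j * ⟪b j, v⟫) - μ j * ⟪b j, v⟫ = -(t * μ j * ⟪b j, v⟫) by ring, abs_neg,
        abs_mul, abs_mul, abs_of_nonneg (hμ0 j)]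
      refine mul_le_mul_of_nonneg_right ?_ (abs_nonneg _)
      exact mul_le_mul ht (by linarith [(hμ j).2]) (hμ0 j) hρ
  refine ⟨⟨by positivity, stepalg_rk hkk (by linarith) hrk, ⟨hdiag E₁, hdiag E₂⟩, hE _ n1, hE _ n2,
    fun i => ?_⟩, ?_⟩
  · split_ifs
    · refine ⟨?_, le_rfl⟩
      have : 0 ≤ (1 - t) * m * ρ ^ 2 := by positivity
      nlinarith
    · rw [mul_assoc]
      exact ⟨mul_le_mul_of_nonneg_left (hμ i).1 h1t.le, mul_le_mul_of_nonneg_left (hμ i).2 h1t.le⟩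
  · simp only [stepalg_Y, Prod.mk_sub_mk, Prod.norm_mk]
    exact max_le (max_le (hE' _ n1) (hE' _ n2)) (max_le (hJ' _ n1) (hJ' _ n2))

theorem stepalg_one (b : OrthonormalBasis (Fin 3) ℝ E) {ρ : ℝ} (hρ : 0 ≤ ρ) (hρ1 : ρ < 1)
    {μ : Fin 3 → ℝ} {m L s : ℝ} {X : St} (hQ : stepalg_Q b ρ μ m L X) (k : Fin 3)
    (hs : ρ * (1 + m) * L < s) {U : Set St} (hU : IsOpen U)
    (hend : ∀ (μ' : Fin 3 → ℝ) (m' : ℝ) (X' : St), stepalg_Q b ρ μ' m' ((1 + ρ) * L) X' →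
      m * (1 - ρ) ≤ m' → m' ≤ m * (1 + ρ) → μ' k = m' → (∀ i, μ i = m → μ' i = m') → X' ∈ U) :
    X ∈ Pre s U := by
  have hm := hQ.pos
  have h0 : 0 ≤ 1 - μ k / m := by
    rw [sub_nonneg, div_le_one hm]; exact (hQ.mu k).2
  have h1 : 1 - μ k / m ≤ ρ ^ 2 := by
    have : 1 - ρ ^ 2 ≤ μ k / m := by rw [le_div_iff₀ hm, mul_comm]; exact (hQ.mu k).1
    linarith
  set r := Real.sqrt (1 - μ k / m) with hr
  have hr0 : 0 ≤ r := Real.sqrt_nonneg _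
  have hr1 : r ≤ ρ := Real.sqrt_le_iff.2 ⟨hρ, h1⟩
  have hr2 : μ k = m * (1 - r ^ 2) := by
    rw [hr, Real.sq_sqrt h0]; field_simp; ring
  have key : ∀ t : ℝ, |t| ≤ ρ → μ k = m * (1 - t ^ 2) →
      stepalg_Y (stepalg_sig b μ) X t (b k) ∈ U ∧ ‖stepalg_Y (stepalg_sig b μ) X t (b k) - X‖ < s := by
    intro t ht hk
    obtain ⟨a1, a2⟩ := stepalg_ideal b hρ hρ1 hQ k ht hk
    have ht' := abs_le.1 ht
    refine ⟨hend _ _ _ a1 (by nlinarith) (by nlinarith) (by simp) fun i hi => ?_, a2.trans_lt hs⟩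
    split_ifs
    · rfl
    · rw [hi]
  obtain ⟨a1, a2⟩ := key r (by rwa [abs_of_nonneg hr0]) hr2
  obtain ⟨a3, a4⟩ := key (-r) (by rwa [abs_neg, abs_of_nonneg hr0]) (by rwa [neg_sq])
  exact stepalg_real (stepalg_sig_cont b μ) (stepalg_sig_symm b μ) hQ.rk r (b k) hU a1 a3 a2 a4


/-- Three laminations, one for each eigenvector.  One step in the direction `n = b k`, with
`μ k = m (1 - ρ'²)`, `0 ≤ ρ' ≤ ρ`: the ideal end points (`e = ± 1`) are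
`E' = E + e ρ' ⟪n, E⟫ n`, `J' = (1 - e ρ') (J - ⟪n, J⟫ n) + ⟪n, J⟫ n`; they are again `Diag b μ'`
with `μ' i = (1 - e ρ') μ i` (`i ≠ k`), `μ' k = (1 - e ρ') m`, and `Rk`.
To realise them use `n' = n + ε N`, `N = cr E₁ E₂`, with `⟪n', N⟫ ≠ 0`, `ε` small, `g = n'`,
`ξ = ρ' n'` and `p_ab = -⟪S E_a, E_b⟫ / ⟪n', N⟫`, where `S v = -2 ρ' P (σ (P v))`,
`P v = ‖n'‖² v - ⟪n', v⟫ n'`, `σ v = ∑ i, μ i ⟪b i, v⟫ b i`.  Then (by `det_smul`, `S` symmetric,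
`⟪S v, n'⟫ = 0`) the `p`-terms of `step X ξ p (e • n')` equal `e • S E_a`, so the end points are
polynomial in `ε`, and tend to the ideal ones, which lie in an open set (`isOpen_Pre`). -/
theorem tree (b : OrthonormalBasis (Fin 3) ℝ E) (μ : Fin 3 → ℝ) {m ρ L s : ℝ} (hm : 0 < m)
    (hρ : 0 ≤ ρ) (hρ1 : ρ < 1) (hμ : ∀ i, m * (1 - ρ ^ 2) ≤ μ i ∧ μ i ≤ m) {X : St} (hX : Rk X)
    (hd : Diag b μ X) (h1 : ‖X.1.1‖ ≤ L) (h2 : ‖X.1.2‖ ≤ L) {T : Set St} (hT : IsOpen T)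
    (hend : ∀ (E₁ E₂ : E) (γ : ℝ), cr E₁ E₂ ≠ 0 → ‖E₁‖ ≤ (1 + ρ) ^ 3 * L → ‖E₂‖ ≤ (1 + ρ) ^ 3 * L →
      m * (1 - ρ) ^ 3 ≤ γ → γ ≤ m * (1 + ρ) ^ 3 → ((E₁, E₂), (γ • E₁, γ • E₂)) ∈ T)
    (hs : 16 * ρ * (1 + m) * L < s) : X ∈ Pre s (Pre s (Pre s T)) := by
  have hL : 0 ≤ L := (norm_nonneg _).trans h1
  have hb : ∀ m' L' : ℝ, 0 < m' → 0 ≤ L' → m' ≤ 4 * m → L' ≤ 4 * L → ρ * (1 + m') * L' < s := by
    intro m' L' _ _ a1 a2
    refine lt_of_le_of_lt ?_ hs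
    calc ρ * (1 + m') * L' ≤ ρ * (4 * (1 + m)) * (4 * L) := by gcongr; linarith
      _ = 16 * ρ * (1 + m) * L := by ring
  have hρL : ρ * L ≤ L := by nlinarith
  have hρm : ρ * m ≤ m := by nlinarith
  refine stepalg_one b hρ hρ1 ⟨hm, hX, hd, h1, h2, hμ⟩ 0 (hb _ _ hm hL (by linarith) (by linarith))
    (isOpen_Pre _ (isOpen_Pre _ hT)) fun μ₁ m₁ X₁ Q₁ l₁ u₁ k₁ _ => ?_
  have hm₁ := Q₁.pos
  have hρm₁ : ρ * m₁ ≤ m₁ := by nlinarith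
  refine stepalg_one b hρ hρ1 Q₁ 1 (hb _ _ hm₁ (by positivity) (by linarith) (by linarith))
    (isOpen_Pre _ hT) fun μ₂ m₂ X₂ Q₂ l₂ u₂ k₂ j₂ => ?_
  refine stepalg_one b hρ hρ1 Q₂ 2 (hb _ _ Q₂.pos (by positivity) (by linarith) (by nlinarith))
    hT fun μ₃ m₃ X₃ Q₃ l₃ u₃ k₃ j₃ => ?_
  have hall : ∀ i, μ₃ i = m₃ := by
    intro i
    fin_cases i
    · exact j₃ 0 (j₂ 0 k₁)
    · exact j₃ 1 k₂
    · exact k₃
  have hsig : ∀ v : E, ∑ i, (μ₃ i * ⟪b i, v⟫) • b i = m₃ • v := by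
    intro v
    refine stepalg_ext b fun j => ?_
    change ⟪b j, stepalg_sig b μ₃ v⟫ = _
    rw [stepalg_inner_sig, real_inner_smul_right, hall]
  obtain ⟨⟨E₁, E₂⟩, J₁, J₂⟩ := X₃
  obtain ⟨-, hrk, ⟨d1, d2⟩, n1, n2, -⟩ := Q₃
  simp only at d1 d2 n1 n2
  rw [hsig] at d1 d2
  subst d1 d2
  have e : (1 + ρ) * ((1 + ρ) * ((1 + ρ) * L)) = (1 + ρ) ^ 3 * L := by ring
  have hρ' : 0 ≤ 1 - ρ := by linarith
  refine hend E₁ E₂ m₃ hrk (e ▸ n1) (e ▸ n2) ?_ ?_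
  · calc m * (1 - ρ) ^ 3 = m * (1 - ρ) * (1 - ρ) * (1 - ρ) := by ring
      _ ≤ m₁ * (1 - ρ) * (1 - ρ) := by gcongr
      _ ≤ m₂ * (1 - ρ) := by gcongr
      _ ≤ m₃ := l₃
  · calc m₃ ≤ m₂ * (1 + ρ) := u₃
      _ ≤ m₁ * (1 + ρ) * (1 + ρ) := by gcongr
      _ ≤ m * (1 + ρ) * (1 + ρ) * (1 + ρ) := by gcongr
      _ = m * (1 + ρ) ^ 3 := by ring

end Crest.Agent.R083
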