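import Crest.Agent.R083.NL

/-! Row 83: composing with `id + ψ ξ`. -/

set_option autoImplicit false

namespace Crest.Agent.R083

open MeasureTheory Filter Topology Set
open scoped Gradient RealInnerProductSpace

noncomputable def shift (ψ : E → ℝ) (ξ : E) (y : E) : E := y + ψ y • ξ

def CLcomp (L : CL) (G : E → E) : CL := L.map fun q => (fun y => q.1 (G y), fun y => q.2 (G y))

variable {ψ u f : E → ℝ} {y g v ξ : E} {L : CL}

theorem ll_shift (hψ : LocallyLipschitz ψ) (ξ : E) : LocallyLipschitz (shift ψ ξ) := by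
  exact LocallyLipschitz.id.add
    ((ContinuousLinearMap.toSpanSingleton ℝ ξ).lipschitz.locallyLipschitz.comp hψ)

theorem CLLL.shift (hL : CLLL L) (hψ : LocallyLipschitz ψ) (ξ : E) :
    CLLL (CLcomp L (shift ψ ξ)) := by
  intro q hq
  obtain ⟨q', hq', rfl⟩ := List.mem_map.1 hq
  exact ⟨(hL q' hq').1.comp (ll_shift hψ ξ), (hL q' hq').2.comp (ll_shift hψ ξ)⟩

theorem Jet.shift (hψ : Jet ψ y g) (hu : Jet u (shift ψ ξ y) v) :
    Jet (fun z => u (shift ψ ξ z)) y (v + ⟪v, ξ⟫ • g) := by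
  have hs : HasFDerivAt (R083.shift ψ ξ)
      (ContinuousLinearMap.id ℝ E + (fderiv ℝ ψ y).smulRight ξ) y :=
    (hasFDerivAt_id y).add (hψ.diff.hasFDerivAt.smul_const ξ)
  have hc : ContDiffAt ℝ 1 (R083.shift ψ ξ) y := contDiffAt_id.add (hψ.1.smul contDiffAt_const)
  refine ⟨hu.1.comp y hc, grad_ext fun w => ?_⟩
  have h1 := (hu.diff.hasFDerivAt.comp y hs).fderiv
  rw [show (fun z => u (R083.shift ψ ξ z)) = u ∘ R083.shift ψ ξ from rfl, h1]
  have e1 : ∀ w, fderiv ℝ u (R083.shift ψ ξ y) w = ⟪v, w⟫ := fun w => by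
    rw [← hu.2, inner_gradient_left]
  have e2 : fderiv ℝ ψ y w = ⟪g, w⟫ := by rw [← hψ.2, inner_gradient_left]
  simp only [ContinuousLinearMap.comp_apply, ContinuousLinearMap.add_apply,
    ContinuousLinearMap.id_apply, ContinuousLinearMap.smulRight_apply, e1, e2]
  sc3

theorem stepchain_cons (q : (E → ℝ) × (E → ℝ)) (L : CL) (G : E → E) :
    CLcomp (q :: L) G = (fun y => q.1 (G y), fun y => q.2 (G y)) :: CLcomp L G := rfl

/-- Induction on `L`, `Jet.shift`, `vec3`. -/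
theorem cl_shift (hψ : Jet ψ y g) (hL : CLC1 L (shift ψ ξ y)) :
    CLC1 (CLcomp L (shift ψ ξ)) y ∧ cl (CLcomp L (shift ψ ξ)) y =
      (1 + ⟪ξ, g⟫) • cl L (shift ψ ξ y) - ⟪g, cl L (shift ψ ξ y)⟫ • ξ := by
  induction L with
  | nil => exact ⟨fun q hq => by simp [CLcomp] at hq, by simp [CLcomp]⟩
  | cons q L ih =>
    obtain ⟨h1, h2⟩ := ih fun q' hq' => hL q' (by simp [hq'])
    have j1 := Jet.shift hψ (⟨(hL q (by simp)).1, rfl⟩ : Jet q.1 (shift ψ ξ y) _)
    have j2 := Jet.shift hψ (⟨(hL q (by simp)).2, rfl⟩ : Jet q.2 (shift ψ ξ y) _)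
    refine ⟨fun q' hq' => ?_, ?_⟩
    · rw [stepchain_cons] at hq'
      rcases List.mem_cons.1 hq' with rfl | hq'
      exacts [⟨j1.1, j2.1⟩, h1 q' hq']
    · rw [stepchain_cons, cl_cons, cl_cons, h2, j1.2, j2.2]
      generalize ∇ q.1 (shift ψ ξ y) = a
      generalize ∇ q.2 (shift ψ ξ y) = b
      generalize cl L (shift ψ ξ y) = c
      vec3

theorem stepchain_ext1 {p : E → ℝ} (hp : ContDiffAt ℝ 1 p y) :
    ∃ p' : E → ℝ, LocallyLipschitz p' ∧ ContDiffAt ℝ 1 p' y ∧ ∇ p' =ᶠ[𝓝 y] ∇ p := by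
  obtain ⟨K, t, ht, hK⟩ := hp.exists_lipschitzOnWith
  obtain ⟨p', hp', e⟩ := hK.extend_real
  have e' : p' =ᶠ[𝓝 y] p := by
    filter_upwards [ht] with z hz
    exact (e hz).symm
  refine ⟨p', hp'.locallyLipschitz, hp.congr_of_eventuallyEq e', ?_⟩
  filter_upwards [e'.eventuallyEq_nhds] with z hz
  exact hz.gradient_eq

/-- `ContDiffAt.exists_lipschitzOnWith`, `LipschitzOnWith.extend_real`,
`Filter.EventuallyEq.eventuallyEq_nhds`. -/
theorem CLC1.ext (hL : CLC1 L y) : ∃ L' : CL, CLLL L' ∧ CLC1 L' y ∧ cl L' =ᶠ[𝓝 y] cl L := by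
  induction L with
  | nil => exact ⟨[], fun q hq => by simp at hq, hL, EventuallyEq.rfl⟩
  | cons q L ih =>
    obtain ⟨L', h1, h2, h3⟩ := ih fun q' hq' => hL q' (by simp [hq'])
    obtain ⟨a, a1, a2, a3⟩ := stepchain_ext1 (hL q (by simp)).1
    obtain ⟨b, b1, b2, b3⟩ := stepchain_ext1 (hL q (by simp)).2
    refine ⟨(a, b) :: L', fun q' hq' => ?_, fun q' hq' => ?_, ?_⟩
    · rcases List.mem_cons.1 hq' with rfl | hq'
      exacts [⟨a1, b1⟩, h1 q' hq']
    · rcases List.mem_cons.1 hq' with rfl | hq'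
      exacts [⟨a2, b2⟩, h2 q' hq']
    · filter_upwards [h3, a3, b3] with z e1 e2 e3
      rw [cl_cons, cl_cons, e1, e2, e3]

/-- `nl`; off the closed set `R` the gradient of `p` vanishes (`grad_of_eventually_const`). -/
theorem wk_psi {R : Set E} (hR : IsCompact R) {p q : E → ℝ} (hp : LocallyLipschitz p)
    (hq : LocallyLipschitz q) (h0 : ∀ z, z ∉ R → p z = 0) (hf : LocallyLipschitz f) :
    ∫ z in R, ⟪cr (∇ p z) (∇ q z), ∇ f z⟫ = 0 := by
  rw [setIntegral_eq_integral_of_forall_compl_eq_zero]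
  · exact nl hp hq hf (HasCompactSupport.intro hR h0)
  · intro z hz
    have : ∇ p z = 0 := grad_of_eventually_const (c := 0) (by
      filter_upwards [hR.isClosed.isOpen_compl.mem_nhds hz] with w hw
      exact h0 w hw)
    rw [this, cr_zero_left, inner_zero_left]

theorem stepchain_int {R : Set E} (hR : IsCompact R) (hL : CLLL L) (hf : LocallyLipschitz f) :
    IntegrableOn (fun z => ⟪cl L z, ∇ f z⟫) R := by
  obtain ⟨r, hr⟩ := hR.isBounded.subset_closedBall (0 : E)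
  obtain ⟨K, hK, h1⟩ := hL.bdd r
  obtain ⟨K', hK', h2⟩ := LL.grad_bdd hf r
  refine integrableOn_of_bdd hR.isBounded hR.measurableSet
    ((measurable_cl L).inner (measurable_grad f)) (K := K * K') (.of_forall fun p hp => ?_)
  have hp' : ‖p‖ ≤ r := by simpa using hr hp
  exact (abs_real_inner_le_norm _ _).trans
    (mul_le_mul (h1 p hp') (h2 p hp') (norm_nonneg _) hK)

theorem stepchain_int2 {R : Set E} (hR : IsCompact R) {p q : E → ℝ} (hp : LocallyLipschitz p)
    (hq : LocallyLipschitz q) (hf : LocallyLipschitz f) :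
    IntegrableOn (fun z => ⟪cr (∇ p z) (∇ q z), ∇ f z⟫) R := by
  have := stepchain_int (L := [(p, q)]) hR (fun q' hq' => by
    rw [List.mem_singleton.1 hq']; exact ⟨hp, hq⟩) hf
  simpa only [cl_cons, cl_nil, add_zero] using this

/-- A.e. `cr ∇p' ∇q' - cr ∇p ∇q = cr ∇(p' - p) ∇q' - cr ∇(q' - q) ∇p` (`LL.ae_diff`); `wk_psi`,
`integrableOn_of_bdd`, induction on `L`. -/
theorem wk_shift {R : Set E} (hR : IsCompact R) (hL : CLLL L) (hψ : LocallyLipschitz ψ)
    (h0 : ∀ z, z ∉ R → ψ z = 0) (ξ : E) (hf : LocallyLipschitz f) :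
    ∫ z in R, ⟪cl (CLcomp L (shift ψ ξ)) z - cl L z, ∇ f z⟫ = 0 := by
  induction L with
  | nil => simp [CLcomp]
  | cons q L ih =>
    have hL' : CLLL L := fun q' hq' => hL q' (by simp [hq'])
    have ih' := ih hL'
    obtain ⟨hp, hq⟩ := hL q (by simp)
    have hp' : LocallyLipschitz fun z => q.1 (shift ψ ξ z) := hp.comp (ll_shift hψ ξ)
    have hq' : LocallyLipschitz fun z => q.2 (shift ψ ξ z) := hq.comp (ll_shift hψ ξ)
    have hs : ∀ z, z ∉ R → shift ψ ξ z = z := fun z hz => by simp [shift, h0 z hz]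
    have w1 := wk_psi hR (LL.sub hp' hp) hq' (fun z hz => by rw [hs z hz, sub_self]) hf
    have w2 := wk_psi hR (LL.sub hq' hq) hp (fun z hz => by rw [hs z hz, sub_self]) hf
    have i1 := stepchain_int2 hR (LL.sub hp' hp) hq' hf
    have i2 := stepchain_int2 hR (LL.sub hq' hq) hp hf
    have i3 : IntegrableOn (fun z => ⟪cl (CLcomp L (shift ψ ξ)) z - cl L z, ∇ f z⟫) R := by
      simp only [inner_sub_left]
      exact (stepchain_int hR (hL'.shift hψ ξ) hf).sub (stepchain_int hR hL' hf)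
    have e := integral_add (i1.sub i2) i3
    have e' := integral_sub i1 i2
    simp only [Pi.sub_apply] at e
    rw [e', w1, w2, ih'] at e
    simp only [sub_self, add_zero] at e
    rw [← e]
    refine integral_congr_ae (ae_restrict_of_ae ?_)
    filter_upwards [LL.ae_diff hp, LL.ae_diff hq, LL.ae_diff hp', LL.ae_diff hq'] with z d1 d2 d3 d4
    rw [stepchain_cons, cl_cons, cl_cons, grad_sub d3 d1, grad_sub d4 d2]
    generalize ∇ q.1 z = a
    generalize ∇ q.2 z = b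
    generalize ∇ (fun z => q.1 (shift ψ ξ z)) z = a'
    generalize ∇ (fun z => q.2 (shift ψ ξ z)) z = b'
    generalize cl L z = c
    generalize cl (CLcomp L (shift ψ ξ)) z = c'
    generalize ∇ f z = d
    sc3

end Crest.Agent.R083
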