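import Crest.Agent.R083.StepLoc

/-! Row 83: one lamination everywhere. -/

set_option autoImplicit false

namespace Crest.Agent.R083

open MeasureTheory Filter Topology Set
open scoped Gradient RealInnerProductSpace

theorem stepGlue_loc_ev {F : Fld} {x : E} (h : F.Loc x) : ∀ᶠ y in 𝓝 x, F.Loc y := by
  obtain ⟨h1, h2, L₁, L₂, h3, h4, h5, h6⟩ := h
  filter_upwards [h1.eventually (by simp), h2.eventually (by simp), h3.eventually, h4.eventually,
    h5.eventuallyEq_nhds, h6.eventuallyEq_nhds] with y k1 k2 k3 k4 k5 k6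
  exact ⟨k1, k2, L₁, L₂, k3, k4, k5, k6⟩

theorem stepGlue_sym {Ω : Set E} (hΩ : IsOpen Ω) {F : Fld} (h : ∀ᵐ y : E, y ∈ Ω → Sym (F.st y))
    {x : E} (hx : x ∈ Ω) (hl : F.Loc x) : ∀ᶠ y in 𝓝 x, Sym (F.st y) := by
  obtain ⟨U, hU, hUo, hxU⟩ := eventually_nhds_iff.1 ((stepGlue_loc_ev hl).and (hΩ.mem_nhds hx))
  have hc : ∀ y ∈ U, ContinuousAt (∇ F.u₁) y ∧ ContinuousAt (∇ F.u₂) y ∧ ContinuousAt F.J₁ y ∧
      ContinuousAt F.J₂ y := fun y hy => by
    obtain ⟨h1, h2, L₁, L₂, h3, h4, h5, h6⟩ := (hU y hy).1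
    exact ⟨continuousAt_grad h1, continuousAt_grad h2, h3.continuousAt.congr h5.symm,
      h4.continuousAt.congr h6.symm⟩
  have e : EqOn (fun y => ⟪F.J₁ y, ∇ F.u₂ y⟫) (fun y => ⟪F.J₂ y, ∇ F.u₁ y⟫) U := by
    refine Measure.eqOn_open_of_ae_eq (μ := volume) ?_ hUo
      (fun y hy => ((hc y hy).2.2.1.inner (hc y hy).2.1).continuousWithinAt)
      (fun y hy => ((hc y hy).2.2.2.inner (hc y hy).1).continuousWithinAt)
    refine (ae_restrict_iff' hUo.measurableSet).2 ?_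
    filter_upwards [h] with y hy hyU
    exact hy (hU y hyU).2
  filter_upwards [hUo.mem_nhds hxU] with y hy
  exact e hy

theorem stepGlue_lip {S : Set (Set E)} {t : ℝ} (ht : 0 ≤ t) {d : E → ℝ} {D : Set E → E → ℝ}
    (h1 : ∀ R ∈ S, ∀ x y, |D R x - D R y| ≤ t * dist x y) (h2 : ∀ R ∈ S, ∀ x, x ∉ R → D R x = 0)
    (h3 : ∀ R ∈ S, ∀ x ∈ R, d x = D R x) (h4 : ∀ x, (¬ ∃ R ∈ S, x ∈ R) → d x = 0) (x y : E) :
    |d x - d y| ≤ 2 * t * dist x y := by
  have hp : ∀ x y : E, 0 ≤ t * dist x y := fun x y => mul_nonneg ht dist_nonneg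
  have key : ∀ x y : E, (¬ ∃ R ∈ S, x ∈ R ∧ y ∈ R) → |d x| ≤ t * dist x y := fun x y hxy => by
    by_cases hx : ∃ R ∈ S, x ∈ R
    · obtain ⟨R, hR, hx⟩ := hx
      have := h1 R hR x y
      rwa [h2 R hR y (fun hy => hxy ⟨R, hR, hx, hy⟩), sub_zero, ← h3 R hR x hx] at this
    · rw [h4 x hx, abs_zero]
      exact hp x y
  by_cases hxy : ∃ R ∈ S, x ∈ R ∧ y ∈ R
  · obtain ⟨R, hR, hx, hy⟩ := hxy
    rw [h3 R hR x hx, h3 R hR y hy]
    linarith [h1 R hR x y, hp x y]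
  · have k1 := key x y hxy
    have k2 := key y x fun ⟨R, hR, hy, hx⟩ => hxy ⟨R, hR, hx, hy⟩
    rw [dist_comm] at k2
    linarith [abs_sub (d x) (d y)]

theorem stepGlue_ll {u u' : E → ℝ} (hu : LocallyLipschitz u) {t : ℝ}
    (h : ∀ x y, |(u' x - u x) - (u' y - u y)| ≤ t * dist x y) : LocallyLipschitz u' := by
  have h1 : LocallyLipschitz fun x => u' x - u x :=
    (LipschitzWith.of_dist_le' (f := fun x => u' x - u x) (K := t) fun x y => h x y).locallyLipschitz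
  simpa using LL.add h1 hu

theorem stepGlue_meas {S : Set (Set E)} (hS : S.Countable) (hm : ∀ R ∈ S, MeasurableSet R)
    {J J' : E → E} {K : Set E → E → E} (hJ : Measurable J) (hK : ∀ R ∈ S, Measurable (K R))
    (h3 : ∀ R ∈ S, ∀ x ∈ R, J' x = K R x) (h4 : ∀ x, (¬ ∃ R ∈ S, x ∈ R) → J' x = J x) :
    Measurable J' := by
  intro t ht
  have e : J' ⁻¹' t = (⋃ R ∈ S, R ∩ K R ⁻¹' t) ∪ ((⋃ R ∈ S, R)ᶜ ∩ J ⁻¹' t) := by
    ext x
    simp only [mem_preimage, mem_union, mem_iUnion, mem_inter_iff, mem_compl_iff, exists_prop]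
    constructor
    · intro hx
      by_cases h : ∃ R ∈ S, x ∈ R
      · obtain ⟨R, hR, h⟩ := h
        exact Or.inl ⟨R, hR, h, h3 R hR x h ▸ hx⟩
      · exact Or.inr ⟨h, h4 x h ▸ hx⟩
    · rintro (⟨R, hR, h, hx⟩ | ⟨h, hx⟩)
      · rwa [h3 R hR x h]
      · rwa [h4 x h]
  rw [e]
  exact (MeasurableSet.biUnion hS fun R hR => (hm R hR).inter (hK R hR ht)).union
    ((MeasurableSet.biUnion hS hm).compl.inter (hJ ht))

theorem stepGlue_wk {Ω : Set E} (hΩ : MeasurableSet Ω) (hb : Bornology.IsBounded Ω)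
    {S : Set (Set E)} (hS : S.Countable) (hd : S.PairwiseDisjoint id)
    (hm : ∀ R ∈ S, MeasurableSet R) (hsub : ∀ R ∈ S, R ⊆ Ω)
    (hc : ∀ᵐ x : E, x ∈ Ω → ∃ R ∈ S, x ∈ R) {J : E → E} (hJ : Measurable J) {t : ℝ}
    (ht : ∀ᵐ x : E, x ∈ Ω → ‖J x‖ ≤ t) {f : E → ℝ} (hf : LocallyLipschitz f)
    (h0 : ∀ R ∈ S, ∫ x in R, ⟪J x, ∇ f x⟫ = 0) : ∫ x in Ω, ⟪J x, ∇ f x⟫ = 0 := by
  obtain ⟨r, hr⟩ := hb.exists_norm_le
  obtain ⟨K, -, hK⟩ := LL.grad_bdd hf r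
  have hi : IntegrableOn (fun x => ⟪J x, ∇ f x⟫) Ω := by
    refine integrableOn_of_bdd hb hΩ (hJ.inner (measurable_grad f)) (K := t * K) ?_
    filter_upwards [ht] with x hx hxΩ
    exact (abs_real_inner_le_norm _ _).trans (mul_le_mul (hx hxΩ) (hK x (hr x hxΩ)) (norm_nonneg _)
      ((norm_nonneg _).trans (hx hxΩ)))
  have hsub' : (⋃ R : S, (R : Set E)) ⊆ Ω := iUnion_subset fun R => hsub R R.2
  have e : Ω =ᵐ[volume] ((⋃ R : S, (R : Set E)) : Set E) := by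
    filter_upwards [hc] with x hx
    refine propext ⟨fun h => ?_, fun h => hsub' h⟩
    obtain ⟨R, hR, h⟩ := hx h
    exact mem_iUnion.2 ⟨⟨R, hR⟩, h⟩
  have := hS.to_subtype
  rw [setIntegral_congr_set e, integral_iUnion (fun R : S => hm R R.2)
    (fun R R' hne => hd R.2 R'.2 fun h => hne (Subtype.ext h)) (hi.mono_set hsub')]
  simp only [fun R : S => h0 R R.2, tsum_zero]

/-- At a point `x ∈ Ω` with `F.Loc x` the state is continuous near `x`, so `Sym` a.e. gives `Sym`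
near `x`.  Apply `step_loc` and `cover`; define `F'` on `R ∈ S` as the local modification `F_R`, and
as `F` elsewhere.  A function which on each `R` equals a `2s`-Lipschitz function vanishing off `R`,
and vanishes off `⋃ R`, is `4s`-Lipschitz.  Sum the weak identities (`integral_iUnion` /
`hasSum_integral_iUnion`, `integrableOn_of_bdd`, `LL.grad_bdd`). -/
theorem step_glue {Ω : Set E} (hΩ : IsOpen Ω) (hb : Bornology.IsBounded Ω) {s : ℝ} (hs : 0 < s)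
    {T : Set St} (hT : IsOpen T) {F : Fld} (hF : F.Reg) (h : Inv Ω F (Pre s T)) :
    ∃ F' : Fld, Next Ω (4 * s) F F' ∧ Inv Ω F' T := by
  classical
  obtain ⟨S, hS, hd, hQ, hc⟩ := cover hΩ (fun R => ∃ F' : Fld, Next R (2 * s) F F' ∧
      ∀ᵐ y : E, y ∈ R → y ∈ interior R ∧ F'.Loc y ∧ Sym (F'.st y) ∧ F'.st y ∈ T) (by
    filter_upwards [h] with x hx hxΩ
    exact step_loc hT hF (hx hxΩ).1
      (stepGlue_sym hΩ (h.mono fun y hy hyΩ => (hy hyΩ).2.1) hxΩ (hx hxΩ).1) (hx hxΩ).2.2)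
  have hm : ∀ R ∈ S, MeasurableSet R := fun R hR => (hQ R hR).2.2.measurableSet
  have hsub : ∀ R ∈ S, R ⊆ Ω := fun R hR => (hQ R hR).2.1
  have : Nonempty Fld := ⟨F⟩
  choose! FR hN hI using fun R hR => (hQ R hR).1
  obtain ⟨G, hG1, hG2⟩ : ∃ G : E → Fld, (∀ R ∈ S, ∀ x ∈ R, G x = FR R) ∧
      ∀ x, (¬ ∃ R ∈ S, x ∈ R) → G x = F := by
    refine ⟨fun x => if h : ∃ R ∈ S, x ∈ R then FR h.choose else F, fun R hR x hx => ?_,
      fun x hx => dif_neg hx⟩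
    have h1 : ∃ R ∈ S, x ∈ R := ⟨R, hR, hx⟩
    simp only [dif_pos h1]
    congr 1
    by_contra hne
    exact disjoint_left.1 (hd h1.choose_spec.1 hR hne) h1.choose_spec.2 hx
  have hs2 : 0 ≤ 2 * s := by positivity
  have e4 : 4 * s = 2 * (2 * s) := by ring
  have l1 : ∀ x y, |((G x).u₁ x - F.u₁ x) - ((G y).u₁ y - F.u₁ y)| ≤ 4 * s * dist x y := by
    rw [e4]
    exact stepGlue_lip (D := fun R x => (FR R).u₁ x - F.u₁ x) hs2 (fun R hR => (hN R hR).lip₁)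
      (fun R hR x hx => sub_eq_zero.2 ((hN R hR).out x hx).1)
      (fun R hR x hx => by rw [hG1 R hR x hx]) fun x hx => by rw [hG2 x hx, sub_self]
  have l2 : ∀ x y, |((G x).u₂ x - F.u₂ x) - ((G y).u₂ y - F.u₂ y)| ≤ 4 * s * dist x y := by
    rw [e4]
    exact stepGlue_lip (D := fun R x => (FR R).u₂ x - F.u₂ x) hs2 (fun R hR => (hN R hR).lip₂)
      (fun R hR x hx => sub_eq_zero.2 ((hN R hR).out x hx).2)
      (fun R hR x hx => by rw [hG1 R hR x hx]) fun x hx => by rw [hG2 x hx, sub_self]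
  have m1 : Measurable fun x => (G x).J₁ x :=
    stepGlue_meas hS hm (K := fun R => (FR R).J₁) hF.2.2.1 (fun R hR => (hN R hR).reg.2.2.1)
      (fun R hR x hx => by rw [hG1 R hR x hx]) fun x hx => by rw [hG2 x hx]
  have m2 : Measurable fun x => (G x).J₂ x :=
    stepGlue_meas hS hm (K := fun R => (FR R).J₂) hF.2.2.2 (fun R hR => (hN R hR).reg.2.2.2)
      (fun R hR x hx => by rw [hG1 R hR x hx]) fun x hx => by rw [hG2 x hx]
  have cu : ∀ᵐ x : E, x ∈ Ω → ‖(G x).J₁ x - F.J₁ x‖ ≤ 4 * s ∧ ‖(G x).J₂ x - F.J₂ x‖ ≤ 4 * s := by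
    filter_upwards [hc, (ae_ball_iff hS).2 fun R hR => (hN R hR).cur] with x h1 h2 hx
    obtain ⟨R, hR, hxR⟩ := h1 hx
    rw [hG1 R hR x hxR]
    obtain ⟨k1, k2⟩ := h2 R hR hxR
    exact ⟨by linarith, by linarith⟩
  refine ⟨⟨fun x => (G x).u₁ x, fun x => (G x).u₂ x, fun x => (G x).J₁ x, fun x => (G x).J₂ x⟩,
    ⟨⟨stepGlue_ll hF.1 l1, stepGlue_ll hF.2.1 l2, m1, m2⟩, l1, l2, fun x hx => ?_, cu,
      fun f hf => ⟨?_, ?_⟩⟩, ?_⟩
  · have := hG2 x fun ⟨R, hR, hxR⟩ => hx (hsub R hR hxR)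
    simp only [this, and_self]
  · refine stepGlue_wk hΩ.measurableSet hb hS hd hm hsub hc (m1.sub hF.2.2.1)
      (cu.mono fun x hx hxΩ => (hx hxΩ).1) hf fun R hR => ?_
    rw [← ((hN R hR).wk f hf).1]
    exact setIntegral_congr_fun (hm R hR) fun x hx => by
      simp only [Pi.sub_apply, hG1 R hR x hx]
  · refine stepGlue_wk hΩ.measurableSet hb hS hd hm hsub hc (m2.sub hF.2.2.2)
      (cu.mono fun x hx hxΩ => (hx hxΩ).2) hf fun R hR => ?_
    rw [← ((hN R hR).wk f hf).2]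
    exact setIntegral_congr_fun (hm R hR) fun x hx => by
      simp only [Pi.sub_apply, hG1 R hR x hx]
  · filter_upwards [hc, (ae_ball_iff hS).2 hI] with x h1 h2 hx
    obtain ⟨R, hR, hxR⟩ := h1 hx
    obtain ⟨k0, ⟨k1, k2, L₁, L₂, k3, k4, k5, k6⟩, k7, k8⟩ := h2 R hR hxR
    have ev : ∀ᶠ y in 𝓝 x, G y = FR R := by
      filter_upwards [mem_interior_iff_mem_nhds.1 k0] with y hy using hG1 R hR y hy
    have e1 : (fun y => (G y).u₁ y) =ᶠ[𝓝 x] (FR R).u₁ := ev.mono fun y hy => by simp only [hy]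
    have e2 : (fun y => (G y).u₂ y) =ᶠ[𝓝 x] (FR R).u₂ := ev.mono fun y hy => by simp only [hy]
    have e3 : (fun y => (G y).J₁ y) =ᶠ[𝓝 x] (FR R).J₁ := ev.mono fun y hy => by simp only [hy]
    have e5 : (fun y => (G y).J₂ y) =ᶠ[𝓝 x] (FR R).J₂ := ev.mono fun y hy => by simp only [hy]
    have est : Fld.st ⟨fun x => (G x).u₁ x, fun x => (G x).u₂ x, fun x => (G x).J₁ x,
        fun x => (G x).J₂ x⟩ x = (FR R).st x := by
      simp only [Fld.st, e1.gradient_eq, e2.gradient_eq, hG1 R hR x hxR]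
    rw [est]
    exact ⟨⟨k1.congr_of_eventuallyEq e1, k2.congr_of_eventuallyEq e2, L₁, L₂, k3, k4, e3.trans k5,
      e5.trans k6⟩, k7, k8⟩

end Crest.Agent.R083
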