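import Crest.Agent.R083.StepPsi
import Crest.Agent.R083.StepChain
import Crest.Agent.R083.Cover
import Crest.Agent.R083.StepAlg

/-! Row 83: one lamination on one double cone. -/

set_option autoImplicit false

namespace Crest.Agent.R083

open MeasureTheory Filter Topology Set
open scoped Gradient RealInnerProductSpace

theorem steploc_lip {u : E → ℝ} {x : E} (hu : ContDiffAt ℝ 1 u x) {ε : ℝ} (hε : 0 < ε) :
    ∃ ρ : E → ℝ, (∀ y z, |ρ y - ρ z| ≤ ε * dist y z) ∧ ∀ᶠ y in 𝓝 x, u y = ⟪∇ u x, y⟫ + ρ y := by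
  obtain ⟨W, hW, h⟩ := (hu.hasStrictFDerivAt one_ne_zero).approximates_deriv_on_nhds
    (c := ⟨ε, hε.le⟩) (Or.inr (by exact_mod_cast hε))
  have h1 : LipschitzOnWith ⟨ε, hε.le⟩ (fun y => u y - ⟪∇ u x, y⟫) W := by
    refine LipschitzOnWith.of_dist_le_mul fun y hy z hz => ?_
    have := h y hy z hz
    rw [Real.dist_eq, dist_eq_norm]
    rw [map_sub, Real.norm_eq_abs] at this
    simp only [inner_gradient_left]
    convert this using 2
    ring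
  obtain ⟨ρ, h2, h3⟩ := h1.extend_real
  refine ⟨ρ, fun y z => ?_, ?_⟩
  · have := h2.dist_le_mul y z
    rwa [Real.dist_eq] at this
  · filter_upwards [hW] with y hy
    rw [← h3 hy]; ring

theorem steploc_diff {u ψ ρ : E → ℝ} {v ξ : E} {R : Set E} {ε K s : ℝ} (hε : 0 ≤ ε)
    (hρ : ∀ y z, |ρ y - ρ z| ≤ ε * dist y z) (hψ : ∀ y z, |ψ y - ψ z| ≤ K * dist y z)
    (h0 : ∀ y, y ∉ R → ψ y = 0) (h1 : ∀ y ∈ R, u y = ⟪v, y⟫ + ρ y)
    (h2 : ∀ y ∈ R, u (shift ψ ξ y) = ⟪v, shift ψ ξ y⟫ + ρ (shift ψ ξ y))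
    (hs : |⟪v, ξ⟫| * K + ε * (2 + ‖ξ‖ * K) ≤ s) (y z : E) :
    |(u (shift ψ ξ y) - u y) - (u (shift ψ ξ z) - u z)| ≤ s * dist y z := by
  have key : ∀ y, u (shift ψ ξ y) - u y = ⟪v, ξ⟫ * ψ y + (ρ (shift ψ ξ y) - ρ y) := by
    intro y
    by_cases hy : y ∈ R
    · rw [h2 y hy, h1 y hy, shift, inner_add_right, inner_smul_right]; ring
    · simp [shift, h0 y hy]
  have hd := dist_nonneg (x := y) (y := z)
  have e1 : dist (shift ψ ξ y) (shift ψ ξ z) ≤ (1 + ‖ξ‖ * K) * dist y z := by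
    rw [dist_eq_norm, show shift ψ ξ y - shift ψ ξ z = (y - z) + (ψ y - ψ z) • ξ by
      simp only [shift, sub_smul]; abel]
    refine (norm_add_le _ _).trans ?_
    rw [norm_smul, Real.norm_eq_abs, ← dist_eq_norm]
    nlinarith [mul_le_mul_of_nonneg_right (hψ y z) (norm_nonneg ξ)]
  have e2 := (hρ (shift ψ ξ y) (shift ψ ξ z)).trans (mul_le_mul_of_nonneg_left e1 hε)
  have e3 := hρ y z
  have e4 : |⟪v, ξ⟫ * (ψ y - ψ z)| ≤ |⟪v, ξ⟫| * (K * dist y z) := by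
    rw [abs_mul]; exact mul_le_mul_of_nonneg_left (hψ y z) (abs_nonneg _)
  have e5 := mul_le_mul_of_nonneg_right hs hd
  rw [key y, key z, abs_le]
  rw [abs_le] at e2 e3 e4
  constructor <;> nlinarith [e2.1, e2.2, e3.1, e3.2, e4.1, e4.2]

theorem steploc_int {R : Set E} (hR : IsCompact R) {L : CL} (hL : CLLL L) {f : E → ℝ}
    (hf : LocallyLipschitz f) : IntegrableOn (fun z => ⟪cl L z, ∇ f z⟫) R := by
  obtain ⟨M, hM⟩ := hR.isBounded.subset_closedBall 0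
  obtain ⟨K₁, hK₁, h1⟩ := hL.bdd M
  obtain ⟨K₂, -, h2⟩ := LL.grad_bdd hf M
  refine integrableOn_of_bdd hR.isBounded hR.measurableSet
    ((measurable_cl L).inner (measurable_grad f)) (K := K₁ * K₂) (.of_forall fun z hz => ?_)
  have hz' : ‖z‖ ≤ M := by simpa using hM hz
  exact (abs_real_inner_le_norm _ _).trans
    (mul_le_mul (h1 z hz') (h2 z hz') (norm_nonneg _) hK₁)

theorem steploc_wk {R : Set E} (hR : IsCompact R) {L : CL} (hL : CLLL L) {ψ q₁ q₂ f : E → ℝ}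
    (hψ : LocallyLipschitz ψ) (h0 : ∀ z, z ∉ R → ψ z = 0) (ξ : E) (a b : ℝ)
    (hq₁ : LocallyLipschitz q₁) (hq₂ : LocallyLipschitz q₂) (hf : LocallyLipschitz f)
    {J : E → E} (hJ : ∀ z ∈ R, J z = cl L z) :
    ∫ z in R, ⟪cl (CLcomp L (shift ψ ξ) ++
      [(fun y => a * ψ y, q₁), (fun y => b * ψ y, q₂)]) z - J z, ∇ f z⟫ = 0 := by
  have ha : LocallyLipschitz fun y => a * ψ y := LL.mul (LL.const a) hψ
  have hb : LocallyLipschitz fun y => b * ψ y := LL.mul (LL.const b) hψ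
  have i0 : IntegrableOn (fun z => ⟪cl (CLcomp L (shift ψ ξ)) z - cl L z, ∇ f z⟫) R := by
    simp only [inner_sub_left]
    exact (steploc_int hR (hL.shift hψ ξ) hf).sub (steploc_int hR hL hf)
  have i1 : IntegrableOn (fun z => ⟪cr (∇ (fun y => a * ψ y) z) (∇ q₁ z), ∇ f z⟫) R := by
    simpa using steploc_int hR (L := [(fun y => a * ψ y, q₁)])
      (fun q hq => by rw [List.mem_singleton.1 hq]; exact ⟨ha, hq₁⟩) hf
  have i2 : IntegrableOn (fun z => ⟪cr (∇ (fun y => b * ψ y) z) (∇ q₂ z), ∇ f z⟫) R := by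
    simpa using steploc_int hR (L := [(fun y => b * ψ y, q₂)])
      (fun q hq => by rw [List.mem_singleton.1 hq]; exact ⟨hb, hq₂⟩) hf
  rw [setIntegral_congr_fun hR.measurableSet
    (g := fun z => ⟪cl (CLcomp L (shift ψ ξ)) z - cl L z, ∇ f z⟫ +
      (⟪cr (∇ (fun y => a * ψ y) z) (∇ q₁ z), ∇ f z⟫ +
        ⟪cr (∇ (fun y => b * ψ y) z) (∇ q₂ z), ∇ f z⟫))]
  · have i3 : IntegrableOn (fun z => ⟪cr (∇ (fun y => a * ψ y) z) (∇ q₁ z), ∇ f z⟫ +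
        ⟪cr (∇ (fun y => b * ψ y) z) (∇ q₂ z), ∇ f z⟫) R := i1.add i2
    rw [integral_add i0 i3, integral_add i1 i2, wk_shift hR hL hψ h0 ξ hf,
      wk_psi hR ha hq₁ (fun z hz => by rw [h0 z hz, mul_zero]) hf,
      wk_psi hR hb hq₂ (fun z hz => by rw [h0 z hz, mul_zero]) hf]
    simp
  · intro z hz
    simp only [hJ z hz, cl_append, cl_cons, cl_nil, inner_sub_left, inner_add_left, add_zero]
    ring

theorem steploc_cl {L : CL} {ψ q₁ q₂ : E → ℝ} {ξ y g v₁ v₂ : E} (a b : ℝ) (hψ : Jet ψ y g)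
    (hL : CLC1 L (shift ψ ξ y)) (h₁ : Jet q₁ y v₁) (h₂ : Jet q₂ y v₂) :
    CLC1 (CLcomp L (shift ψ ξ) ++ [(fun y => a * ψ y, q₁), (fun y => b * ψ y, q₂)]) y ∧
      cl (CLcomp L (shift ψ ξ) ++ [(fun y => a * ψ y, q₁), (fun y => b * ψ y, q₂)]) y =
        (1 + ⟪ξ, g⟫) • cl L (shift ψ ξ y) - ⟪g, cl L (shift ψ ξ y)⟫ • ξ +
          (cr (a • g) v₁ + cr (b • g) v₂) := by
  obtain ⟨h1, h2⟩ := cl_shift hψ hL
  constructor
  · intro q hq
    rcases List.mem_append.1 hq with hq | hq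
    · exact h1 q hq
    · rcases List.mem_cons.1 hq with rfl | hq
      · exact ⟨(hψ.const_mul a).1, h₁.1⟩
      · rw [List.mem_singleton.1 hq]
        exact ⟨(hψ.const_mul b).1, h₂.1⟩
  · rw [cl_append, h2, cl_cons, cl_cons, cl_nil, add_zero]
    simp only [(hψ.const_mul a).2, (hψ.const_mul b).2, h₁.2, h₂.2]

/-- Let `ξ, p, g` come from `hp`; replace the lists of `hl` by global ones (`CLC1.ext`).  Choose
`δ < ‖g‖` and a ball `B` about `x` such that for `y ∈ B` and `‖g' ∓ g‖ ≤ δ` the state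
`step (F.st y) ξ p g'` lies in `T` and within `s` of `F.st x` (`continuous_step`,
`continuousAt_grad`, `CLC1.continuousAt`), `F.st y` is within `s` of `F.st x`, `Sym (F.st y)`,
everything is `C¹` at `y` (`CLC1.eventually`), `F.J_a y = cl L_a y`, and
`u_a - ⟪∇ u_a x, ·⟫` is `ε`-Lipschitz on `B` (`HasStrictFDerivAt.approximates_deriv_on_nhds`).
Put `ψ = psi g δ c r`, `G = shift ψ ξ`, `u_a' = u_a ∘ G`,
`L₁' = CLcomp L₁ G ++ [(p₁₁ ψ, u₂'), (-p₁₂ ψ, u₁')]`,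
`L₂' = CLcomp L₂ G ++ [(p₁₂ ψ, u₂'), (-p₂₂ ψ, u₁')]`, `J_a' = cl L_a'`; `r₀` is so small that `G` maps
`ball x r₀` into `B` (`psi_bd`).  At the points of `psi_ae`,
`F'.st y = step (F.st (G y)) ξ p g'` (`Jet.shift`, `cl_shift`, `Sym.step`).
`u_a' - u_a = ⟪∇ u_a x, ξ⟫ ψ + (ρ ∘ G - ρ)` everywhere for an `ε`-Lipschitz extension `ρ`
(`LipschitzOnWith.extend_real`), and `|⟪∇ u_a x, ξ⟫| ‖g‖ < s` by `hp`, so its Lipschitz constant is
`< s + |⟪∇ u_a x, ξ⟫| δ + ε (2 + ‖ξ‖ (‖g‖ + δ)) ≤ 2 s`.  The weak identity: `wk_shift`, `wk_psi`. -/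
theorem step_loc {s : ℝ} {T : Set St} {F : Fld} {x : E} (hT : IsOpen T) (hF : F.Reg)
    (hl : F.Loc x) (hs : ∀ᶠ y in 𝓝 x, Sym (F.st y)) (hp : F.st x ∈ Pre s T) :
    ∃ (g : E) (δ r₀ : ℝ), 0 < δ ∧ 0 < r₀ ∧ ∀ (c : E) (r : ℝ), 0 < r → r ≤ r₀ →
      rh g δ c r ⊆ Metric.ball x r₀ → ∃ F' : Fld, Next (rh g δ c r) (2 * s) F F' ∧
        ∀ᵐ y : E, y ∈ rh g δ c r → y ∈ interior (rh g δ c r) ∧ F'.Loc y ∧ Sym (F'.st y) ∧
          F'.st y ∈ T := by
  obtain ⟨ξ, p, g, hg, t1, t2, n1, n2⟩ := hp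
  obtain ⟨c1, c2, M₁, M₂, m1, m2, j1, j2⟩ := hl
  obtain ⟨L₁, l1, k1, e1⟩ := m1.ext
  obtain ⟨L₂, l2, k2, e2⟩ := m2.ext
  replace j1 : F.J₁ =ᶠ[𝓝 x] cl L₁ := j1.trans e1.symm
  replace j2 : F.J₂ =ᶠ[𝓝 x] cl L₂ := j2.trans e2.symm
  have hs0 : 0 < s := (norm_nonneg _).trans_lt n1
  have hg0 : 0 < ‖g‖ := norm_pos_iff.2 hg
  have hξ := norm_nonneg ξ
  have hst : ContinuousAt F.st x :=
    ((continuousAt_grad c1).prodMk (continuousAt_grad c2)).prodMk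
      ((k1.continuousAt.congr j1.symm).prodMk (k2.continuousAt.congr j2.symm))
  have hU : IsOpen {Z : St | Z ∈ T ∧ ‖Z - F.st x‖ < s} :=
    hT.inter (isOpen_lt (continuous_id.sub continuous_const).norm continuous_const)
  have hev : ∀ g₀ : E, step (F.st x) ξ p g₀ ∈ T → ‖step (F.st x) ξ p g₀ - F.st x‖ < s →
      ∃ η > 0, ∀ y g', dist y x < η → ‖g' - g₀‖ < η →
        step (F.st y) ξ p g' ∈ T ∧ ‖step (F.st y) ξ p g' - F.st x‖ < s := by
    intro g₀ h1 h2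
    have hc0 : ContinuousAt (fun q : E × E => F.st q.1) (x, g₀) :=
      ContinuousAt.comp (g := F.st) (f := Prod.fst) hst continuousAt_fst
    have hc : ContinuousAt (fun q : E × E => step (F.st q.1) ξ p q.2) (x, g₀) :=
      (continuous_step ξ p).continuousAt.comp (f := fun q : E × E => (F.st q.1, q.2))
        (hc0.prodMk continuousAt_snd)
    obtain ⟨η, hη, h⟩ := Metric.eventually_nhds_iff.1 (hc.eventually (hU.mem_nhds ⟨h1, h2⟩))
    refine ⟨η, hη, fun y g' hy hg' => h (y := (y, g')) ?_⟩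
    rw [Prod.dist_eq]
    exact max_lt hy (by rwa [dist_eq_norm])
  obtain ⟨η₁, hη₁, H₁⟩ := hev g t1 n1
  obtain ⟨η₂, hη₂, H₂⟩ := hev (-g) t2 n2
  set ε : ℝ := s / (4 * (1 + ‖ξ‖ * ‖g‖)) with hεdef
  have hε : 0 < ε := by positivity
  obtain ⟨ρ₁, r1, f1⟩ := steploc_lip c1 hε
  obtain ⟨ρ₂, r2, f2⟩ := steploc_lip c2 hε
  have hnear : ∀ᶠ y in 𝓝 x, ‖F.st y - F.st x‖ < s := by
    have : ContinuousAt (fun y => ‖F.st y - F.st x‖) x := (hst.sub continuousAt_const).norm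
    exact this.eventually_lt continuousAt_const (by simpa using hs0)
  have bl₁ : ∀ᶠ y in 𝓝 x, dist y x < η₁ := Metric.ball_mem_nhds x hη₁
  have bl₂ : ∀ᶠ y in 𝓝 x, dist y x < η₂ := Metric.ball_mem_nhds x hη₂
  obtain ⟨η, hη, H⟩ := Metric.eventually_nhds_iff.1 (hs.and (hnear.and (f1.and (f2.and (j1.and
    (j2.and (k1.eventually.and (k2.eventually.and ((c1.eventually (by simp)).and
      ((c2.eventually (by simp)).and (bl₁.and bl₂)))))))))))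
  set δ : ℝ := min (‖g‖ / 2) (min η₁ η₂ / 2) with hδdef
  have hm : 0 < min η₁ η₂ := lt_min hη₁ hη₂
  have hδ : 0 < δ := lt_min (by positivity) (by positivity)
  have hδ1 : δ ≤ ‖g‖ / 2 := min_le_left _ _
  have hδ2 : δ < η₁ := by linarith [min_le_right (‖g‖ / 2) (min η₁ η₂ / 2), min_le_left η₁ η₂]
  have hδ3 : δ < η₂ := by linarith [min_le_right (‖g‖ / 2) (min η₁ η₂ / 2), min_le_right η₁ η₂]
  refine ⟨g, δ, η / (1 + ‖ξ‖), hδ, by positivity, fun c r hr hr0 hsub => ?_⟩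
  set ψ := psi g δ c r with hψdef
  set R := rh g δ c r with hRdef
  have hR : IsCompact R := isCompact_rh g hδ c r
  have hψ : LocallyLipschitz ψ := psi_ll hδ.le
  have h0 : ∀ z, z ∉ R → ψ z = 0 := fun z hz => psi_out hz
  have hin : ∀ y ∈ R, dist y x < η := fun y hy =>
    (Metric.mem_ball.1 (hsub hy)).trans_le (div_le_self hη.le (by linarith))
  have hin' : ∀ y ∈ R, dist (shift ψ ξ y) x < η := by
    intro y hy
    have a1 := Metric.mem_ball.1 (hsub hy)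
    obtain ⟨a2, a3⟩ := psi_bd (g := g) (c := c) hδ.le hr.le y
    have a4 : dist (shift ψ ξ y) y ≤ η / (1 + ‖ξ‖) * ‖ξ‖ := by
      rw [dist_eq_norm, shift, add_sub_cancel_left, norm_smul, Real.norm_of_nonneg a2]
      exact mul_le_mul_of_nonneg_right (a3.trans hr0) hξ
    have a5 : η / (1 + ‖ξ‖) * ‖ξ‖ + η / (1 + ‖ξ‖) = η := by field_simp; ring
    linarith [dist_triangle (shift ψ ξ y) y x]
  have hnum : ∀ v : E, ‖⟪v, ξ⟫ • g‖ < s →
      |⟪v, ξ⟫| * (‖g‖ + δ) + ε * (2 + ‖ξ‖ * (‖g‖ + δ)) ≤ 2 * s := by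
    intro v hv
    rw [norm_smul, Real.norm_eq_abs] at hv
    have a1 : ε * (4 * (1 + ‖ξ‖ * ‖g‖)) = s := by rw [hεdef]; field_simp
    have a2 := mul_le_mul_of_nonneg_left hδ1 (abs_nonneg ⟪v, ξ⟫)
    have a3 := mul_le_mul_of_nonneg_left (mul_le_mul_of_nonneg_left hδ1 hξ) hε.le
    have a4 : 0 ≤ ε * (‖ξ‖ * ‖g‖) := by positivity
    nlinarith
  have ll₁ : LocallyLipschitz fun z => F.u₁ (shift ψ ξ z) := hF.1.comp (ll_shift hψ ξ)
  have ll₂ : LocallyLipschitz fun z => F.u₂ (shift ψ ξ z) := hF.2.1.comp (ll_shift hψ ξ)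
  let F' : Fld := ⟨fun z => F.u₁ (shift ψ ξ z), fun z => F.u₂ (shift ψ ξ z),
    cl (CLcomp L₁ (shift ψ ξ) ++ [(fun y => p.1 * ψ y, fun z => F.u₂ (shift ψ ξ z)),
      (fun y => -p.2.1 * ψ y, fun z => F.u₁ (shift ψ ξ z))]),
    cl (CLcomp L₂ (shift ψ ξ) ++ [(fun y => p.2.1 * ψ y, fun z => F.u₂ (shift ψ ξ z)),
      (fun y => -p.2.2 * ψ y, fun z => F.u₁ (shift ψ ξ z))])⟩
  have main : ∀ᵐ y : E, y ∈ R → y ∈ interior R ∧ F'.Loc y ∧ Sym (F'.st y) ∧ F'.st y ∈ T ∧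
      ‖F'.st y - F.st x‖ < s := by
    filter_upwards [psi_ae (g := g) (c := c) (r := r) hδ (by linarith)] with y hy hyR
    obtain ⟨hi, g', hj, hg'⟩ := hy hyR
    obtain ⟨b1, -, -, -, b5, b6, b7, b8, b9, b10, b11, b12⟩ := H (hin' y hyR)
    have a1 := Jet.shift (ξ := ξ) hj ⟨b9, rfl⟩
    have a2 := Jet.shift (ξ := ξ) hj ⟨b10, rfl⟩
    obtain ⟨a3, a4⟩ := steploc_cl p.1 (-p.2.1) hj b7 a2 a1
    obtain ⟨a5, a6⟩ := steploc_cl p.2.1 (-p.2.2) hj b8 a2 a1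
    have hst' : F'.st y = step (F.st (shift ψ ξ y)) ξ p g' := by
      refine Prod.ext (Prod.ext a1.2 a2.2) (Prod.ext (a4.trans ?_) (a6.trans ?_))
      · simp only [step, Fld.st, b5]
        vec3
      · simp only [step, Fld.st, b6]
        vec3
    refine ⟨hi, ⟨a1.1, a2.1, _, _, a3, a5, .rfl, .rfl⟩, ?_, ?_⟩
    · rw [hst']; exact b1.step ξ p g'
    · rw [hst']
      rcases hg' with hg' | hg'
      · exact H₁ _ _ b11 (hg'.trans_lt hδ2)
      · exact H₂ _ _ b12 (by rw [sub_neg_eq_add]; exact hg'.trans_lt hδ3)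
  refine ⟨F', ⟨⟨ll₁, ll₂, measurable_cl _, measurable_cl _⟩, ?_, ?_, ?_, ?_, ?_⟩, ?_⟩
  · refine steploc_diff hε.le r1 (psi_lip hδ.le) h0 (fun y hy => (H (hin y hy)).2.2.1)
      (fun y hy => (H (hin' y hy)).2.2.1) (hnum _ ?_)
    have := ((norm_fst_le _).trans (norm_fst_le _)).trans_lt n1
    simpa [step, Fld.st] using this
  · refine steploc_diff hε.le r2 (psi_lip hδ.le) h0 (fun y hy => (H (hin y hy)).2.2.2.1)
      (fun y hy => (H (hin' y hy)).2.2.2.1) (hnum _ ?_)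
    have := ((norm_snd_le _).trans (norm_fst_le _)).trans_lt n1
    simpa [step, Fld.st] using this
  · intro y hy
    simp [F', shift, h0 y hy]
  · filter_upwards [main] with y hy hyR
    have a1 := (hy hyR).2.2.2.2
    have a2 := (H (hin y hyR)).2.1
    have a3 : ‖F'.st y - F.st y‖ ≤ 2 * s := by
      have := norm_sub_le_norm_sub_add_norm_sub (F'.st y) (F.st x) (F.st y)
      rw [norm_sub_rev (F.st x)] at this
      linarith
    exact ⟨((norm_fst_le (F'.st y - F.st y).2).trans (norm_snd_le _)).trans a3,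
      ((norm_snd_le (F'.st y - F.st y).2).trans (norm_snd_le _)).trans a3⟩
  · intro f hf
    exact ⟨steploc_wk hR l1 hψ h0 ξ _ _ ll₂ ll₁ hf fun z hz => (H (hin z hz)).2.2.2.2.1,
      steploc_wk hR l2 hψ h0 ξ _ _ ll₂ ll₁ hf fun z hz => (H (hin z hz)).2.2.2.2.2.1⟩
  · filter_upwards [main] with y hy hyR
    exact ⟨(hy hyR).1, (hy hyR).2.1, (hy hyR).2.2.1, (hy hyR).2.2.2.1⟩

end Crest.Agent.R083
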