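import Crest.Agent.R083.GlueLip

/-! Row 83: the tent function of a double cone. -/

set_option autoImplicit false

namespace Crest.Agent.R083

open MeasureTheory Filter Topology Set
open scoped Gradient RealInnerProductSpace

/-- The tent function of `rh g δ c r`. -/
noncomputable def psi (g : E) (δ : ℝ) (c : E) (r : ℝ) (y : E) : ℝ :=
  max 0 (r - |⟪g, y - c⟫| - δ * ‖y - c‖)

variable {g c : E} {δ r : ℝ}

theorem psi_lip (hδ : 0 ≤ δ) (x y : E) :
    |psi g δ c r x - psi g δ c r y| ≤ (‖g‖ + δ) * dist x y := by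
  refine (abs_max_sub_max_le_max _ _ _ _).trans (max_le (by simp; positivity) ?_)
  have h1 : |(|⟪g, x - c⟫|) - (|⟪g, y - c⟫|)| ≤ ‖g‖ * dist x y := by
    refine (abs_abs_sub_abs_le_abs_sub _ _).trans ?_
    rw [← inner_sub_right, sub_sub_sub_cancel_right, dist_eq_norm]
    exact abs_real_inner_le_norm _ _
  have h2 : |‖x - c‖ - ‖y - c‖| ≤ dist x y := by
    refine (abs_norm_sub_norm_le _ _).trans ?_
    rw [sub_sub_sub_cancel_right, dist_eq_norm]
  have h3 := mul_le_mul_of_nonneg_left (abs_le.1 h2).1 hδ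
  have h4 := mul_le_mul_of_nonneg_left (abs_le.1 h2).2 hδ
  have h5 := abs_le.1 h1
  rw [abs_le]
  constructor <;> nlinarith [h5.1, h5.2]

theorem psi_ll (hδ : 0 ≤ δ) : LocallyLipschitz (psi g δ c r) := by
  refine (LipschitzWith.of_dist_le_mul (K := ⟨‖g‖ + δ, by positivity⟩) fun x y => ?_).locallyLipschitz
  exact psi_lip hδ x y

theorem psi_out {y : E} (h : y ∉ rh g δ c r) : psi g δ c r y = 0 := by
  have : r < |⟪g, y - c⟫| + δ * ‖y - c‖ := not_le.1 h
  exact max_eq_left (by linarith)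

theorem psi_bd (hδ : 0 ≤ δ) (hr : 0 ≤ r) (y : E) : 0 ≤ psi g δ c r y ∧ psi g δ c r y ≤ r := by
  have h1 := abs_nonneg ⟪g, y - c⟫
  have h2 := mul_nonneg hδ (norm_nonneg (y - c))
  exact ⟨le_max_left _ _, max_le hr (by linarith)⟩

/-- A.e. `⟪g, y - c⟫ ≠ 0` (`ae_gen` with `N = {0}`), so `y ≠ c` and
`φ y = |⟪g, y - c⟫| + δ ‖y - c‖` is `C¹` at `y` with gradient `± g + δ (y - c)/‖y - c‖ ≠ 0`; by
`ae_gen` with `N = {r}` a.e. `φ y ≠ r`. -/
theorem psi_ae (hδ : 0 < δ) (hg : δ < ‖g‖) : ∀ᵐ y : E, y ∈ rh g δ c r →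
    y ∈ interior (rh g δ c r) ∧ ∃ g' : E, Jet (psi g δ c r) y g' ∧ (‖g' - g‖ ≤ δ ∨ ‖g' + g‖ ≤ δ) := by
  have hg0 : g ≠ 0 := by rintro rfl; simp at hg; linarith
  have j1 : ∀ y, Jet (fun y => ⟪g, y - c⟫) y g := fun y => by
    simpa only [inner_sub_right] using (Jet.inner g y).sub_const ⟪g, c⟫
  have j2 : ∀ y : E, ⟪g, y - c⟫ ≠ 0 → ∃ w : E, ‖w‖ ≤ δ ∧
      Jet (fun y => |⟪g, y - c⟫| + δ * ‖y - c‖) y (sg ⟪g, y - c⟫ • g + w) := by
    intro y hy
    have hyc : y - c ≠ 0 := fun h => hy (by rw [h, inner_zero_right])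
    have hn : Jet (fun y : E => ‖y - c‖) y (∇ (fun y : E => ‖y - c‖) y) :=
      ⟨(contDiffAt_id.sub contDiffAt_const).norm ℝ hyc, rfl⟩
    refine ⟨_, ?_, ((j1 y).abs hy).add (hn.const_mul δ)⟩
    have hl : LipschitzWith 1 fun y : E => ‖y - c‖ := by
      simpa only [dist_eq_norm] using LipschitzWith.dist_left c
    have := norm_fderiv_le_of_lipschitz ℝ hl (x₀ := y)
    rw [norm_smul, norm_grad, Real.norm_of_nonneg hδ.le]
    exact mul_le_of_le_one_right hδ.le this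
  filter_upwards [ae_gen (φ := fun y => ⟪g, y - c⟫) (countable_singleton 0) (by fun_prop),
    ae_gen (φ := fun y => |⟪g, y - c⟫| + δ * ‖y - c‖) (countable_singleton r) (by fun_prop)] with y h1 h2 hy
  have hy0 : ⟪g, y - c⟫ ≠ 0 := h1 (j1 y).diff (by rw [(j1 y).2]; exact hg0)
  obtain ⟨w, hw, hj⟩ := j2 y hy0
  have hne : sg ⟪g, y - c⟫ • g + w ≠ 0 := by
    intro h
    have e : ‖sg ⟪g, y - c⟫ • g‖ = ‖w‖ := by rw [eq_neg_of_add_eq_zero_left h, norm_neg]
    rcases sg_cases ⟪g, y - c⟫ with k | k <;> rw [k] at e <;> simp at e <;> linarith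
  have hlt : |⟪g, y - c⟫| + δ * ‖y - c‖ < r := lt_of_le_of_ne hy (h2 hj.diff (hj.2 ▸ hne))
  refine ⟨mem_interior_iff_mem_nhds.2 ?_, -(sg ⟪g, y - c⟫ • g + w), ?_, ?_⟩
  · filter_upwards [hj.cont.eventually (gt_mem_nhds hlt)] with z hz using hz.le
  · have := Jet.max_right (f := fun _ => 0) continuousAt_const (hj.const_sub r) (sub_pos.2 hlt)
    simp only [sub_add_eq_sub_sub] at this
    exact this
  · rcases sg_cases ⟪g, y - c⟫ with k | k <;> rw [k]
    · right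
      rwa [show -((1 : ℝ) • g + w) + g = -w by rw [one_smul]; abel, norm_neg]
    · left
      rwa [show -((-1 : ℝ) • g + w) - g = -w by rw [neg_one_smul]; abel, norm_neg]

end Crest.Agent.R083
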