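import Crest.Agent.R083.TreeB

/-! Row 83: the tree of cells. -/

set_option autoImplicit false

namespace Crest.Agent.R083

open MeasureTheory Filter Topology Set
open scoped Gradient RealInnerProductSpace

theorem level_word {G : Gadget} {γ : E → ℝ} (H : Self G γ) {M η : ℝ} {k : ℕ}
    (hM : ∀ g : E → ℝ, LocallyLipschitz g → nu G.σ k (fun p => g p ^ 2) ≤
      M * ∫ p in Metric.closedBall (0 : E) 200, (‖∇ g p‖ ^ 2 + g p ^ 2))
    (hη : 175 * (8 / 15) ^ k ≤ η) (e : Fin (Fintype.card (Wd k)) ≃ Wd k) :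
    Level γ 200 M η fun i => G.σ.map (SW k (e i)) := by
  have := G.prob
  have hi : ∀ (α : Wd k) {f : E → ℝ}, Continuous f →
      ∫ p, f p ∂G.σ.map (SW k α) = ∫ p, f (SW k α p) ∂G.σ := fun α f hf =>
    integral_map (continuous_SW k α).aemeasurable hf.aestronglyMeasurable
  have hav : ∀ {f : E → ℝ}, Continuous f →
      av (fun i => G.σ.map (SW k (e i))) f = nu G.σ k f := fun {f} hf => by
    rw [av, nu_eq, card_Wd, ← e.sum_comp]
    simp only [hi _ hf]
  refine ⟨?_, fun i => Measure.isProbabilityMeasure_map (continuous_SW k _).aemeasurable,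
    fun i => ⟨SW k (e i) 0, ?_⟩, fun i => ?_, fun g hg => ?_⟩
  · have : (0 : ℝ) < Fintype.card (Wd k) := by rw [card_Wd]; positivity
    exact_mod_cast this
  · refine (ae_map_iff (continuous_SW k _).aemeasurable ?_).2 (G.supp.mono fun p hp => ⟨?_, ?_⟩)
    · exact ((isClosed_le continuous_norm continuous_const).inter
        (isClosed_le (continuous_id.dist continuous_const) continuous_const)).measurableSet
    · exact (PP_norm (SW_mem k _ hp.1)).trans (by norm_num)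
    · rw [dist_SW, dist_zero_right, mul_comm]
      exact (mul_le_mul_of_nonneg_right (PP_norm hp.1) (by positivity)).trans hη
  · obtain ⟨W, hW⟩ := pot_word H k (e i)
    exact ⟨W, hW.1, fun p hp => out_PP hW.2.1 p (by linarith), fun f hf => by
      rw [hW.2.2 f hf, hi _ hf.continuous, hav hf.continuous]⟩
  · exact (hav (hg.continuous.pow 2)).trans_le (hM g hg)

theorem tree_data (G : Gadget) {γ : E → ℝ} (hm : Measurable γ) (hb : ∀ p, G.c ≤ γ p ∧ γ p ≤ G.C)
    (hR : ∀ p ∈ RR, γ p = G.γ p) (hS : ∀ s, s = 1 ∨ s = -1 → ∀ p ∈ PP, γ (SS s p) = γ p) :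
    ∃ c : E → ℝ, Measurable c ∧ (∀ p, 1 / 2 ≤ c p ∧ c p ≤ 2) ∧ (∀ p, p ∉ PP → c p = 1) ∧
      0 < volume {p | c p ≠ 1} ∧ FData γ c 200 := by
  have H : Self G γ := ⟨hm, hb, hR, hS⟩
  obtain ⟨Ψ, A, hA, hΨm, hΨ0, hΨ⟩ := exists_PhL H
  obtain ⟨M, hM0, hM⟩ := trace_nu H
  obtain ⟨B, hB, hD⟩ := bdd_of_out G.llD fun p hp => (G.out p hp).2
  have hκ := G.hκ
  have hκ' := G.hκ'
  have hd : ∀ n p, |WW G (PhN G.Φ n) p - WW G Ψ p| ≤ 15 / 4 * G.κ⁻¹ * A * (15 / 16) ^ n :=
    fun n p => by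
      rw [show WW G (PhN G.Φ n) p - WW G Ψ p = 15 / 8 * G.κ⁻¹ * ((PhN G.Φ n (SI 1 p) - Ψ (SI 1 p)) -
        (PhN G.Φ n (SI (-1) p) - Ψ (SI (-1) p))) by simp only [WW]; ring, abs_mul,
        abs_of_pos (by positivity : 0 < 15 / 8 * G.κ⁻¹)]
      refine (mul_le_mul_of_nonneg_left ((abs_sub _ _).trans (add_le_add (hΨ n _) (hΨ n _)))
        (by positivity)).trans_eq (by ring)
  have hW : ∀ p, |WW G Ψ p| ≤ G.κ'⁻¹ * B + 15 / 4 * G.κ⁻¹ * A := fun p => by
    have e1 := hd 0 p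
    have e2 : |WW G (PhN G.Φ 0) p| ≤ G.κ'⁻¹ * B := by
      simp only [WW, PhN, mul_zero, add_zero, abs_mul, abs_of_pos (inv_pos.2 hκ')]
      exact mul_le_mul_of_nonneg_left (hD p) (by positivity)
    rw [abs_sub_comm] at e1
    linarith [abs_sub_abs_le_abs_sub (WW G Ψ p) (WW G (PhN G.Φ 0) p)]
  obtain ⟨ε, hε, hε1, hεW⟩ : ∃ ε : ℝ, 0 < ε ∧ ε ≤ 1 / 2 ∧ ∀ p, |ε * WW G Ψ p| ≤ 1 / 2 := by
    set T := G.κ'⁻¹ * B + 15 / 4 * G.κ⁻¹ * A
    have hT : 0 ≤ T := by positivity
    refine ⟨1 / (2 * (T + 1)), by positivity, one_div_le_one_div_of_le two_pos (by linarith),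
      fun p => ?_⟩
    rw [abs_mul, abs_of_pos (by positivity), div_mul_eq_mul_div, div_le_iff₀ (by positivity)]
    linarith [hW p]
  have hout : ∀ {s : ℝ} {p : E}, p ∉ CC s → Ψ (SI s p) = 0 := fun h =>
    hΨ0 _ fun h' => h ((SI_mem _ _).1 h')
  refine ⟨fun p => 1 + ε * WW G Ψ p, ?_, fun p => ?_, fun p hp => ?_, ?_, M + 1, by positivity,
    fun η hη => ?_⟩
  · exact (((G.llD.continuous.measurable.const_mul _).add
      (((hΨm.comp (ll_SI 1).continuous.measurable).const_mul _).add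
        ((hΨm.comp (ll_SI (-1)).continuous.measurable).const_mul _))).const_mul _).const_add _
  · constructor <;> linarith [abs_le.1 (hεW p)]
  · simp [WW, (G.out p hp).2, hout fun h => hp (CC_sub (Or.inl rfl) h),
      hout fun h => hp (CC_sub (Or.inr rfl) h)]
  · obtain ⟨q, hq, hq'⟩ := G.ne
    refine ((isOpen_RR.inter (isOpen_ne_fun G.llD.continuous continuous_const)).measure_pos
      volume ⟨q, hq, hq'⟩).trans_le (measure_mono fun p hp => ?_)
    have : G.D p ≠ 0 := hp.2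
    simp [WW, hout (RR_not_CC hp.1 (Or.inl rfl)), hout (RR_not_CC hp.1 (Or.inr rfl)), hε.ne',
      hκ'.ne', this]
  · have t1 := (tendsto_pow_atTop_nhds_zero_of_lt_one (r := (15 / 16 : ℝ)) (by norm_num)
      (by norm_num)).const_mul (15 / 4 * G.κ⁻¹ * A)
    have t2 := ((tendsto_pow_atTop_nhds_zero_of_lt_one (r := (8 / 15 : ℝ)) (by norm_num)
      (by norm_num)).const_mul 175).comp (tendsto_add_atTop_nat 1)
    rw [mul_zero] at t1 t2
    obtain ⟨n, h1, h2⟩ := ((t1.eventually (ge_mem_nhds hη)).and (t2.eventually (ge_mem_nhds hη))).exists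
    obtain ⟨hl, h0, hw⟩ := (pot_WW H n).smul ε
    set e := (Fintype.equivFin (Wd (n + 1))).symm
    refine ⟨_, _, fun p => ε * WW G (PhN G.Φ n) p + 1, fun i => 2 * ε * sb (e i).1,
      level_word H (fun g hg => (hM n g hg).trans (mul_le_mul_of_nonneg_right (by linarith)
        (integral_nonneg fun p => by positivity))) h2 e, LL.add hl (LL.const _), fun p => ?_,
      fun p hp => ?_, fun i => ?_, fun f hf => ?_⟩
    · rw [show ε * WW G (PhN G.Φ n) p + 1 - (1 + ε * WW G Ψ p) =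
        ε * (WW G (PhN G.Φ n) p - WW G Ψ p) by ring, abs_mul, abs_of_pos hε]
      nlinarith [(hd n p).trans h1, abs_nonneg (WW G (PhN G.Φ n) p - WW G Ψ p)]
    · simp only [out_PP h0 p (by linarith), zero_add]
    · rcases sb_cases (e i).1 with h | h <;> simp only [h] <;> rw [abs_le] <;> constructor <;> linarith
    · simp only [grad_add_const]
      have hi : ∀ α : Wd (n + 1), ∫ p, f p ∂G.σ.map (SW (n + 1) α) = ∫ p, f (SW (n + 1) α p) ∂G.σ :=
        fun α => integral_map (continuous_SW _ α).aemeasurable hf.continuous.aestronglyMeasurable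
      simp only [hi, hw f hf, nu_eq]
      rw [card_Wd, e.sum_comp fun α => 2 * ε * sb α.1 * ∫ p, f (SW (n + 1) α p) ∂G.σ, sum_Wd]
      simp only [SW, sb, if_true, Bool.false_eq_true, if_false, ← Finset.mul_sum]
      ring

end Crest.Agent.R083
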