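import Crest.Agent.R083.Geo
import Crest.Agent.R083.Form

/-! Row 83: potentials supported in the cell. -/

set_option autoImplicit false

namespace Crest.Agent.R083

open MeasureTheory Filter Topology Set
open scoped Gradient RealInnerProductSpace

noncomputable section

/-- `W` is a potential, supported in the cell, of the functional `l`. -/
def Pot (γ W : E → ℝ) (l : (E → ℝ) → ℝ) : Prop :=
  LocallyLipschitz W ∧ (∀ p, p ∉ PP → W p = 0) ∧
    ∀ f, LocallyLipschitz f → ∫ p, γ p * ⟪∇ W p, ∇ f p⟫ = l f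

/-- The properties of the self-similar conductivity. -/
structure Self (G : Gadget) (γ : E → ℝ) : Prop where
  hm : Measurable γ
  hb : ∀ p, G.c ≤ γ p ∧ γ p ≤ G.C
  hR : ∀ p ∈ RR, γ p = G.γ p
  hS : ∀ s, s = 1 ∨ s = -1 → ∀ p ∈ PP, γ (SS s p) = γ p

variable {G : Gadget} {γ W W' : E → ℝ} {l l' : (E → ℝ) → ℝ} {s : ℝ}

theorem Self.abs (h : Self G γ) (p : E) : |γ p| ≤ G.C := by
  rw [abs_of_pos (G.hc.trans_le (h.hb p).1)]
  exact (h.hb p).2

theorem out_PP (h : ∀ p, p ∉ PP → W p = 0) (p : E) (hp : 175 < ‖p‖) : W p = 0 :=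
  h p fun h' => hp.not_ge (PP_norm h')

theorem grad_PP (h : ∀ p, p ∉ PP → W p = 0) {p : E} (hp : p ∉ PP) : ∇ W p = 0 :=
  grad_of_eventually_const ((isClosed_PP.isOpen_compl.eventually_mem hp).mono h)

theorem Pot.of_eq (h : Pot γ W l) (e : ∀ f, LocallyLipschitz f → l f = l' f) : Pot γ W l' :=
  ⟨h.1, h.2.1, fun f hf => (h.2.2 f hf).trans (e f hf)⟩

theorem pot_zero : Pot γ (fun _ => 0) fun _ => 0 :=
  ⟨LL.const _, fun _ _ => rfl, fun f _ => by simp⟩

theorem Pot.smul (h : Pot γ W l) (a : ℝ) : Pot γ (fun p => a * W p) fun f => a * l f :=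
  ⟨LL.mul (LL.const _) h.1, fun p hp => by simp only [h.2.1 p hp, mul_zero], fun f hf => by
    beta_reduce
    rw [← h.2.2 f hf, ← integral_const_mul]
    simp only [grad_const_mul, real_inner_smul_left, mul_left_comm]⟩

theorem Pot.add (H : Self G γ) (h : Pot γ W l) (h' : Pot γ W' l') :
    Pot γ (fun p => W p + W' p) fun f => l f + l' f :=
  ⟨LL.add h.1 h'.1, fun p hp => by simp only [h.2.1 p hp, h'.2.1 p hp, add_zero], fun f hf => by
    beta_reduce
    rw [← h.2.2 f hf, ← h'.2.2 f hf, ← integral_add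
      (integrable_form H.hm H.abs h.1 (out_PP h.2.1) hf)
      (integrable_form H.hm H.abs h'.1 (out_PP h'.2.1) hf)]
    refine integral_congr_ae ?_
    filter_upwards [LL.ae_diff h.1, LL.ae_diff h'.1] with p h1 h2
    rw [grad_add h1 h2, inner_add_left, mul_add]⟩

theorem Pot.comp (H : Self G γ) (hs : s = 1 ∨ s = -1) (h : Pot γ W l) :
    Pot γ (fun p => W (SI s p)) fun f => 8 / 15 * l fun p => f (SS s p) :=
  ⟨h.1.comp (ll_SI s), fun p hp => h.2.1 _ fun h' => hp (CC_sub hs ((SI_mem s p).1 h')),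
    fun f hf => by
      beta_reduce
      rw [transport, ← h.2.2 (fun p => f (SS s p)) (hf.comp (ll_SS s))]
      congr 1
      refine integral_congr_ae (.of_forall fun p => ?_)
      by_cases hp : p ∈ PP
      · simp only [H.hS s hs p hp]
      · simp only [grad_PP h.2.1 hp, inner_zero_left, mul_zero]⟩

theorem Self.cell (H : Self G γ) (hg : ∀ᵐ p : E, p ∉ RR → ∇ W p = 0) (f : E → ℝ) :
    ∫ p, γ p * ⟪∇ W p, ∇ f p⟫ = ∫ p in RR, G.γ p * ⟪∇ W p, ∇ f p⟫ := by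
  rw [← setIntegral_eq_integral_of_ae_compl_eq_zero (s := RR)
    (hg.mono fun p h hp => by simp [h hp])]
  exact setIntegral_congr_fun isOpen_RR.measurableSet fun p hp => by simp only [H.hR p hp]

/-- The level averages of the port measures. -/
def nu (σ : Measure E) : ℕ → (E → ℝ) → ℝ
  | 0, f => ∫ p, f p ∂σ
  | n + 1, f => (nu σ n (fun p => f (SS 1 p)) + nu σ n fun p => f (SS (-1) p)) / 2

def PhN (Φ : E → ℝ) : ℕ → E → ℝ
  | 0, _ => 0
  | n + 1, p => Φ p + (15 / 16 * PhN Φ n (SI 1 p) + 15 / 16 * PhN Φ n (SI (-1) p))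

theorem pot_PhN (H : Self G γ) (n : ℕ) :
    Pot γ (PhN G.Φ n) fun f => G.κ * (nu G.σ n f - nu G.σ 0 f) := by
  induction n with
  | zero => exact pot_zero.of_eq fun f _ => by simp
  | succ n ih =>
    have h0 : Pot γ G.Φ _ := ⟨G.llΦ, fun p hp => (G.out p hp).1, fun f hf =>
      (H.cell (G.grad.mono fun p h hp => (h hp).1) f).trans (G.wk f hf).1⟩
    refine (h0.add H (((ih.comp H (Or.inl rfl)).smul (15 / 16)).add H
      ((ih.comp H (Or.inr rfl)).smul (15 / 16)))).of_eq fun f _ => ?_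
    simp only [nu]
    ring

/-- The potential of the difference of the two halves of level `n + 1`. -/
def WW (G : Gadget) (Ψ : E → ℝ) (p : E) : ℝ :=
  G.κ'⁻¹ * G.D p + (15 / 8 * G.κ⁻¹ * Ψ (SI 1 p) + -(15 / 8 * G.κ⁻¹) * Ψ (SI (-1) p))

theorem pot_WW (H : Self G γ) (n : ℕ) : Pot γ (WW G (PhN G.Φ n)) fun f =>
    nu G.σ n (fun p => f (SS 1 p)) - nu G.σ n fun p => f (SS (-1) p) := by
  have h0 : Pot γ G.D _ := ⟨G.llD, fun p hp => (G.out p hp).2, fun f hf =>
    (H.cell (G.grad.mono fun p h hp => (h hp).2) f).trans (G.wk f hf).2⟩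
  refine ((h0.smul G.κ'⁻¹).add H ((((pot_PhN H n).comp H (Or.inl rfl)).smul _).add H
    (((pot_PhN H n).comp H (Or.inr rfl)).smul _))).of_eq fun f _ => ?_
  have := G.hκ.ne'
  have := G.hκ'.ne'
  simp only [nu]
  field_simp
  ring

theorem two_le {a : E → ℝ} {B : ℝ} (h : ∀ q, |a q| ≤ B) (h0 : ∀ q, q ∉ PP → a q = 0) (p : E) :
    |a (SI 1 p)| + |a (SI (-1) p)| ≤ B := by
  by_cases hp : p ∈ CC 1
  · rw [h0 (SI (-1) p) fun h' => disjoint_left.1 CC_disj hp ((SI_mem _ _).1 h'), abs_zero, add_zero]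
    exact h _
  · rw [h0 (SI 1 p) fun h' => hp ((SI_mem _ _).1 h'), abs_zero, zero_add]
    exact h _

theorem bdd_of_out (hW : LocallyLipschitz W) (h0 : ∀ p, p ∉ PP → W p = 0) :
    ∃ A, 0 ≤ A ∧ ∀ p, |W p| ≤ A := by
  obtain ⟨A, hA, h⟩ := LL.bdd hW 175
  refine ⟨A, hA, fun p => ?_⟩
  by_cases hp : p ∈ PP
  · exact h p (PP_norm hp)
  · rwa [h0 p hp, abs_zero]

theorem PhN_step (H : Self G γ) {A : ℝ} (hA : ∀ p, |G.Φ p| ≤ A) (n : ℕ) (p : E) :
    |PhN G.Φ (n + 1) p - PhN G.Φ n p| ≤ A * (15 / 16) ^ n := by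
  induction n generalizing p with
  | zero => simpa [PhN] using hA p
  | succ n ih =>
    have := two_le ih (fun q hq => by
      rw [(pot_PhN H (n + 1)).2.1 q hq, (pot_PhN H n).2.1 q hq, sub_self]) p
    rw [show PhN G.Φ (n + 1 + 1) p - PhN G.Φ (n + 1) p =
      15 / 16 * ((PhN G.Φ (n + 1) (SI 1 p) - PhN G.Φ n (SI 1 p)) +
        (PhN G.Φ (n + 1) (SI (-1) p) - PhN G.Φ n (SI (-1) p))) by
      rw [PhN, show PhN G.Φ (n + 1) p = _ from PhN.eq_2 _ _ _]; ring, abs_mul, pow_succ,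
      abs_of_pos (by norm_num : (0 : ℝ) < 15 / 16)]
    linarith [abs_add_le (PhN G.Φ (n + 1) (SI 1 p) - PhN G.Φ n (SI 1 p))
      (PhN G.Φ (n + 1) (SI (-1) p) - PhN G.Φ n (SI (-1) p))]

theorem exists_PhL (H : Self G γ) : ∃ (Ψ : E → ℝ) (A : ℝ), 0 ≤ A ∧ Measurable Ψ ∧
    (∀ p, p ∉ PP → Ψ p = 0) ∧ ∀ n p, |PhN G.Φ n p - Ψ p| ≤ A * (15 / 16) ^ n := by
  obtain ⟨A, hA0, hA⟩ := bdd_of_out G.llΦ fun p hp => (G.out p hp).1
  have hd : ∀ p n, dist (PhN G.Φ n p) (PhN G.Φ (n + 1) p) ≤ A * (15 / 16) ^ n := fun p n => by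
    rw [dist_comm]
    exact PhN_step H hA n p
  choose Ψ hΨ using fun p => cauchySeq_tendsto_of_complete
    (cauchySeq_of_le_geometric (15 / 16) A (by norm_num) (hd p))
  refine ⟨Ψ, 16 * A, by positivity, measurable_of_tendsto_metrizable
    (fun n => (pot_PhN H n).1.continuous.measurable) (tendsto_pi_nhds.2 hΨ), fun p hp => ?_,
    fun n p => ?_⟩
  · exact tendsto_nhds_unique (hΨ p)
      (tendsto_const_nhds.congr fun n => ((pot_PhN H n).2.1 p hp).symm)
  · refine (dist_le_of_le_geometric_of_tendsto (15 / 16) A (by norm_num) (hd p) (hΨ p) n).trans_eq ?_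
    ring

end

end Crest.Agent.R083
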