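import Crest.Agent.R083.TreeA

/-! Row 83: words and the trace inequality. -/

set_option autoImplicit false

namespace Crest.Agent.R083

open MeasureTheory Filter Topology Set
open scoped Gradient RealInnerProductSpace

noncomputable section

/-- Words of length `k`. -/
def Wd : ℕ → Type
  | 0 => Unit
  | k + 1 => Bool × Wd k

instance instWd : ∀ k, Fintype (Wd k)
  | 0 => inferInstanceAs (Fintype Unit)
  | k + 1 => @instFintypeProd Bool (Wd k) _ (instWd k)

def sb (b : Bool) : ℝ := if b then 1 else -1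

theorem sb_cases (b : Bool) : sb b = 1 ∨ sb b = -1 := by cases b <;> simp [sb]

def SW : (k : ℕ) → Wd k → E → E
  | 0, _, p => p
  | k + 1, α, p => SS (sb α.1) (SW k α.2 p)

theorem sum_Wd {k : ℕ} (F : Wd (k + 1) → ℝ) :
    ∑ α, F α = ∑ α : Wd k, F (true, α) + ∑ α : Wd k, F (false, α) :=
  (Fintype.sum_prod_type (α₁ := Bool) (α₂ := Wd k) F).trans (Fintype.sum_bool _)

theorem card_Wd (k : ℕ) : (Fintype.card (Wd k) : ℝ) = 2 ^ k := by
  induction k with
  | zero => exact Nat.cast_one.trans (pow_zero _).symm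
  | succ k ih =>
    have := sum_Wd (k := k) fun _ => 1
    simp only [Finset.sum_const, Finset.card_univ, nsmul_eq_mul, mul_one, ih] at this
    rw [this]
    ring

theorem continuous_SW (k : ℕ) (α : Wd k) : Continuous (SW k α) := by
  induction k with
  | zero => exact continuous_id
  | succ k ih => exact (ll_SS _).continuous.comp (ih α.2)

theorem SW_mem (k : ℕ) (α : Wd k) {p : E} (hp : p ∈ PP) : SW k α p ∈ PP := by
  induction k with
  | zero => exact hp
  | succ k ih => exact CC_sub (sb_cases _) ((SS_mem _ _).2 (ih α.2))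

theorem dist_SW (k : ℕ) (α : Wd k) (p q : E) :
    dist (SW k α p) (SW k α q) = (8 / 15) ^ k * dist p q := by
  induction k with
  | zero => simp [SW]
  | succ k ih => rw [SW, SW, dist_SS, ih, pow_succ]; ring

theorem nu_eq (σ : Measure E) (k : ℕ) (f : E → ℝ) :
    nu σ k f = (∑ α : Wd k, ∫ p, f (SW k α p) ∂σ) / 2 ^ k := by
  induction k generalizing f with
  | zero =>
    rw [pow_zero, div_one]
    exact (Fintype.sum_unique (ι := Unit) fun _ => ∫ p, f p ∂σ).symm
  | succ k ih =>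
    rw [nu, ih, ih, sum_Wd, pow_succ]
    simp only [SW, sb, if_true, Bool.false_eq_true, if_false]
    ring

variable {G : Gadget} {γ : E → ℝ}

theorem pot_word (H : Self G γ) (k : ℕ) (α : Wd k) :
    ∃ W, Pot γ W fun f => ∫ p, f (SW k α p) ∂G.σ - nu G.σ k f := by
  induction k with
  | zero => exact ⟨_, pot_zero.of_eq fun f _ => (sub_self _).symm⟩
  | succ k ih =>
    obtain ⟨W, hW⟩ := ih α.2
    refine ⟨_, (((hW.comp H (sb_cases α.1)).smul (15 / 8)).add H
      ((pot_WW H k).smul (sb α.1 / 2))).of_eq fun f _ => ?_⟩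
    simp only [nu, SW]
    rcases sb_cases α.1 with h | h <;> rw [h] <;> ring

theorem ground {h P : E → ℝ} {p : E} (hh : DifferentiableAt ℝ h p) (hP : DifferentiableAt ℝ P p)
    (h0 : P p ≠ 0) : ⟪∇ P p, ∇ (fun y => h y * h y * (P y)⁻¹) p⟫ ≤ ‖∇ h p‖ ^ 2 := by
  rw [grad_mul (hh.fun_mul hh) (hP.fun_inv h0), grad_mul hh hh, grad_inv hP h0]
  have := sq_nonneg ‖∇ h p - (h p * (P p)⁻¹) • ∇ P p‖
  rw [norm_sub_sq_real, real_inner_smul_right, norm_smul, mul_pow, Real.norm_eq_abs, sq_abs,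
    real_inner_comm] at this
  simp only [inner_add_right, real_inner_smul_right, real_inner_self_eq_norm_sq, ← inv_pow]
  nlinarith

theorem trace_nu (H : Self G γ) : ∃ M : ℝ, 0 < M ∧ ∀ (n : ℕ) (g : E → ℝ), LocallyLipschitz g →
    nu G.σ (n + 1) (fun p => g p ^ 2) ≤
      M * ∫ p in Metric.closedBall (0 : E) 200, (‖∇ g p‖ ^ 2 + g p ^ 2) := by
  obtain ⟨Ψ, A, hA, -, -, hΨ⟩ := exists_PhL H
  obtain ⟨K₁, hK₁, h1⟩ := LL.bdd G.llΦ 200
  obtain ⟨K₂, hK₂, h2⟩ := LL.grad_bdd G.llΦ 200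
  have hκ := G.hκ
  have hC := G.hC1
  have := G.prob
  refine ⟨(4 * A + 1) * G.κ⁻¹ * (G.C * (2 * (K₁ ^ 2 + K₂ ^ 2 + 1))), by positivity,
    fun n g hg => ?_⟩
  obtain ⟨hP, hP0, hPw⟩ := pot_PhN H (n + 1)
  have hb : ∀ p, |PhN G.Φ (n + 1) p| ≤ 2 * A := fun p => by
    have e1 := hΨ 0 p
    have e2 := (hΨ (n + 1) p).trans (mul_le_of_le_one_right hA
      (pow_le_one₀ (by norm_num) (by norm_num)))
    simp only [PhN.eq_1, zero_sub, abs_neg, pow_zero, mul_one] at e1
    linarith [abs_sub_abs_le_abs_sub (PhN G.Φ (n + 1) p) (Ψ p)]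
  set P : E → ℝ := fun p => PhN G.Φ (n + 1) p + (2 * A + 1) with hPdef
  have hP1 : ∀ p, 1 ≤ P p ∧ P p ≤ 4 * A + 1 := fun p => by
    constructor <;> simp only [hPdef] <;> linarith [abs_le.1 (hb p)]
  have hPl : LocallyLipschitz P := LL.add hP (LL.const _)
  have hne : ∀ p, P p ≠ 0 := fun p => (one_pos.trans_le (hP1 p).1).ne'
  have hh : LocallyLipschitz fun p => g p * G.Φ p := LL.mul hg G.llΦ
  have hf := LL.mul (LL.mul hh hh) (LL.inv hPl hne)
  set f : E → ℝ := fun p => g p * G.Φ p * (g p * G.Φ p) * (P p)⁻¹ with hfdef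
  have hs : ∀ᵐ p ∂G.σ, ‖p‖ ≤ 175 := G.supp.mono fun p hp => PP_norm hp.1
  have e1 : nu G.σ (n + 1) (fun p => g p ^ 2) ≤ (4 * A + 1) * nu G.σ (n + 1) f := by
    rw [nu_eq, nu_eq, ← mul_div_assoc, Finset.mul_sum]
    refine div_le_div_of_nonneg_right (Finset.sum_le_sum fun α _ => ?_) (by positivity)
    rw [← integral_const_mul]
    refine integral_mono_ae
      (integrable_of_supp hs ((hg.continuous.pow 2).comp (continuous_SW _ α)))
      ((integrable_of_supp hs (hf.continuous.comp (continuous_SW _ α))).const_mul _) ?_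
    filter_upwards [G.supp] with p hp
    have : G.Φ (SW (n + 1) α p) = 90 :=
      (G.inn _ (sb_cases α.1) _ ((SS_mem _ _).2 (SW_mem n α.2 hp.1))).1
    simp only [hfdef, this]
    obtain ⟨a1, a2⟩ := hP1 (SW (n + 1) α p)
    have : 1 ≤ (4 * A + 1) * (P (SW (n + 1) α p))⁻¹ := by
      rw [← div_eq_mul_inv, one_le_div (by linarith)]
      exact a2
    nlinarith [sq_nonneg (g (SW (n + 1) α p))]
  have e2 : nu G.σ 0 f = 0 := integral_eq_zero_of_ae (G.supp.mono fun p hp => by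
    simp [hfdef, hp.2])
  have e3 := hPw f hf
  beta_reduce at e3
  rw [← form_eq (out_PP hP0) (Metric.closedBall_subset_closedBall (by norm_num : (175 : ℝ) ≤ 200)),
    e2, sub_zero] at e3
  have e4 : G.κ * nu G.σ (n + 1) f ≤ G.C * (2 * (K₁ ^ 2 + K₂ ^ 2 + 1)) *
      ∫ p in Metric.closedBall (0 : E) 200, (‖∇ g p‖ ^ 2 + g p ^ 2) := by
    rw [← e3, ← integral_const_mul]
    have i1 := integrableOn_form (γ := fun _ => 1) (C := 1) (Metric.isBounded_closedBall
      (x := (0 : E)) (r := 200)) measurableSet_closedBall measurable_const (by simp) hg hg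
    simp only [one_mul, real_inner_self_eq_norm_sq] at i1
    refine setIntegral_mono_on_ae
      (integrableOn_form Metric.isBounded_closedBall measurableSet_closedBall H.hm H.abs hP hf)
      ((i1.add (integrableOn_cont Metric.isBounded_closedBall (hg.continuous.pow 2))).const_mul _)
      measurableSet_closedBall ?_
    filter_upwards [LL.ae_diff hg, LL.ae_diff G.llΦ, LL.ae_diff hPl] with p d1 d2 d3 hp
    have g1 := ground (d1.fun_mul d2) d3 (hne p)
    rw [hPdef, grad_add_const, grad_mul d1 d2] at g1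
    have hp' : ‖p‖ ≤ 200 := by simpa using hp
    have g2 : ‖g p • ∇ G.Φ p + G.Φ p • ∇ g p‖ ≤ |g p| * K₂ + K₁ * ‖∇ g p‖ := by
      refine (norm_add_le _ _).trans ?_
      rw [norm_smul, norm_smul]
      exact add_le_add (mul_le_mul_of_nonneg_left (h2 p hp') (abs_nonneg _))
        (mul_le_mul_of_nonneg_right (h1 p hp') (norm_nonneg _))
    have g3 : ‖g p • ∇ G.Φ p + G.Φ p • ∇ g p‖ ^ 2 ≤
        2 * (K₁ ^ 2 + K₂ ^ 2 + 1) * (‖∇ g p‖ ^ 2 + g p ^ 2) := by
      refine (pow_le_pow_left₀ (norm_nonneg _) g2 2).trans ?_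
      rw [← sq_abs (g p)]
      nlinarith [sq_nonneg (|g p| * K₂ - K₁ * ‖∇ g p‖), sq_nonneg (|g p| * K₁),
        sq_nonneg (K₂ * ‖∇ g p‖), sq_nonneg |g p|, sq_nonneg ‖∇ g p‖]
    obtain ⟨b1, b2⟩ := H.hb p
    have b0 := (G.hc.trans_le b1).le
    calc _ ≤ γ p * (2 * (K₁ ^ 2 + K₂ ^ 2 + 1) * (‖∇ g p‖ ^ 2 + g p ^ 2)) :=
          mul_le_mul_of_nonneg_left (g1.trans g3) b0
      _ ≤ _ := by rw [mul_assoc G.C]; gcongr
  calc _ ≤ _ := e1
    _ = (4 * A + 1) * G.κ⁻¹ * (G.κ * nu G.σ (n + 1) f) := by field_simp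
    _ ≤ _ := by rw [mul_assoc _ (G.C * _)]; gcongr

end

end Crest.Agent.R083
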